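import Mathlib

/-! # The certificate in dimension 4: real lemmas -/

open Set

namespace Vale.Agent.P219.D4

/-- Coefficients of the kernel in `c = (A+B)/2`, `p = A B`. -/
structure KS where
  k1 : ℝ
  kc : ℝ
  kcc : ℝ
  kp : ℝ
  kcp : ℝ
  kccp : ℝ
  kpp : ℝ

namespace KS

variable (K : KS)

/-- The kernel in `c`, `p`. -/
noncomputable def g (c p : ℝ) : ℝ :=
  K.k1 + K.kc * c + K.kcc * c ^ 2 + K.kp * p + K.kcp * (c * p) + K.kccp * (c ^ 2 * p) +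
    K.kpp * p ^ 2

/-- The kernel. -/
noncomputable def pm (A B : ℝ) : ℝ := K.g ((A + B) / 2) (A * B)

/-- The basic inequalities. -/
structure Base (k2 : ℝ) : Prop where
  tan1 : K.kcp = K.kc + 2 * K.k1 - 2 * (K.kccp + K.kpp)
  tan2 : K.kp = K.kccp + K.kpp - 3 * K.k1 - 2 * K.kc - K.kcc
  hk2 : 0 ≤ k2
  hpp : K.kpp ≤ k2
  h0 : k2 < K.k1
  h1 : 0 ≤ K.kc + 2 * K.k1
  h2 : 0 ≤ 3 * K.k1 + K.kc + K.kccp + K.kpp
  hr : 0 < 4 * K.k1 + 2 * K.kc + K.kcc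
  hccp : 0 ≤ K.kccp

variable {K} {k2 : ℝ}

theorem g_eq (h : K.Base k2) (c p : ℝ) : K.g c p =
    (c ^ 2 - p) * (4 * K.k1 + 2 * K.kc + K.kcc + K.kccp * (2 * c - 1)) +
      (p - (2 * c - 1)) * (K.k1 + (K.kc + 2 * K.k1) * c + (K.kccp + K.kpp) * c ^ 2) -
      K.kpp * (p - (2 * c - 1)) * (c ^ 2 - p) := by
  rw [g, h.tan1, h.tan2]; ring

/-- Positivity between `A = B` and `B = 1`. -/
theorem same_aux (h : K.Base k2) {c p : ℝ} (hlo : 2 * c - 1 ≤ p) (hhi : p ≤ c ^ 2) (hc : c ≠ 1)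
    (hc0 : 1 ≤ 2 * c) (hq : k2 * (1 - c) ^ 2 <
      K.k1 + (K.kc + 2 * K.k1) * c + (K.kccp + K.kpp) * c ^ 2) : 0 < K.g c p := by
  obtain ⟨t, ht⟩ : ∃ t, t = p - (2 * c - 1) := ⟨_, rfl⟩
  obtain ⟨w, hw⟩ : ∃ w, w = c ^ 2 - p := ⟨_, rfl⟩
  obtain ⟨q, hq'⟩ : ∃ q, q = K.k1 + (K.kc + 2 * K.k1) * c + (K.kccp + K.kpp) * c ^ 2 := ⟨_, rfl⟩
  have ht0 : 0 ≤ t := by linarith
  have hw0 : 0 ≤ w := by linarith
  have hD : t + w = (1 - c) ^ 2 := by rw [ht, hw]; ring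
  have hD0 : 0 < (1 - c) ^ 2 := by
    have : 1 - c ≠ 0 := fun h0 => hc (by linarith)
    positivity
  rw [g_eq h, ← ht, ← hw, ← hq']
  rw [← hq'] at hq
  have hr : 0 < 4 * K.k1 + 2 * K.kc + K.kcc + K.kccp * (2 * c - 1) := by
    have := mul_nonneg h.hccp (by linarith : 0 ≤ 2 * c - 1)
    linarith [h.hr]
  generalize 4 * K.k1 + 2 * K.kc + K.kcc + K.kccp * (2 * c - 1) = R at hr
  have h1 : K.kpp * t * w ≤ k2 * t * (1 - c) ^ 2 := by
    have e1 : 0 ≤ (k2 - K.kpp) * (t * w) := mul_nonneg (by linarith [h.hpp]) (mul_nonneg ht0 hw0)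
    have e2 : 0 ≤ k2 * t * t := mul_nonneg (mul_nonneg h.hk2 ht0) ht0
    rw [← hD]
    nlinarith
  have h2 : 0 < w * R + t * (q - k2 * (1 - c) ^ 2) := by
    rcases ht0.eq_or_lt with h0 | h0
    · have : 0 < w := by rw [← hD, ← h0, zero_add] at hD0; exact hD0
      rw [← h0, zero_mul, add_zero]
      exact mul_pos this hr
    · have := mul_pos h0 (sub_pos.2 hq)
      have := mul_nonneg hw0 hr.le
      linarith
  linarith

theorem left_q (h : K.Base k2) {c : ℝ} (hc0 : 0 ≤ c) (hc1 : c < 1) : k2 * (1 - c) ^ 2 <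
    K.k1 + (K.kc + 2 * K.k1) * c + (K.kccp + K.kpp) * c ^ 2 := by
  have h1 : 0 < (K.k1 - k2) * (1 - c ^ 2) := by
    refine mul_pos (by linarith [h.h0]) ?_
    nlinarith
  have h2 : 0 ≤ (K.kc + 2 * K.k1 + 2 * k2) * (c * (1 - c)) :=
    mul_nonneg (by linarith [h.h1, h.hk2]) (mul_nonneg hc0 (by linarith))
  have h3 := mul_nonneg (sq_nonneg c) h.h2
  linarith

theorem k1_pos (h : K.Base k2) : 0 < K.k1 := by linarith [h.h0, h.hk2]

/-- `pm 0 t`, `t ≤ 1`. -/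
theorem g_zero (h : K.Base k2) {c : ℝ} (hc0 : 0 ≤ c) (hc1 : 2 * c ≤ 1) :
    0 < K.g c 0 := by
  have h1 : K.g c 0 = (1 - 2 * c) ^ 2 * K.k1 +
      (2 * c) * (1 - 2 * c) * ((4 * K.k1 + K.kc) / 2) +
      c ^ 2 * (4 * K.k1 + 2 * K.kc + K.kcc) := by
    rw [g]; ring
  rw [h1]
  have hk := k1_pos h
  have h2 : 0 ≤ (2 * c) * (1 - 2 * c) * ((4 * K.k1 + K.kc) / 2) :=
    mul_nonneg (mul_nonneg (by linarith) (by linarith)) (by linarith [h.h1])
  rcases hc0.eq_or_lt with h0 | h0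
  · rw [← h0]; norm_num; exact hk
  · have h3 := mul_pos (pow_pos h0 2) h.hr
    have h4 := mul_nonneg (sq_nonneg (1 - 2 * c)) hk.le
    linarith

/-- The side `A, B ≤ 1`. -/
theorem left_pos (h : K.Base k2) {A B : ℝ} (hA : A ∈ Icc (0 : ℝ) 1) (hB : B ∈ Icc (0 : ℝ) 1)
    (hne : A + B < 2) : 0 < K.pm A B := by
  obtain ⟨hA0, hA1⟩ := hA
  obtain ⟨hB0, hB1⟩ := hB
  have hc0 : 0 ≤ (A + B) / 2 := by linarith
  have hc1 : (A + B) / 2 < 1 := by linarith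
  have hq := left_q h hc0 hc1
  have hhi : A * B ≤ ((A + B) / 2) ^ 2 := by nlinarith [sq_nonneg (A - B)]
  have hlo : 2 * ((A + B) / 2) - 1 ≤ A * B := by nlinarith
  rw [pm]
  rcases le_total 1 (2 * ((A + B) / 2)) with h1 | h1
  · exact same_aux h hlo hhi hc1.ne h1 hq
  · have hp0 : 0 ≤ A * B := mul_nonneg hA0 hB0
    generalize (A + B) / 2 = c at *
    generalize A * B = p at *
    rcases hc0.eq_or_lt with h0 | h0
    · have : p = 0 := by
        rw [← h0] at hhi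
        nlinarith
      rw [this]
      exact g_zero h hc0 h1
    · have hg0 := g_zero h hc0 h1
      have e1 : c ^ 2 * K.g c p = (c ^ 2 - p) * K.g c 0 + p * ((1 - c) ^ 2 *
          (K.k1 + (K.kc + 2 * K.k1) * c + (K.kccp + K.kpp) * c ^ 2)) -
          K.kpp * p * (c ^ 2 - p) * c ^ 2 := by
        rw [g, g, h.tan1, h.tan2]; ring
      have hD : 0 < (1 - c) ^ 2 := pow_pos (by linarith) 2
      have e2 : c ^ 2 * c ^ 2 ≤ (1 - c) ^ 2 * (1 - c) ^ 2 := by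
        have : c ^ 2 ≤ (1 - c) ^ 2 := by nlinarith
        exact mul_le_mul this this (sq_nonneg _) (sq_nonneg _)
      have e3 : K.kpp * p * (c ^ 2 - p) * c ^ 2 ≤ k2 * p * ((1 - c) ^ 2 * (1 - c) ^ 2) := by
        have f1 : K.kpp * (p * (c ^ 2 - p) * c ^ 2) ≤ k2 * (p * (c ^ 2 - p) * c ^ 2) :=
          mul_le_mul_of_nonneg_right h.hpp
            (mul_nonneg (mul_nonneg hp0 (by linarith)) (sq_nonneg c))
        have f2 : k2 * (p * (c ^ 2 - p) * c ^ 2) ≤ k2 * (p * c ^ 2 * c ^ 2) :=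
          mul_le_mul_of_nonneg_left (mul_le_mul_of_nonneg_right
            (mul_le_mul_of_nonneg_left (by linarith) hp0) (sq_nonneg c)) h.hk2
        have f3 : k2 * p * (c ^ 2 * c ^ 2) ≤ k2 * p * ((1 - c) ^ 2 * (1 - c) ^ 2) :=
          mul_le_mul_of_nonneg_left e2 (mul_nonneg h.hk2 hp0)
        linarith
      have e4 : 0 < c ^ 2 * K.g c p := by
        rw [e1]
        rcases hp0.eq_or_lt with hp | hp
        · rw [← hp]
          have := mul_pos (pow_pos h0 2) hg0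
          linarith
        · have f4 : p * ((1 - c) ^ 2 * (k2 * (1 - c) ^ 2)) < p * ((1 - c) ^ 2 *
            (K.k1 + (K.kc + 2 * K.k1) * c + (K.kccp + K.kpp) * c ^ 2)) :=
            mul_lt_mul_of_pos_left (mul_lt_mul_of_pos_left hq hD) hp
          have f5 := mul_nonneg (sub_nonneg.2 hhi) hg0.le
          linarith
      exact pos_of_mul_pos_right e4 (sq_nonneg c)

/-- The side `A, B ≥ 1`. -/
theorem right_pos (h : K.Base k2) {X : ℝ} (hX : 0 ≤ X)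
    (hT : 0 < X * (3 * K.k1 + K.kc) + (K.kccp + K.kpp) - k2 * (1 - X)) {A B : ℝ} (hA : 1 ≤ A)
    (hB : 1 ≤ B) (hne : 2 < A + B) (hXA : X * A ^ 2 ≤ 1) (hXB : X * B ^ 2 ≤ 1) :
    0 < K.pm A B := by
  have hhi : A * B ≤ ((A + B) / 2) ^ 2 := by nlinarith [sq_nonneg (A - B)]
  have hlo : 2 * ((A + B) / 2) - 1 ≤ A * B := by nlinarith
  have hc1 : 1 < (A + B) / 2 := by linarith
  have hXc : X * ((A + B) / 2) ^ 2 ≤ 1 := by
    have : 0 ≤ X * ((A - B) / 2) ^ 2 := mul_nonneg hX (sq_nonneg _)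
    nlinarith
  rw [pm]
  refine same_aux h hlo hhi hc1.ne' (by linarith) ?_
  generalize (A + B) / 2 = c at *
  have hXc' : X * c ≤ 1 := by
    have : X * c ≤ X * c ^ 2 := mul_le_mul_of_nonneg_left (by nlinarith) hX
    linarith
  have h1 : 0 ≤ (K.k1 - k2) * (1 - X * c ^ 2) := mul_nonneg (by linarith [h.h0]) (by linarith)
  have h2 : 0 ≤ (K.kc + 2 * K.k1 + 2 * k2) * (c * (1 - X * c)) :=
    mul_nonneg (by linarith [h.h1, h.hk2]) (mul_nonneg (by linarith) (by linarith))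
  have h3 : 0 < c ^ 2 * (X * (3 * K.k1 + K.kc) + (K.kccp + K.kpp) - k2 * (1 - X)) :=
    mul_pos (by positivity) hT
  linarith

/-! ### Opposite sides -/

variable (K)

/-- The improved kernel at `A = 1 - α`, `B = 1 + β`. -/
noncomputable def hh (E F α β : ℝ) : ℝ :=
  K.pm (1 - α) (1 + β) + α * β * ((1 - α) * (1 + β)) * ((2 - α) * (2 + β) * E + (2 - α) * F)

variable {K}

/-- Concavity along a segment. -/
theorem seg (h : K.Base k2) {E F : ℝ} (hE : 0 ≤ E) (hF : 0 ≤ F) (hE2 : K.kpp ≤ 2 * E)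
    {α β δ : ℝ} (hα : 0 ≤ α) (hβ : 0 ≤ β) (hδ : 0 ≤ δ) (hαδ : α + δ ≤ 1)
    (hne : 0 < α ∨ 0 < β) (hf : 0 < K.hh E F (α + δ) (β + δ)) : 0 < K.hh E F α β := by
  rcases hδ.eq_or_lt with h0 | h0
  · rw [← h0, add_zero, add_zero] at hf; exact hf
  have hPf : 0 < (α + δ) * (β + δ) := mul_pos (by linarith) (by linarith)
  have hP : 0 ≤ α * β := mul_nonneg hα hβ
  have hle : α * β ≤ (α + δ) * (β + δ) :=
    mul_le_mul (by linarith) (by linarith) hβ (by linarith)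
  have hAB : 0 ≤ (1 - α) * (1 + β) := mul_nonneg (by linarith) (by linarith)
  have hABf : 0 ≤ (1 - (α + δ)) * (1 + (β + δ)) := mul_nonneg (by linarith) (by linarith)
  have hg0 : 0 ≤ (β - α) ^ 2 * ((4 * K.k1 + 2 * K.kc + K.kcc + K.kccp * (1 + (β - α))) / 4) := by
    refine mul_nonneg (sq_nonneg _) ?_
    have := mul_nonneg h.hccp (by linarith : 0 ≤ 1 + (β - α))
    linarith [h.hr]
  have hbr : 0 ≤ -K.kpp + (5 + 3 * (β - α)) * E + (2 - (α + δ)) * F -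
      E * (α * β + (α + δ) * (β + δ)) := by
    have h1 := mul_nonneg hE hAB
    have h2 := mul_nonneg hE hABf
    have h3 := mul_nonneg hE (by linarith : 0 ≤ 1 + (β - α))
    have h4 := mul_nonneg hF (by linarith : 0 ≤ 2 - (α + δ))
    linarith
  have key : (α + δ) * (β + δ) * K.hh E F α β =
      ((α + δ) * (β + δ) - α * β) * ((β - α) ^ 2 *
        ((4 * K.k1 + 2 * K.kc + K.kcc + K.kccp * (1 + (β - α))) / 4)) +
      α * β * K.hh E F (α + δ) (β + δ) +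
      α * β * ((α + δ) * (β + δ)) * ((α + δ) * (β + δ) - α * β) *
        (-K.kpp + (5 + 3 * (β - α)) * E + (2 - (α + δ)) * F -
          E * (α * β + (α + δ) * (β + δ))) +
      (α + δ) * (β + δ) * (α * β) * ((1 - α) * (1 + β)) * (δ * F) := by
    rw [hh, hh, pm, pm, g, g, h.tan1, h.tan2]; ring
  have t2 : 0 ≤ α * β * ((α + δ) * (β + δ)) * ((α + δ) * (β + δ) - α * β) *
        (-K.kpp + (5 + 3 * (β - α)) * E + (2 - (α + δ)) * F -
          E * (α * β + (α + δ) * (β + δ))) :=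
    mul_nonneg (mul_nonneg (mul_nonneg hP hPf.le) (by linarith)) hbr
  have t3 : 0 ≤ (α + δ) * (β + δ) * (α * β) * ((1 - α) * (1 + β)) * (δ * F) :=
    mul_nonneg (mul_nonneg (mul_nonneg hPf.le hP) hAB) (mul_nonneg hδ hF)
  have t1 : 0 ≤ ((α + δ) * (β + δ) - α * β) * ((β - α) ^ 2 *
        ((4 * K.k1 + 2 * K.kc + K.kcc + K.kccp * (1 + (β - α))) / 4)) :=
    mul_nonneg (by linarith) hg0
  have hpos : 0 < (α + δ) * (β + δ) * K.hh E F α β := by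
    rw [key]
    rcases hP.eq_or_lt with hP0 | hP0
    · have hne' : β - α ≠ 0 := by
        intro hba
        have hba' : β = α := by linarith
        subst hba'
        rcases hne with h1 | h1 <;> nlinarith
      have hd : 0 < (β - α) ^ 2 := by positivity
      have hr : 0 < (4 * K.k1 + 2 * K.kc + K.kcc + K.kccp * (1 + (β - α))) / 4 := by
        have := mul_nonneg h.hccp (by linarith : 0 ≤ 1 + (β - α))
        linarith [h.hr]
      have t1' : 0 < ((α + δ) * (β + δ) - α * β) * ((β - α) ^ 2 *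
        ((4 * K.k1 + 2 * K.kc + K.kcc + K.kccp * (1 + (β - α))) / 4)) := by
        rw [← hP0, sub_zero]
        exact mul_pos hPf (mul_pos hd hr)
      have t4 : 0 ≤ α * β * K.hh E F (α + δ) (β + δ) := mul_nonneg hP hf.le
      linarith
    · have t4 : 0 < α * β * K.hh E F (α + δ) (β + δ) := mul_pos hP0 hf
      linarith
  exact pos_of_mul_pos_right hpos hPf.le

theorem hh_one (E F β : ℝ) : K.hh E F 1 β = K.pm 0 (1 + β) := by
  rw [hh]; norm_num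

/-- The opposite side from its far edges. -/
theorem opp_pos (h : K.Base k2) {E F : ℝ} (hE : 0 ≤ E) (hF : 0 ≤ F) (hE2 : K.kpp ≤ 2 * E)
    {m : ℝ} (hfar : ∀ α ∈ Icc (0 : ℝ) 1, 0 < K.hh E F α m)
    (hA0 : ∀ β ∈ Icc (0 : ℝ) m, 0 < K.pm 0 (1 + β)) {α β : ℝ} (hα : α ∈ Icc (0 : ℝ) 1)
    (hβ : β ∈ Icc (0 : ℝ) m) (hne : 0 < α ∨ 0 < β) : 0 < K.hh E F α β := by
  obtain ⟨hα0, hα1⟩ := hα
  obtain ⟨hβ0, hβ1⟩ := hβ
  rcases le_total (1 - α) (m - β) with h1 | h1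
  · refine seg h hE hF hE2 hα0 hβ0 (sub_nonneg.2 hα1) (by linarith) hne ?_
    rw [add_sub_cancel, hh_one]
    exact hA0 _ ⟨by linarith, by linarith⟩
  · refine seg h hE hF hE2 hα0 hβ0 (sub_nonneg.2 hβ1) (by linarith) hne ?_
    rw [add_sub_cancel]
    exact hfar _ ⟨by linarith, by linarith⟩

end KS

/-! ### The gap lemma -/

/-- Lower bound of the gaps of a convex profile. -/
theorem gap_lemma {A γ Y r : ℝ} (hA0 : 0 ≤ A) (hA1 : A ≤ 1) (hγ : 0 ≤ γ) (hY : 0 ≤ Y)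
    (hr : 0 < r) (hYr : Y = 1 - r) (hg : 2 * Y * γ ≤ r) :
    (1 + A) / 2 * ((1 - A) * γ) / r ≤
      (1 - A) ^ 2 * (2 + A) / (3 * (1 - Y * A ^ 2)) + γ ^ 2 * (3 + γ) / (3 * r) := by
  have hq : 0 < 1 - Y * A ^ 2 := by
    have : 1 - Y * A ^ 2 = r + Y * ((1 - A) * (1 + A)) := by rw [hYr]; ring
    rw [this]
    have := mul_nonneg hY (mul_nonneg (by linarith : 0 ≤ 1 - A) (by linarith : 0 ≤ 1 + A))
    linarith
  have hq' : 1 - Y * A ^ 2 = r + Y * ((1 - A) * (1 + A)) := by rw [hYr]; ring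
  rw [div_add_div _ _ (by positivity) (by positivity), div_le_div_iff₀ hr (by positivity)]
  rw [hq']
  have hα : 0 ≤ 1 - A := by linarith
  obtain ⟨w, hw⟩ : ∃ w, w = Y * ((1 - A) * (1 + A)) := ⟨_, rfl⟩
  have hw0 : 0 ≤ w := by rw [hw]; exact mul_nonneg hY (mul_nonneg hα (by linarith))
  have hw1 : 2 * w * γ ≤ r * ((1 - A) * (1 + A)) := by
    rw [hw]
    have := mul_le_mul_of_nonneg_right hg (mul_nonneg hα (by linarith : 0 ≤ 1 + A))
    linarith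
  rw [← hw]
  have hmain : 0 ≤ r * (2 * (1 - A) ^ 2 * (2 + A) + 2 * γ ^ 2 * (3 + γ) -
      3 * (1 + A) * (1 - A) * γ) + w * γ * (2 * γ * (3 + γ) - 3 * (1 + A) * (1 - A)) := by
    rcases le_total 0 (2 * γ * (3 + γ) - 3 * (1 + A) * (1 - A)) with h1 | h1
    · have h2 := mul_nonneg (mul_nonneg hw0 hγ) h1
      have h3 : 0 ≤ 2 * (1 - A) ^ 2 * (2 + A) + 2 * γ ^ 2 * (3 + γ) -
          3 * (1 + A) * (1 - A) * γ := by
        have e1 : 0 ≤ γ ^ 3 := by positivity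
        have e2 : 0 ≤ (1 - A) ^ 2 * (32 * (2 + A) - 12 * (1 + A) ^ 2) := by
          refine mul_nonneg (sq_nonneg _) ?_
          nlinarith
        nlinarith [sq_nonneg (4 * γ - (1 + A) * (1 - A))]
      have h4 := mul_nonneg hr.le h3
      linarith
    · have h2 : r * ((1 - A) * (1 + A)) / 2 * (2 * γ * (3 + γ) - 3 * (1 + A) * (1 - A)) ≤
          w * γ * (2 * γ * (3 + γ) - 3 * (1 + A) * (1 - A)) :=
        mul_le_mul_of_nonpos_right (by linarith) h1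
      have h3 : 0 ≤ r * ((1 - A) ^ 2 * ((1 - A) * (5 + 3 * A) / 2) + 6 * γ ^ 2 + 2 * γ ^ 3 +
          (1 - A) * (1 + A) * γ ^ 2) := by
        refine mul_nonneg hr.le ?_
        have e1 : 0 ≤ (1 - A) ^ 2 * ((1 - A) * (5 + 3 * A) / 2) :=
          mul_nonneg (sq_nonneg _) (div_nonneg (mul_nonneg hα (by linarith)) zero_le_two)
        have e2 : 0 ≤ (1 - A) * (1 + A) * γ ^ 2 :=
          mul_nonneg (mul_nonneg hα (by linarith)) (sq_nonneg _)
        have e3 : 0 ≤ γ ^ 3 := by positivity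
        linarith [sq_nonneg γ]
      linarith
  nlinarith

/-! ### Bounds of `S` -/

/-- The bound for `a ≤ x ≤ b`. -/
theorem S_opp {a b x T2 r : ℝ} (ha : 0 ≤ a) (hax : a ≤ x) (hxb : x ≤ b) (hb : b ≤ 1)
    (hT : 0 ≤ T2) (hT1 : T2 ≤ 1) (hr : 0 < r) (hrx : r = 1 - T2 * x ^ 2) :
    √((1 - a ^ 2) * (1 - b ^ 2)) ≤
      1 - (a ^ 2 + b ^ 2) / 2 - T2 * ((x ^ 2 - a ^ 2) * (b ^ 2 - x ^ 2)) / (2 * r) := by
  obtain ⟨u, hu⟩ : ∃ u, u = x ^ 2 - a ^ 2 := ⟨_, rfl⟩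
  obtain ⟨v, hv⟩ : ∃ v, v = b ^ 2 - x ^ 2 := ⟨_, rfl⟩
  obtain ⟨h, hh⟩ : ∃ h, h = 1 - x ^ 2 := ⟨_, rfl⟩
  have hu0 : 0 ≤ u := by rw [hu]; nlinarith
  have hv0 : 0 ≤ v := by rw [hv]; nlinarith
  have hvh : v ≤ h := by rw [hv, hh]; nlinarith
  have hrh : T2 * h ≤ r := by rw [hrx, hh]; nlinarith
  have e1 : (1 - a ^ 2) * (1 - b ^ 2) = (h + u) * (h - v) := by rw [hh, hu, hv]; ring
  have e2 : 1 - (a ^ 2 + b ^ 2) / 2 - T2 * ((x ^ 2 - a ^ 2) * (b ^ 2 - x ^ 2)) / (2 * r) =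
      (2 * r * (h + (u - v) / 2) - T2 * (u * v)) / (2 * r) := by
    rw [hh, hu, hv]
    field_simp
    ring
  rw [e1, e2]
  have hh0 : 0 ≤ h := hv0.trans hvh
  have hnum : 0 ≤ 2 * r * (h + (u - v) / 2) - T2 * (u * v) := by
    have h1 : 0 ≤ h + (u - v) / 2 := by linarith
    have h2 : 2 * (T2 * h) * (h + (u - v) / 2) ≤ 2 * r * (h + (u - v) / 2) :=
      mul_le_mul_of_nonneg_right (by linarith) h1
    have h3 : 0 ≤ T2 * (2 * h * (h + (u - v) / 2) - u * v) := by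
      refine mul_nonneg hT ?_
      nlinarith [mul_nonneg hu0 (sub_nonneg.2 hvh), mul_nonneg hh0 (sub_nonneg.2 hvh),
        mul_nonneg hh0 hh0]
    linarith
  rw [Real.sqrt_le_left (div_nonneg hnum (by linarith)), div_pow, le_div_iff₀ (by positivity)]
  have h1 : 0 ≤ ((u - v) * r - T2 * (u * v)) ^ 2 := sq_nonneg _
  have h2 : 0 ≤ 4 * (u * v) * r * (r - T2 * h) :=
    mul_nonneg (mul_nonneg (mul_nonneg (by norm_num) (mul_nonneg hu0 hv0)) hr.le)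
      (sub_nonneg.2 hrh)
  nlinarith

/-- The basic bound. -/
theorem S_le {a b : ℝ} (ha : a ∈ Icc (0 : ℝ) 1) (hb : b ∈ Icc (0 : ℝ) 1) :
    √((1 - a ^ 2) * (1 - b ^ 2)) ≤ 1 - (a ^ 2 + b ^ 2) / 2 := by
  have h1 : 0 ≤ 1 - a ^ 2 := by have : a ^ 2 ≤ 1 := pow_le_one₀ ha.1 ha.2; linarith
  have h2 : 0 ≤ 1 - b ^ 2 := by have : b ^ 2 ≤ 1 := pow_le_one₀ hb.1 hb.2; linarith
  rw [Real.sqrt_le_iff]
  refine ⟨by linarith, ?_⟩
  nlinarith [sq_nonneg (a ^ 2 - b ^ 2)]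

end Vale.Agent.P219.D4
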