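import Vale.Agent.P219.D4.Field
import Vale.Agent.P219.TPH.NiceH
import Vale.Agent.P219.TPH.ZonalGen

/-! # The certificate in dimension 4, curvature `≤ -1`, all radii: conclusion -/

open Set MeasureTheory Metric
open scoped ContDiff Real

namespace Vale.Agent.P219.D4

open Vale.Agent.P219.TP Vale.Agent.P219.TPH Vale.Agent.P219.C5

variable {T e r a b : ℝ}

/-- The inequalities used below (`T² = 1 - e²`). -/
structure Ineqs (T e : ℝ) : Prop where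
  hT : 0 < T
  he : 0 < e
  heT : e ^ 2 = 1 - T ^ 2
  b0 : ∀ r, 0 < r → r < 1 → 0 ≤ bq e r
  f0 : ∀ r, e ≤ r → r ≤ 1 → 0 ≤ e2 r e fN
  U0 : ∀ r X A, 0 < r → r < 1 → T ^ 2 * X = 1 - r ^ 2 → 0 ≤ A → A ^ 2 * X ≤ 1 →
    0 ≤ wq e r - A ^ 2 * bq e r / 2
  C3 : ∀ r X A, 0 < r → r < 1 → T ^ 2 * X = 1 - r ^ 2 → 0 ≤ A → A ^ 2 * X ≤ 1 →
    0 ≤ vq e r + A ^ 2 * cq e r / 2 + (2 - r ^ 2) / r ^ 2 * (wq e r - A ^ 2 * bq e r / 2)
  C7 : ∀ r X A B S, 0 < r → r < 1 → T ^ 2 * X = 1 - r ^ 2 → 0 ≤ A → 0 ≤ B → A ^ 2 * X ≤ 1 →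
    B ^ 2 * X ≤ 1 → 0 ≤ S → S ^ 2 = (1 - A ^ 2 * X) * (1 - B ^ 2 * X) →
    0 < Kh e r X A B S + A * B * X *
      √((wq e r - A ^ 2 * bq e r / 2) * (wq e r - B ^ 2 * bq e r / 2))
  C1 : ∀ r X A B S, 0 < r → r < 1 → T ^ 2 * X = 1 - r ^ 2 → 0 ≤ A → 0 ≤ B → A ^ 2 * X ≤ 1 →
    B ^ 2 * X ≤ 1 → 0 ≤ S → S ^ 2 = (1 - A ^ 2 * X) * (1 - B ^ 2 * X) →
    0 < Kh e r X A B S + 3 / r ^ 2 * X * B * (wq e r - A ^ 2 * bq e r / 2)
  PI : ∀ x a b, 0 < x → T * x < 1 → a ∈ Icc (0 : ℝ) 1 → b ∈ Icc (0 : ℝ) 1 →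
    a * b * (L4 T x - (f4 T e a + f4 T e b) / 2) ≤
      x * T / sE e * Kh e (ro T x) (x ^ 2) (a / x) (b / x) (√((1 - a ^ 2) * (1 - b ^ 2)))
  PIeq : ∀ x a b, 0 < x → T * x < 1 → a ∈ Icc (0 : ℝ) 1 → b ∈ Icc (0 : ℝ) 1 → 0 < a → 0 < b →
    a * b * (L4 T x - (f4 T e a + f4 T e b) / 2) =
      x * T / sE e * Kh e (ro T x) (x ^ 2) (a / x) (b / x) (√((1 - a ^ 2) * (1 - b ^ 2))) →
    a = x ∧ b = x

theorem Kh_symm (e r X A B S : ℝ) : Kh e r X A B S = Kh e r X B A S := by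
  unfold Kh; ring

theorem sq_arg (ha : a ∈ Icc (0 : ℝ) 1) {x : ℝ} (hx : 0 < x) : 0 ≤ a / x ∧ (a / x) ^ 2 * x ^ 2 ≤ 1 := by
  refine ⟨div_nonneg ha.1 hx.le, ?_⟩
  rw [← mul_pow, div_mul_cancel₀ a hx.ne']
  exact pow_le_one₀ ha.1 ha.2

theorem S_arg (ha : a ∈ Icc (0 : ℝ) 1) (hb : b ∈ Icc (0 : ℝ) 1) {x : ℝ} (hx : 0 < x) :
    √((1 - a ^ 2) * (1 - b ^ 2)) ^ 2 =
      (1 - (a / x) ^ 2 * x ^ 2) * (1 - (b / x) ^ 2 * x ^ 2) := by
  rw [← mul_pow, ← mul_pow, div_mul_cancel₀ a hx.ne', div_mul_cancel₀ b hx.ne']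
  have h1 : a ^ 2 ≤ 1 := pow_le_one₀ ha.1 ha.2
  have h2 : b ^ 2 ≤ 1 := pow_le_one₀ hb.1 hb.2
  exact Real.sq_sqrt (mul_nonneg (by linarith) (by linarith))

theorem phi_U (hT : 0 < T) (hr : 0 < r) : phi T e r a =
    rh r ^ 4 * xx T r ^ 2 * (2 * (wq e (rh r) - (a / xx T r) ^ 2 * bq e (rh r) / 2)) /
      (8 * sE e * T * xx T r ^ 3) := by
  have hx := xx_pos hT hr
  unfold phi
  congr 1
  field_simp

/-- `sinh² φ = (T x/s) U`. -/
theorem phi_sinh (hT : 0 < T) (he : 0 < e) (hr : 0 < r) : phi T e r a * Real.sinh r ^ 2 =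
    xx T r * T / sE e * (wq e (rh r) - (a / xx T r) ^ 2 * bq e (rh r) / 2) := by
  have hx := xx_pos hT hr
  have hp := rh_pos r
  have hs := sE_pos he
  rw [sinh_eq hT, phi]
  generalize wq e (rh r) = w at *
  generalize bq e (rh r) = b' at *
  generalize rh r = p at *
  generalize xx T r = x at *
  generalize sE e = s at *
  field_simp
  ring

theorem Ineqs.U (h : Ineqs T e) (hr : 0 < r) (ha : a ∈ Icc (0 : ℝ) 1) :
    0 ≤ wq e (rh r) - (a / xx T r) ^ 2 * bq e (rh r) / 2 := by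
  obtain ⟨h1, h2⟩ := sq_arg ha (xx_pos h.hT hr)
  exact h.U0 _ _ _ (rh_pos r) (rh_lt_one hr) (Y_xx h.hT r) h1 h2

theorem Ineqs.phi_nonneg (h : Ineqs T e) (hr : 0 < r) (ha : a ∈ Icc (0 : ℝ) 1) :
    0 ≤ phi T e r a := by
  have h1 := h.U hr ha
  have hx := xx_pos h.hT hr
  have hp := rh_pos r
  have hs := sE_pos h.he
  have hT := h.hT
  rw [phi_U h.hT hr]
  positivity

theorem c1_lt (h : Ineqs T e) (hr : 0 < r) (ha : a ∈ Icc (0 : ℝ) 1) (hb : b ∈ Icc (0 : ℝ) 1) :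
    3 / T / 2 * (phi T e r b * a) <
      NN 1 (4 - 1) (phi T e) (phir T e) (phia T e) (lam4 T e) r a b := by
  have hx := xx_pos h.hT hr
  have hp := rh_pos r
  have hs := sE_pos h.he
  have hT := h.hT
  have hsh := Real.sinh_pos_iff.2 hr
  obtain ⟨h1, h2⟩ := sq_arg ha hx
  obtain ⟨h3, h4⟩ := sq_arg hb hx
  have h5 := h.C1 _ _ _ _ _ hp (rh_lt_one hr) (Y_xx hT r) h1 h3 h2 h4 (Real.sqrt_nonneg _)
    (S_arg ha hb hx)
  have h6 := KN_eq hT h.he hr ha.1 hb.1 (h.b0 _ hp (rh_lt_one hr))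
  have h7 := phi_sinh (a := a) hT h.he hr
  have h8 : 0 < xx T r * T / sE e := by positivity
  have h9 := mul_pos h8 h5
  have h10 : xx T r * T / sE e * (3 / rh r ^ 2 * xx T r ^ 2 * (b / xx T r) *
      (wq e (rh r) - (a / xx T r) ^ 2 * bq e (rh r) / 2)) =
      (3 / T / 2 * (phi T e r a * b)) * Real.sinh r ^ 3 := by
    have e1 : (3 / T / 2 * (phi T e r a * b)) * Real.sinh r ^ 3 =
      3 / T / 2 * b * Real.sinh r * (phi T e r a * Real.sinh r ^ 2) := by ring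
    rw [e1, h7, sinh_eq hT]
    field_simp
  rw [mul_add, ← h6, h10, ← add_mul, mul_comm] at h9
  have h11 := (pos_iff_pos_of_mul_pos h9).1 (pow_pos hsh 3)
  rw [KN] at h11
  have e3 : (4 - 1 : ℕ) = 3 := rfl
  rw [e3]
  linarith

theorem c7_lt (h : Ineqs T e) (hr : 0 < r) (ha : a ∈ Icc (0 : ℝ) 1) (hb : b ∈ Icc (0 : ℝ) 1) :
    0 < KN 1 (4 - 1) (phi T e) (phir T e) (phia T e) (lam4 T e) (3 / T) r a b +
      a * b * √(phi T e r a * phi T e r b) / sn 1 r := by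
  have hx := xx_pos h.hT hr
  have hp := rh_pos r
  have hs := sE_pos h.he
  have hT := h.hT
  have hsh := Real.sinh_pos_iff.2 hr
  obtain ⟨h1, h2⟩ := sq_arg ha hx
  obtain ⟨h3, h4⟩ := sq_arg hb hx
  have h6 := KN_eq hT h.he hr ha.1 hb.1 (h.b0 _ hp (rh_lt_one hr))
  have h8 : 0 < xx T r * T / sE e := by positivity
  have hm : √(phi T e r a * phi T e r b) * Real.sinh r ^ 2 =
      xx T r * T / sE e * √((wq e (rh r) - (a / xx T r) ^ 2 * bq e (rh r) / 2) *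
        (wq e (rh r) - (b / xx T r) ^ 2 * bq e (rh r) / 2)) := by
    have e1 : √(phi T e r a * phi T e r b) * Real.sinh r ^ 2 =
        √((phi T e r a * Real.sinh r ^ 2) * (phi T e r b * Real.sinh r ^ 2)) := by
      rw [show (phi T e r a * Real.sinh r ^ 2) * (phi T e r b * Real.sinh r ^ 2) =
        (phi T e r a * phi T e r b) * (Real.sinh r ^ 2) ^ 2 by ring,
        Real.sqrt_mul' (phi T e r a * phi T e r b) (sq_nonneg (Real.sinh r ^ 2)),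
        Real.sqrt_sq (by positivity)]
    rw [e1, phi_sinh hT h.he hr, phi_sinh hT h.he hr, mul_mul_mul_comm, ← pow_two,
      Real.sqrt_mul (sq_nonneg _), Real.sqrt_sq h8.le]
  have h5 := h.C7 _ _ _ _ _ hp (rh_lt_one hr) (Y_xx hT r) h1 h3 h2 h4 (Real.sqrt_nonneg _)
    (S_arg ha hb hx)
  have h9 := mul_pos h8 h5
  have h10 : xx T r * T / sE e * ((a / xx T r) * (b / xx T r) * xx T r ^ 2 *
        √((wq e (rh r) - (a / xx T r) ^ 2 * bq e (rh r) / 2) *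
        (wq e (rh r) - (b / xx T r) ^ 2 * bq e (rh r) / 2))) =
      (a * b * √(phi T e r a * phi T e r b) / sn 1 r) * Real.sinh r ^ 3 := by
    have e1 : (a * b * √(phi T e r a * phi T e r b) / sn 1 r) * Real.sinh r ^ 3 =
      a * b * (√(phi T e r a * phi T e r b) * Real.sinh r ^ 2) := by
      rw [sn_one]; field_simp
    rw [e1, hm]
    field_simp
  rw [mul_add, ← h6, h10, ← add_mul, mul_comm] at h9
  exact (pos_iff_pos_of_mul_pos h9).1 (pow_pos hsh 3)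

theorem c3_le (h : Ineqs T e) (hr : 0 < r) (ha : a ∈ Icc (0 : ℝ) 1) :
    0 ≤ phir T e r a + (((4 : ℕ) : ℝ) - 1) * (cs 1 r / sn 1 r) * phi T e r a := by
  have hx := xx_pos h.hT hr
  have hp := rh_pos r
  have hs := sE_pos h.he
  have hT := h.hT
  obtain ⟨h1, h2⟩ := sq_arg ha hx
  have h3 := h.C3 _ _ _ hp (rh_lt_one hr) (Y_xx hT r) h1 h2
  rw [sn_one, cs_one, sinh_eq hT, cosh_eq hT]
  have h4 : phir T e r a + (((4 : ℕ) : ℝ) - 1) * ((2 - rh r ^ 2) / rh r ^ 2 /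
      (2 * T * xx T r / rh r ^ 2)) * phi T e r a =
      rh r ^ 6 / (8 * sE e * T ^ 2 * xx T r ^ 2) * (vq e (rh r) +
        (a / xx T r) ^ 2 * cq e (rh r) / 2 + (2 - rh r ^ 2) / rh r ^ 2 *
          (wq e (rh r) - (a / xx T r) ^ 2 * bq e (rh r) / 2)) := by
    unfold phi phir
    clear h1 h2 h3
    generalize wq e (rh r) = w at *
    generalize bq e (rh r) = b' at *
    generalize cq e (rh r) = c at *
    generalize vq e (rh r) = v at *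
    generalize rh r = p at *
    generalize xx T r = x at *
    generalize sE e = s at *
    push_cast
    field_simp
    ring
  rw [h4]
  exact mul_nonneg (by positivity) h3

theorem PI4 (h : Ineqs T e) (hr : 0 < r) (ha : a ∈ Icc (0 : ℝ) 1) (hb : b ∈ Icc (0 : ℝ) 1) :
    a * b * (1 * r - (fE T e a + fE T e b) / 2) ≤
      KN 1 (4 - 1) (phi T e) (phir T e) (phia T e) (lam4 T e) (3 / T) r a b *
        sn 1 r ^ (4 - 1) := by
  have hx := xx_pos h.hT hr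
  have h6 := KN_eq h.hT h.he hr ha.1 hb.1 (h.b0 _ (rh_pos r) (rh_lt_one hr))
  have h1 := h.PI _ a b hx (T_xx_lt h.hT r) ha hb
  rw [xx_L4 h.hT, ro_xx h.hT, ← h6] at h1
  rw [one_mul, fE_eq ha, fE_eq hb, sn_one]
  exact h1

theorem PI4_eq (h : Ineqs T e) (hr : 0 < r) (ha : a ∈ Icc (0 : ℝ) 1) (hb : b ∈ Icc (0 : ℝ) 1)
    (ha0 : 0 < a) (hb0 : 0 < b) (he : a * b * (1 * r - (fE T e a + fE T e b) / 2) =
      KN 1 (4 - 1) (phi T e) (phir T e) (phia T e) (lam4 T e) (3 / T) r a b *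
        sn 1 r ^ (4 - 1)) : a = xx T r ∧ b = xx T r := by
  have hx := xx_pos h.hT hr
  have h6 := KN_eq h.hT h.he hr ha.1 hb.1 (h.b0 _ (rh_pos r) (rh_lt_one hr))
  refine h.PIeq _ a b hx (T_xx_lt h.hT r) ha hb ha0 hb0 ?_
  rw [xx_L4 h.hT, ro_xx h.hT, ← h6]
  rw [one_mul, fE_eq ha, fE_eq hb, sn_one] at he
  exact he

theorem nice4 (h : Ineqs T e) :
    Nice 4 1 (phi T e) (phir T e) (phia T e) (lam4 T e) (3 / T) 1 (fE T e) where
  smooth := contDiffOn_phi h.hT h.he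
  deriv_r r a hr := hasDerivAt_phi_r h.hT h.he hr a
  deriv_a r a _ := hasDerivAt_phi_a T e r a
  even r a _ := by rw [phi, phi, neg_sq]
  nonneg r a hr ha0 ha1 := h.phi_nonneg hr ⟨ha0, ha1⟩
  c1 r a b hr ha0 ha1 hb0 hb1 := (c1_lt h hr ⟨ha0, ha1⟩ ⟨hb0, hb1⟩).le
  c3 r a hr ha0 ha1 := c3_le h hr ⟨ha0, ha1⟩
  c7 r a b hr ha0 ha1 hb0 hb1 := (c7_lt h hr ⟨ha0, ha1⟩ ⟨hb0, hb1⟩).le
  c6 r a b hr ha0 ha1 hb0 hb1 := PI4 h hr ⟨ha0, ha1⟩ ⟨hb0, hb1⟩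

theorem H0_four (R : ℝ) : H0 4 1 R = 3 / Real.tanh R := by
  rw [H0, sn_one, cs_one, Real.tanh_eq_sinh_div_cosh, div_div_eq_mul_div]
  norm_num

/-- The certificate for every radius. -/
noncomputable def certH4' {R : ℝ} (hR : 0 < R) (h : Ineqs (Real.tanh R) (1 / Real.cosh R)) :
    CertH 4 1 R where
  lam := lam4 (Real.tanh R) (1 / Real.cosh R)
  s := 1
  F := 4 * Real.pi * ∫ t in (0 : ℝ)..1, fE (Real.tanh R) (1 / Real.cosh R) t * t * √(1 - t ^ 2)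
  f := fE (Real.tanh R) (1 / Real.cosh R)
  lam_pos := lam4_pos h.hT h.he
  s_nonneg := zero_le_one
  f_cont := fE_cont h.hT h.he h.heT
  f_nonneg a ha := by
    rw [fE_eq ha]
    exact f4_nonneg h.hT h.he h.heT h.f0 ha.1 ha.2
  hF e he := (zonal_four (fE_cont h.hT h.he h.heT) he).le
  balance := (balance4 hR).le
  approx := by
    have h2 := nice4 h
    rw [← H0_four] at h2
    refine good_of_nice (by norm_num) zero_le_one ?_ ?_ ?_ (fun a ha => ?_) h2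
    · exact (lam4_pos h.hT h.he).le
    · have := h.hT
      rw [H0_four]; positivity
    · norm_num
    · rw [fE_eq ha]; exact f4_nonneg h.hT h.he h.heT h.f0 ha.1 ha.2

end Vale.Agent.P219.D4
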