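import Vale.Agent.P219.D4.Cert
import Vale.Agent.P219.TPHR.CertHR

/-! # The strict certificate in dimension 4, curvature `≤ -1`, all radii -/

open Set MeasureTheory Metric

namespace Vale.Agent.P219.D4

open Vale.Agent.P219.TP Vale.Agent.P219.TPH Vale.Agent.P219.C5

theorem curve_of_eq {T R r a : ℝ} (hT : T = Real.tanh R) (hT0 : 0 < T) (h : a = xx T r) :
    sn 1 (r / 2) * cs 1 R = a * (cs 1 (r / 2) * sn 1 R) := by
  have h1 : T * a = Real.tanh (r / 2) := by rw [h, T_xx hT0]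
  rw [hT] at h1
  rw [Real.tanh_eq_sinh_div_cosh, Real.tanh_eq_sinh_div_cosh] at h1
  have hc := Real.cosh_pos R
  have hc' := Real.cosh_pos (r / 2)
  rw [sn_one, sn_one, cs_one, cs_one]
  field_simp at h1
  linarith

/-- The strict certificate for every radius. -/
noncomputable def certHR4' {R : ℝ} (hR : 0 < R) (h : Ineqs (Real.tanh R) (1 / Real.cosh R)) :
    CertHR 4 1 R where
  lam := lam4 (Real.tanh R) (1 / Real.cosh R)
  s := 1
  F := 4 * Real.pi * ∫ t in (0 : ℝ)..1, fE (Real.tanh R) (1 / Real.cosh R) t * t * √(1 - t ^ 2)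
  f := fE (Real.tanh R) (1 / Real.cosh R)
  φ := phi (Real.tanh R) (1 / Real.cosh R)
  φr := phir (Real.tanh R) (1 / Real.cosh R)
  φa := phia (Real.tanh R) (1 / Real.cosh R)
  lam_pos := (certH4' hR h).lam_pos
  s_nonneg := (certH4' hR h).s_nonneg
  f_cont := (certH4' hR h).f_cont
  f_nonneg := (certH4' hR h).f_nonneg
  hF := (certH4' hR h).hF
  balance := (certH4' hR h).balance
  nice := by
    rw [H0_four]
    exact nice4 h
  c1s r a b hr ha0 ha1 hb0 hb1 := by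
    rw [H0_four]
    exact c1_lt h hr ⟨ha0, ha1⟩ ⟨hb0, hb1⟩
  c7s r a b hr ha0 ha1 hb0 hb1 := by
    rw [H0_four]
    exact c7_lt h hr ⟨ha0.le, ha1⟩ ⟨hb0.le, hb1⟩
  c6s r a b hr ha0 ha1 hb0 hb1 he := by
    rw [H0_four] at he
    have h3 := PI4_eq h hr ⟨ha0.le, ha1⟩ ⟨hb0.le, hb1⟩ ha0 hb0 he.symm
    exact ⟨curve_of_eq rfl h.hT h3.1, curve_of_eq rfl h.hT h3.2⟩

end Vale.Agent.P219.D4
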