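import Vale.Agent.P219.D4.Lits

/-! # The certificate in dimension 4: positivity of the polynomials (generated), part B -/

namespace Vale.Agent.P219.D4

open Vale.Agent.P219.C5

theorem V0_ok : okC [[.ofNat 0, .ofNat 0], [.ofNat 0, .ofNat 1]] 3 16 22 0 0 11 0 V0l = true :=
    by decide +kernel
theorem V1_ok : okC [[.ofNat 0, .ofNat 0], [.ofNat 0, .ofNat 1]] 3 15 21 0 0 10 0 V1l = true :=
    by decide +kernel
theorem O2_ok0 : okC [[.ofNat 5], [.negSucc 0, .ofNat 1]] 5 17 21 1 0 0 1 (ka 0 1 2 O2l) = true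
    := by decide +kernel
theorem O2_ok1 : okC [[.ofNat 5], [.negSucc 0, .ofNat 1]] 5 17 21 0 0 0 1 (ka 1 1 2 O2l) = true
    := by decide +kernel

end Vale.Agent.P219.D4
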