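import Vale.Agent.P219.D4.Lits

/-! # The certificate in dimension 4: positivity of the polynomials (generated), part D -/

namespace Vale.Agent.P219.D4

open Vale.Agent.P219.C5

theorem M1_ok0 : okTB 3 4 10 15 30 15 0 0 0 0 (ka 0 3 4 M1l) = true := by decide +kernel
theorem M1_ok1 : okTB 3 4 10 15 30 15 0 0 0 0 (ka 3 1 4 M1l) = true := by decide +kernel

end Vale.Agent.P219.D4
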