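import Vale.Agent.P219.D4.Lits

/-! # The certificate in dimension 4: positivity of the polynomials (generated), part E -/

namespace Vale.Agent.P219.D4

open Vale.Agent.P219.C5

theorem N0_ok : okTB 7 3 10 16 32 16 0 1 0 0 N0l = true := by decide +kernel
theorem N1_ok : okTB 7 3 10 15 30 15 0 1 0 0 N1l = true := by decide +kernel

end Vale.Agent.P219.D4
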