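import Vale.Agent.P219.D4.Lits

/-! # The certificate in dimension 4: positivity of the polynomials (generated), part F -/

namespace Vale.Agent.P219.D4

open Vale.Agent.P219.C5

theorem O1a_ok0 : okC [[.ofNat 0, .ofNat 4], [.ofNat 3, .negSucc 2]] 4 21 25 0 0 11 2 O1al = true
    := by decide +kernel
theorem O1a_ok1 : okC [[.ofNat 15, .ofNat 5], [.ofNat 1, .negSucc 0]] 20 21 25 0 0 0 2 (ka 0 1 2
    O1al) = true := by decide +kernel

end Vale.Agent.P219.D4
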