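import Vale.Agent.P219.D4.Lits

/-! # The certificate in dimension 4: positivity of the polynomials (generated), part H -/

namespace Vale.Agent.P219.D4

open Vale.Agent.P219.C5

theorem O1b_ok1 : okC [[.ofNat 15, .ofNat 5], [.ofNat 1, .negSucc 0]] 20 24 28 0 0 0 4 O1bl =
    true := by decide +kernel

end Vale.Agent.P219.D4
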