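import Vale.Agent.P219.D4.ChecksA
import Vale.Agent.P219.D4.ChecksB
import Vale.Agent.P219.D4.ChecksC
import Vale.Agent.P219.D4.ChecksD
import Vale.Agent.P219.D4.ChecksE
import Vale.Agent.P219.D4.ChecksF
import Vale.Agent.P219.D4.ChecksG
import Vale.Agent.P219.D4.ChecksH

/-! # The certificate in dimension 4: positivity of the polynomials -/
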