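import Vale.Agent.P219.D4.Lits

/-! # The certificate in dimension 4: positivity of the polynomials (generated), part A -/

namespace Vale.Agent.P219.D4

open Vale.Agent.P219.C5

theorem S1_ok : ok 12 0 0 7 0 S1l = true := by decide +kernel
theorem S2_ok : ok 14 0 0 7 0 S2l = true := by decide +kernel
theorem S3_ok : ok 14 0 0 7 0 S3l = true := by decide +kernel
theorem S4_ok : ok 14 0 0 7 0 S4l = true := by decide +kernel
theorem S5_ok : ok 13 0 0 8 0 S5l = true := by decide +kernel
theorem S6b_ok : ok 10 0 0 5 0 S6bl = true := by decide +kernel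
theorem S6u_ok : ok 8 0 0 5 0 S6ul = true := by decide +kernel
theorem S9_ok : ok 15 0 0 8 0 S9l = true := by decide +kernel
theorem S10_ok : ok 13 0 1 8 0 S10l = true := by decide +kernel
theorem S11_ok : ok 11 0 0 6 0 S11l = true := by decide +kernel
theorem S12a_ok : ok 12 0 0 7 0 S12al = true := by decide +kernel
theorem S12b_ok : ok 13 0 0 8 0 S12bl = true := by decide +kernel
theorem S13_ok : ok 12 0 0 7 0 S13l = true := by decide +kernel
theorem S14_ok : ok 15 0 0 8 0 S14l = true := by decide +kernel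
theorem T1_ok : okT 14 20 0 0 8 0 T1l = true := by decide +kernel
theorem T2_ok : okT 13 19 0 0 9 0 T2l = true := by decide +kernel
theorem T3_ok : okT 15 22 0 0 11 0 T3l = true := by decide +kernel
theorem T4_ok : okT 10 14 0 0 5 0 T4l = true := by decide +kernel
theorem T5_ok : okTB 0 3 10 13 27 13 8 0 0 0 T5l = true := by decide +kernel
theorem J1_ok : okC [[.ofNat 0, .ofNat 1], [.ofNat 0, .ofNat 2]] 3 16 22 0 0 10 0 J1l = true :=
    by decide +kernel
theorem J0_ok : okC [[.ofNat 0, .ofNat 1], [.ofNat 0, .ofNat 2]] 3 15 19 0 0 8 0 T2l = true :=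
    by decide +kernel
theorem J2_ok : okC [[.ofNat 0, .ofNat 0], [.ofNat 0, .ofNat 1]] 1 11 15 0 0 6 0 J2l = true :=
    by decide +kernel

end Vale.Agent.P219.D4
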