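import Vale.Agent.P219.C5.Poly

/-! # The certificate in dimension 4: polynomials in `ρ`, `e` (generated)

`ρ = 1/cosh (r/2)`, `e = 1/cosh R`. All quantities are multiplied by `s = 15 (25+53e+50e²)`. -/

namespace Vale.Agent.P219.D4

open Vale.Agent.P219.C5

/-- `6 ρ⁴ L1 L2³ u`. -/
def uN : P2 :=
  [[.ofNat 0, .ofNat 0, .ofNat 0, .ofNat 0, .ofNat 0, .ofNat 1680, .ofNat 9000, .ofNat 4680],
    [.ofNat 0, .ofNat 0, .ofNat 0, .ofNat 0, .ofNat 9240, .ofNat 49500, .ofNat 25740],
    [.ofNat 0, .ofNat 0, .ofNat 0, .ofNat 20130, .ofNat 106893, .ofNat 53997, .negSucc 5497,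
      .negSucc 3041],
    [.ofNat 0, .ofNat 0, .ofNat 23100, .ofNat 117738, .ofNat 52188, .negSucc 23438,
      .negSucc 11982, .ofNat 156],
    [.ofNat 0, .ofNat 16200, .ofNat 71226, .ofNat 17742, .negSucc 28129, .negSucc 20715,
      .negSucc 15015, .negSucc 2105],
    [.ofNat 5400, .ofNat 23598, .ofNat 14232, .ofNat 4897, .negSucc 53994, .negSucc 73316,
      .negSucc 2086, .ofNat 312],
    [.ofNat 4050, .ofNat 16686, .negSucc 6233, .negSucc 103673, .negSucc 109104, .ofNat 13153,
      .negSucc 155],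
    [.ofNat 2700, .negSucc 30725, .negSucc 87911, .negSucc 67860, .ofNat 23377, .negSucc 857],
    [.negSucc 12149, .negSucc 25757, .negSucc 14411, .ofNat 11028, .negSucc 467]]

/-- `6 ρ⁴ L1² L2⁴ b`. -/
def bN : P2 :=
  [[.ofNat 0, .ofNat 0, .ofNat 0, .ofNat 0, .ofNat 0, .ofNat 120, .ofNat 4428, .ofNat 5292,
      .ofNat 3992, .ofNat 2808],
    [.ofNat 0, .ofNat 0, .ofNat 0, .ofNat 0, .ofNat 2310, .ofNat 44271, .ofNat 47547,
      .ofNat 18336, .ofNat 12968, .negSucc 311],
    [.ofNat 0, .ofNat 0, .ofNat 0, .ofNat 9120, .ofNat 167760, .ofNat 180804, .ofNat 27762,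
      .ofNat 12370, .negSucc 13491, .negSucc 6083],
    [.ofNat 0, .ofNat 0, .ofNat 7200, .ofNat 344358, .ofNat 453912, .negSucc 1598,
      .negSucc 81176, .negSucc 73637, .negSucc 29679, .ofNat 624],
    [.ofNat 0, .ofNat 0, .ofNat 394308, .ofNat 536322, .negSucc 274868, .negSucc 263846,
      .negSucc 154340, .negSucc 70876, .ofNat 29252, .ofNat 4212],
    [.ofNat 0, .ofNat 226800, .ofNat 232866, .negSucc 670646, .negSucc 553922, .negSucc 407975,
      .negSucc 51419, .ofNat 199116, .negSucc 4287, .negSucc 1247],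
    [.ofNat 48600, .negSucc 10367, .negSucc 681983, .negSucc 747905, .negSucc 608660,
      .ofNat 175293, .ofNat 447417, .negSucc 99958, .ofNat 1248],
    [.negSucc 24299, .negSucc 335015, .negSucc 500777, .negSucc 278444, .ofNat 534693,
      .ofNat 547596, .negSucc 252149, .ofNat 9360],
    [.negSucc 60749, .negSucc 128789, .ofNat 144540, .ofNat 638514, .ofNat 431766,
      .negSucc 281213, .ofNat 11934],
    [.ofNat 0, .ofNat 170100, .ofNat 360612, .ofNat 201768, .negSucc 154391, .ofNat 6552],
    [.ofNat 36450, .ofNat 77274, .ofNat 43236, .negSucc 33083, .ofNat 1404]]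

/-- `6 ρ⁶ L1³ L2⁵ c`. -/
def cN : P2 :=
  [[.ofNat 0, .ofNat 0, .ofNat 0, .ofNat 0, .ofNat 0, .ofNat 0, .ofNat 0, .negSucc 959,
      .negSucc 35423, .negSucc 42335, .negSucc 31935, .negSucc 22463],
    [.ofNat 0, .ofNat 0, .ofNat 0, .ofNat 0, .ofNat 0, .ofNat 0, .negSucc 18179,
      .negSucc 425033, .negSucc 475793, .negSucc 253727, .negSucc 178895, .ofNat 1872],
    [.ofNat 0, .ofNat 0, .ofNat 0, .ofNat 0, .ofNat 0, .negSucc 111689, .negSucc 2176280,
      .negSucc 2354732, .negSucc 754943, .negSucc 482807, .ofNat 103560, .ofNat 52416],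
    [.ofNat 0, .ofNat 0, .ofNat 0, .ofNat 0, .negSucc 313889, .negSucc 6245792,
      .negSucc 6869096, .negSucc 677969, .ofNat 87946, .ofNat 816852, .ofNat 436416,
      .negSucc 3743],
    [.ofNat 0, .ofNat 0, .ofNat 0, .negSucc 370079, .negSucc 11257757, .negSucc 13729607,
      .ofNat 2113731, .ofNat 4378989, .ofNat 2828610, .ofNat 1403028, .negSucc 105287,
      .negSucc 36503],
    [.ofNat 0, .ofNat 0, .negSucc 151199, .negSucc 13086845, .negSucc 17266751,
      .ofNat 10996311, .ofNat 13665405, .ofNat 4604208, .ofNat 2102274, .negSucc 805067,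
      .negSucc 383291],
    [.ofNat 0, .ofNat 0, .negSucc 9397943, .negSucc 11823353, .ofNat 23868267, .ofNat 25606839,
      .ofNat 4989492, .ofNat 238272, .negSucc 3514697, .negSucc 1506185, .ofNat 93448,
      .ofNat 8424],
    [.ofNat 0, .negSucc 3693599, .negSucc 3403781, .ofNat 28686573, .ofNat 31948263,
      .ofNat 2290311, .negSucc 4561334, .negSucc 7394138, .negSucc 3049562, .ofNat 696660,
      .ofNat 88452],
    [.negSucc 583199, .ofNat 148716, .ofNat 19844892, .ofNat 23454684, .negSucc 6399935,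
      .negSucc 10437839, .negSucc 11013926, .negSucc 3459776, .ofNat 2976450, .ofNat 219762,
      .negSucc 22463],
    [.ofNat 218700, .ofNat 7389144, .ofNat 8166582, .negSucc 13448240, .negSucc 14846528,
      .negSucc 14108678, .negSucc 1535534, .ofNat 6344307, .negSucc 168132, .negSucc 46175],
    [.ofNat 1093500, .ofNat 471420, .negSucc 10774295, .negSucc 13108805, .negSucc 11923676,
      .ofNat 1907217, .ofNat 7410447, .negSucc 1325000, .ofNat 3276],
    [.negSucc 291599, .negSucc 4080941, .negSucc 6138125, .negSucc 4557599, .ofNat 4169934,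
      .ofNat 5388774, .negSucc 2071877, .ofNat 71838],
    [.negSucc 546749, .negSucc 1159109, .ofNat 255960, .ofNat 3531438, .ofNat 2646462,
      .negSucc 1582517, .ofNat 67158],
    [.ofNat 0, .ofNat 692550, .ofNat 1468206, .ofNat 821484, .negSucc 628595, .ofNat 26676],
    [.ofNat 109350, .ofNat 231822, .ofNat 129708, .negSucc 99251, .ofNat 4212]]

/-- `ρ⁶ L1 L2² F`. -/
def FN : P2 :=
  [[.ofNat 0, .ofNat 0, .ofNat 0, .ofNat 0, .ofNat 560, .ofNat 3000, .ofNat 1560],
    [.ofNat 0, .ofNat 0, .ofNat 0, .ofNat 2240, .ofNat 12000, .ofNat 6240],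
    [.ofNat 0, .ofNat 0, .ofNat 3150, .ofNat 16875, .ofNat 8775],
    [.ofNat 0, .ofNat 2100, .ofNat 11250, .ofNat 5850],
    [.ofNat 900, .ofNat 5058, .ofNat 3132, .ofNat 1937, .ofNat 1053],
    [.ofNat 1350, .ofNat 2862, .ofNat 4348, .ofNat 1838, .negSucc 77]]

/-- `6 ρ⁴ L1 L2⁴ (1+ρ) γ`. -/
def gN : P2 :=
  [[.ofNat 0, .ofNat 0, .ofNat 0, .ofNat 0, .ofNat 0, .ofNat 0, .negSucc 1559, .negSucc 4571,
      .ofNat 612, .ofNat 3992, .ofNat 2808],
    [.ofNat 0, .ofNat 0, .ofNat 0, .ofNat 0, .ofNat 0, .negSucc 9569, .negSucc 24716,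
      .ofNat 4923, .ofNat 14956, .ofNat 14152, .ofNat 2496],
    [.ofNat 0, .ofNat 0, .ofNat 0, .ofNat 0, .negSucc 23429, .negSucc 48080, .ofNat 23460,
      .ofNat 9849, .ofNat 12018, .ofNat 972, .negSucc 3587],
    [.ofNat 0, .ofNat 0, .ofNat 0, .negSucc 33689, .negSucc 21872, .ofNat 126294, .ofNat 3399,
      .negSucc 71589, .negSucc 47191, .negSucc 22623, .negSucc 2963],
    [.ofNat 0, .ofNat 0, .negSucc 17999, .ofNat 1572, .ofNat 109659, .ofNat 23589,
      .negSucc 24293, .negSucc 44484, .negSucc 68732, .ofNat 6004, .ofNat 1248],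
    [.ofNat 0, .ofNat 0, .negSucc 36953, .negSucc 59639, .ofNat 121734, .ofNat 375096,
      .ofNat 353157, .ofNat 27100, .ofNat 98323, .negSucc 2495],
    [.ofNat 0, .negSucc 44549, .negSucc 122399, .ofNat 354696, .ofNat 1206066, .ofNat 1474713,
      .ofNat 451518, .ofNat 179221, .negSucc 9983],
    [.negSucc 12149, .negSucc 70307, .ofNat 551268, .ofNat 1951140, .ofNat 2688369,
      .ofNat 1044384, .negSucc 19136, .negSucc 4445],
    [.negSucc 12149, .ofNat 419742, .ofNat 1722024, .ofNat 2660361, .ofNat 1218432,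
      .negSucc 369782, .ofNat 11934],
    [.ofNat 121500, .ofNat 792180, .ofNat 1402038, .ofNat 723417, .negSucc 392252,
      .ofNat 15678],
    [.ofNat 145800, .ofNat 309096, .ofNat 172944, .negSucc 132335, .ofNat 5616]]

/-- `6 ρ⁶ L1² L2⁵ (1+ρ) φ`. -/
def fN : P2 :=
  [[.ofNat 0, .ofNat 0, .ofNat 0, .ofNat 0, .ofNat 0, .ofNat 0, .ofNat 0, .ofNat 0, .ofNat 12480,
      .ofNat 36576, .negSucc 4895, .negSucc 31935, .negSucc 22463],
    [.ofNat 0, .ofNat 0, .ofNat 0, .ofNat 0, .ofNat 0, .ofNat 0, .ofNat 0, .ofNat 110460,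
      .ofNat 306870, .negSucc 41201, .negSucc 226687, .negSucc 188367, .negSucc 20591],
    [.ofNat 0, .ofNat 0, .ofNat 0, .ofNat 0, .ofNat 0, .ofNat 0, .ofNat 413370, .ofNat 1059501,
      .negSucc 193316, .negSucc 630385, .negSucc 579271, .negSucc 86679, .ofNat 31824],
    [.ofNat 0, .ofNat 0, .ofNat 0, .ofNat 0, .ofNat 0, .ofNat 859380, .ofNat 1890288,
      .negSucc 810776, .negSucc 979238, .negSucc 541007, .ofNat 133396, .ofNat 297320,
      .ofNat 28080],
    [.ofNat 0, .ofNat 0, .ofNat 0, .ofNat 0, .ofNat 1132140, .ofNat 1638528, .negSucc 2947313,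
      .negSucc 1544627, .ofNat 1565332, .ofNat 1785774, .ofNat 1121536, .ofNat 195776,
      .negSucc 8423],
    [.ofNat 0, .ofNat 0, .ofNat 0, .ofNat 858420, .ofNat 572538, .negSucc 4536713,
      .negSucc 1492025, .ofNat 6263148, .ofNat 6192442, .ofNat 2518608, .ofNat 416140,
      .negSucc 151011, .negSucc 8423],
    [.ofNat 0, .ofNat 0, .ofNat 270000, .ofNat 321876, .negSucc 2598197, .ofNat 3280158,
      .ofNat 17454726, .ofNat 17233332, .ofNat 3879022, .negSucc 776981, .negSucc 759169,
      .negSucc 57563],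
    [.ofNat 0, .ofNat 0, .ofNat 602748, .ofNat 194166, .ofNat 12764241, .ofNat 36794793,
      .ofNat 38519988, .ofNat 8262348, .negSucc 5022478, .negSucc 2248550, .negSucc 137237,
      .ofNat 22464],
    [.ofNat 0, .ofNat 388800, .ofNat 1022004, .ofNat 18122670, .ofNat 50851845,
      .ofNat 59211999, .ofNat 15945594, .negSucc 12405761, .negSucc 3565084, .ofNat 324383,
      .ofNat 36192],
    [.ofNat 72900, .ofNat 543348, .ofNat 13863636, .ofNat 45784980, .ofNat 58295970,
      .ofNat 15920328, .negSucc 21033221, .negSucc 3582383, .ofNat 2039896, .negSucc 43211],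
    [.ofNat 72900, .ofNat 5792148, .ofNat 25975242, .ofNat 34125867, .ofNat 3820893,
      .negSucc 26164451, .negSucc 3833297, .ofNat 4512702, .negSucc 180881],
    [.ofNat 1057050, .ofNat 8267346, .ofNat 9651960, .negSucc 7725464, .negSucc 23587976,
      .negSucc 4853315, .ofNat 5900982, .negSucc 255059],
    [.ofNat 1129950, .ofNat 62694, .negSucc 8343269, .negSucc 14582465, .negSucc 4522331,
      .ofNat 4718352, .negSucc 204047],
    [.negSucc 437399, .negSucc 3260087, .negSucc 5464367, .negSucc 2370095, .ofNat 2100528,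
      .negSucc 89855],
    [.negSucc 437399, .negSucc 927287, .negSucc 518831, .ofNat 397008, .negSucc 16847]]

/-- constant coefficient of the kernel, over `12 ρ⁶ L1³ L2⁵`. -/
def k1 : P2 :=
  [[.ofNat 0, .ofNat 0, .ofNat 0, .ofNat 0, .ofNat 0, .ofNat 0, .ofNat 0, .ofNat 960,
      .ofNat 35424, .ofNat 95136, .ofNat 284512, .ofNat 129888, .negSucc 31935, .negSucc 22463],
    [.ofNat 0, .ofNat 0, .ofNat 0, .ofNat 0, .ofNat 0, .ofNat 0, .ofNat 18180, .ofNat 425034,
      .ofNat 1022094, .ofNat 2852694, .ofNat 1275582, .negSucc 255599, .negSucc 178895,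
      .ofNat 1872],
    [.ofNat 0, .ofNat 0, .ofNat 0, .ofNat 0, .ofNat 0, .ofNat 111690, .ofNat 2176281,
      .ofNat 4843683, .ofNat 12510663, .ofNat 5298795, .negSucc 1254503, .negSucc 741143,
      .ofNat 103560, .ofNat 52416],
    [.ofNat 0, .ofNat 0, .ofNat 0, .ofNat 0, .ofNat 313890, .ofNat 6245793, .ofNat 13473447,
      .ofNat 31494177, .ofNat 11539037, .negSucc 5652821, .negSucc 2510629, .ofNat 820596,
      .ofNat 436416, .negSucc 3743],
    [.ofNat 0, .ofNat 0, .ofNat 0, .ofNat 370080, .ofNat 11257758, .ofNat 25143768,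
      .ofNat 49781079, .ofNat 11230035, .negSucc 19563494, .negSucc 6848942, .ofNat 2855946,
      .ofNat 1394604, .negSucc 105287, .negSucc 36503],
    [.ofNat 0, .ofNat 0, .ofNat 151200, .ofNat 13086846, .ofNat 30602232, .ofNat 48444135,
      .negSucc 1958936, .negSucc 41874092, .negSucc 13856168, .ofNat 4909692, .ofNat 2241726,
      .negSucc 797579, .negSucc 383291],
    [.ofNat 0, .ofNat 0, .ofNat 9397944, .ofNat 22387914, .ofNat 24552453, .negSucc 20436968,
      .negSucc 58113608, .negSucc 16112552, .ofNat 7544286, .ofNat 1504746, .negSucc 3373521,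
      .negSucc 1413521, .ofNat 93448, .ofNat 8424],
    [.ofNat 0, .ofNat 3693600, .ofNat 8992782, .ofNat 217143, .negSucc 30388544,
      .negSucc 53911037, .negSucc 8516741, .ofNat 9796914, .negSucc 269291, .negSucc 6331790,
      .negSucc 2304494, .ofNat 689172, .ofNat 88452],
    [.ofNat 583200, .ofNat 1698084, .negSucc 7457723, .negSucc 23481791, .negSucc 30924755,
      .negSucc 438731, .ofNat 6861303, .negSucc 2572478, .negSucc 7953800, .negSucc 839402,
      .ofNat 2950242, .ofNat 219762, .negSucc 22463],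
    [.ofNat 72900, .negSucc 4000751, .negSucc 9104561, .negSucc 8885726, .ofNat 2562231,
      .ofNat 2076762, .negSucc 6899333, .negSucc 9260165, .ofNat 3748858, .ofNat 6265059,
      .negSucc 168132, .negSucc 46175],
    [.negSucc 656099, .negSucc 1390931, .negSucc 131219, .ofNat 2859714, .negSucc 933722,
      .negSucc 10057742, .negSucc 7716347, .ofNat 8368482, .ofNat 7247115, .negSucc 1325000,
      .ofNat 3276],
    [.ofNat 0, .ofNat 692550, .ofNat 1414206, .negSucc 2397545, .negSucc 8307359,
      .negSucc 3582689, .ofNat 8965032, .ofNat 5215848, .negSucc 2071877, .ofNat 71838],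
    [.ofNat 109350, .ofNat 231822, .negSucc 1774061, .negSucc 4358771, .negSucc 956477,
      .ofNat 5709468, .ofNat 2554032, .negSucc 1582517, .ofNat 67158],
    [.ofNat 0, .negSucc 692549, .negSucc 1468205, .negSucc 128933, .ofNat 2096802,
      .ofNat 794808, .negSucc 628595, .ofNat 26676],
    [.negSucc 109349, .negSucc 231821, .negSucc 20357, .ofNat 331074, .ofNat 125496,
      .negSucc 99251, .ofNat 4212]]

/-- coefficient of `c`. -/
def kc : P2 :=
  [[.ofNat 0, .ofNat 0, .ofNat 0, .ofNat 0, .ofNat 0, .ofNat 0, .ofNat 0, .negSucc 1439,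
      .negSucc 53135, .negSucc 144143, .negSucc 479903, .negSucc 258335],
    [.ofNat 0, .ofNat 0, .ofNat 0, .ofNat 0, .ofNat 0, .ofNat 0, .negSucc 31319,
      .negSucc 664091, .negSucc 1576043, .negSucc 4875791, .negSucc 2598575, .ofNat 3744],
    [.ofNat 0, .ofNat 0, .ofNat 0, .ofNat 0, .ofNat 0, .negSucc 180899, .negSucc 3420953,
      .negSucc 7619633, .negSucc 21908807, .negSucc 11291255, .ofNat 915072, .ofNat 477360],
    [.ofNat 0, .ofNat 0, .ofNat 0, .ofNat 0, .negSucc 401579, .negSucc 9961973,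
      .negSucc 22342949, .negSucc 57003371, .negSucc 26632019, .ofNat 8614416, .ofNat 4442520,
      .negSucc 18719],
    [.ofNat 0, .ofNat 0, .ofNat 0, .negSucc 380159, .negSucc 18082115, .negSucc 41893955,
      .negSucc 91660823, .negSucc 34123355, .ofNat 35682744, .ofNat 18506772, .negSucc 121583,
      .negSucc 168479],
    [.ofNat 0, .ofNat 0, .negSucc 129599, .negSucc 20749283, .negSucc 49301207,
      .negSucc 88045505, .negSucc 11933585, .ofNat 87421230, .ofNat 45464826, .ofNat 36984,
      .negSucc 1313231, .ofNat 14976],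
    [.ofNat 0, .ofNat 0, .negSucc 14484743, .negSucc 35114039, .negSucc 40079411,
      .ofNat 35703252, .ofNat 138048624, .ofNat 74234772, .ofNat 3854244, .negSucc 5014439,
      .negSucc 358511, .negSucc 50543],
    [.ofNat 0, .negSucc 5540399, .negSucc 14183747, .ofNat 7494066, .ofNat 65643246,
      .ofNat 140407170, .ofNat 85385550, .ofNat 14052672, .negSucc 13749035, .negSucc 3962807,
      .negSucc 530711],
    [.negSucc 874799, .negSucc 2777975, .ofNat 19554048, .ofNat 50429088, .ofNat 87736752,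
      .ofNat 69555420, .ofNat 20807460, .negSucc 30752999, .negSucc 17836187, .negSucc 2056931,
      .ofNat 44928],
    [.negSucc 145799, .ofNat 9386604, .ofNat 18448236, .ofNat 30163536, .ofNat 39321252,
      .ofNat 13154586, .negSucc 53785661, .negSucc 43895825, .negSucc 3507725, .ofNat 187200],
    [.ofNat 1530900, .ofNat 2322108, .ofNat 3917808, .ofNat 16107876, .negSucc 1306655,
      .negSucc 67825871, .negSucc 63669005, .negSucc 1737341, .ofNat 261144],
    [.negSucc 145799, .negSucc 309095, .ofNat 5823252, .negSucc 9319913, .negSucc 57984929,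
      .negSucc 55453187, .ofNat 2707968, .ofNat 89388],
    [.ofNat 0, .ofNat 1846800, .negSucc 8208863, .negSucc 31638275, .negSucc 28243295,
      .ofNat 4642056, .negSucc 105299],
    [.ofNat 291600, .negSucc 3537107, .negSucc 9958139, .negSucc 7588403, .ofNat 2723220,
      .negSucc 101087],
    [.negSucc 656099, .negSucc 1390931, .negSucc 778247, .ofNat 595512, .negSucc 25271]]

/-- coefficient of `c²`. -/
def kcc : P2 :=
  [[.ofNat 0, .ofNat 0, .ofNat 0, .ofNat 0, .ofNat 0, .ofNat 0, .ofNat 0, .negSucc 959,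
      .negSucc 35423, .ofNat 13344, .ofNat 326912, .ofNat 211968, .ofNat 63872, .ofNat 44928],
    [.ofNat 0, .ofNat 0, .ofNat 0, .ofNat 0, .ofNat 0, .ofNat 0, .negSucc 10079,
      .negSucc 371951, .ofNat 156312, .ofNat 3538740, .ofNat 2288196, .ofNat 507456,
      .ofNat 357792, .negSucc 3743],
    [.ofNat 0, .ofNat 0, .ofNat 0, .ofNat 0, .ofNat 0, .negSucc 84959, .negSucc 1863215,
      .ofNat 842916, .ofNat 17304114, .ofNat 11027034, .ofNat 829952, .ofNat 606192,
      .negSucc 207119, .negSucc 104831],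
    [.ofNat 0, .ofNat 0, .ofNat 0, .ofNat 0, .negSucc 452399, .negSucc 5059223, .ofNat 4005852,
      .ofNat 49848426, .ofNat 30443002, .negSucc 4877819, .negSucc 3266131, .negSucc 1611239,
      .negSucc 872831, .ofNat 7488],
    [.ofNat 0, .ofNat 0, .ofNat 0, .negSucc 719999, .negSucc 8866799, .ofNat 6083640,
      .ofNat 88918560, .ofNat 54939252, .negSucc 29321333, .negSucc 21816185, .negSucc 5703251,
      .negSucc 2542103, .ofNat 210576, .ofNat 73008],
    [.ofNat 0, .ofNat 0, .negSucc 345599, .negSucc 10848815, .ofNat 3090648, .ofNat 103724976,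
      .ofNat 55661100, .negSucc 89069873, .negSucc 62366317, .negSucc 11554967,
      .negSucc 2686523, .ofNat 1568952, .ofNat 766584],
    [.ofNat 0, .ofNat 0, .negSucc 8622287, .ofNat 2165544, .ofNat 83223852, .ofNat 22928772,
      .negSucc 158809523, .negSucc 120942971, .negSucc 28743587, .ofNat 5143380,
      .ofNat 8209204, .ofNat 3051684, .negSucc 186895, .negSucc 16847],
    [.ofNat 0, .negSucc 3693599, .ofNat 3747168, .ofNat 47375136, .negSucc 414179,
      .negSucc 170887817, .negSucc 163307561, .negSucc 51418475, .ofNat 30472368,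
      .ofNat 27117702, .ofNat 6967710, .negSucc 1378343, .negSucc 176903],
    [.negSucc 583199, .ofNat 2457216, .ofNat 19808280, .negSucc 200555, .negSucc 120169217,
      .negSucc 148240985, .negSucc 47474747, .ofNat 87886320, .ofNat 79923078, .ofNat 9708222,
      .negSucc 6678019, .negSucc 506915, .ofNat 44928],
    [.ofNat 583200, .ofNat 5853384, .ofNat 864432, .negSucc 60913331, .negSucc 99220223,
      .negSucc 21008033, .ofNat 169626102, .ofNat 166473300, .ofNat 97040, .negSucc 18588869,
      .negSucc 371349, .ofNat 92352],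
    [.ofNat 729000, .negSucc 301319, .negSucc 24191567, .negSucc 57085055, .ofNat 7146828,
      .ofNat 216033372, .ofNat 211366548, .negSucc 35153471, .negSucc 39021821, .ofNat 153546,
      .ofNat 83304],
    [.negSucc 291599, .negSucc 7543691, .negSucc 25783055, .ofNat 25487082, .ofNat 181925718,
      .ofNat 160611648, .negSucc 82990427, .negSucc 67002563, .ofNat 972296, .ofNat 135876],
    [.negSucc 1093499, .negSucc 6935219, .ofNat 23695740, .ofNat 100773468, .ofNat 66135234,
      .negSucc 104589893, .negSucc 82983479, .ofNat 4077696, .ofNat 120276],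
    [.negSucc 728999, .ofNat 10920420, .ofNat 34440768, .ofNat 4347738, .negSucc 82668473,
      .negSucc 67362647, .ofNat 8108916, .negSucc 107639],
    [.ofNat 1968300, .ofNat 6019596, .negSucc 9681659, .negSucc 41943851, .negSucc 33677699,
      .ofNat 8005596, .negSucc 248039],
    [.ofNat 291600, .negSucc 4922207, .negSucc 12894551, .negSucc 9231371, .ofNat 3980412,
      .negSucc 154439],
    [.negSucc 874799, .negSucc 1854575, .negSucc 1037663, .ofNat 794016, .negSucc 33695]]

/-- coefficient of `p`. -/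
def kp : P2 :=
  [[.ofNat 0, .ofNat 0, .ofNat 0, .ofNat 0, .ofNat 0, .ofNat 0, .ofNat 0, .ofNat 480,
      .ofNat 17712, .negSucc 31631, .negSucc 236607, .negSucc 96191, .ofNat 31936,
      .ofNat 22464],
    [.ofNat 0, .ofNat 0, .ofNat 0, .ofNat 0, .ofNat 0, .ofNat 0, .ofNat 5040, .ofNat 185976,
      .negSucc 324035, .negSucc 2431301, .negSucc 978749, .ofNat 253728, .ofNat 178896,
      .negSucc 1871],
    [.ofNat 0, .ofNat 0, .ofNat 0, .ofNat 0, .ofNat 0, .ofNat 42480, .ofNat 931608,
      .negSucc 1469597, .negSucc 11156630, .negSucc 4372034, .ofNat 1227008, .ofNat 722424,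
      .negSucc 103559, .negSucc 52415],
    [.ofNat 0, .ofNat 0, .ofNat 0, .ofNat 0, .ofNat 226200, .ofNat 2529612, .negSucc 4558865,
      .negSucc 29997494, .negSucc 10653118, .ofNat 5453858, .ofNat 2276086, .negSucc 821843,
      .negSucc 436415, .ofNat 3744],
    [.ofNat 0, .ofNat 0, .ofNat 0, .ofNat 360000, .ofNat 4433400, .negSucc 7085159,
      .negSucc 50111729, .negSucc 14971343, .ofNat 19073565, .ofNat 6339195, .negSucc 3136217,
      .negSucc 1428299, .ofNat 105288, .ofNat 36504],
    [.ofNat 0, .ofNat 0, .ofNat 172800, .ofNat 5424408, .negSucc 5660303, .negSucc 55622237,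
      .negSucc 8954711, .ofNat 46962351, .ofNat 12983065, .negSucc 7559891, .negSucc 1854845,
      .ofNat 821916, .ofNat 383292],
    [.ofNat 0, .ofNat 0, .ofNat 4311144, .negSucc 3466331, .negSucc 45447005, .ofNat 561018,
      .ofNat 68428980, .ofNat 12729420, .negSucc 15810197, .ofNat 650322, .ofNat 3272698,
      .ofNat 1398546, .negSucc 93447, .negSucc 8423],
    [.ofNat 0, .ofNat 1846800, .negSucc 2456783, .negSucc 30196403, .negSucc 1239353,
      .ofNat 51230889, .negSucc 13585274, .negSucc 38504393, .ofNat 3386256, .ofNat 5262627,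
      .ofNat 1121679, .negSucc 722867, .negSucc 88451],
    [.ofNat 291600, .negSucc 1228607, .negSucc 16175483, .negSucc 5497793, .ofNat 9284613,
      .negSucc 55416938, .negSucc 66933479, .ofNat 945246, .negSucc 1980308, .negSucc 5556008,
      .negSucc 2495953, .negSucc 186065, .ofNat 22464],
    [.negSucc 291599, .negSucc 5696891, .negSucc 2668139, .negSucc 16289027, .negSucc 66398213,
      .negSucc 59826530, .ofNat 3505809, .negSucc 12975989, .negSucc 15664815,
      .negSucc 2336314, .ofNat 901781, .ofNat 58656],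
    [.negSucc 801899, .ofNat 146772, .negSucc 15111791, .negSucc 39205115, .negSucc 15063623,
      .ofNat 22062096, .negSucc 6749567, .negSucc 11369945, .ofNat 10659045, .ofNat 5084829,
      .negSucc 96875],
    [.ofNat 291600, .negSucc 5614757, .negSucc 11210507, .ofNat 19488519, .ofNat 36432213,
      .ofNat 11762598, .ofNat 15073440, .ofNat 38909982, .ofNat 10160000, .negSucc 503645],
    [.negSucc 984149, .negSucc 701297, .ofNat 20375550, .ofNat 27165258, .ofNat 19567731,
      .ofNat 40785783, .ofNat 58941528, .ofNat 9960132, .negSucc 690533],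
    [.ofNat 218700, .ofNat 7619994, .ofNat 9155484, .ofNat 13735287, .ofNat 41226237,
      .ofNat 49810164, .ofNat 4061514, .negSucc 404819],
    [.ofNat 1129950, .ofNat 548694, .ofNat 6067170, .ofNat 22932774, .ofNat 24087288,
      .negSucc 881507, .negSucc 54287],
    [.negSucc 291599, .ofNat 2152008, .ofNat 7021728, .ofNat 5945436, .negSucc 1466027,
      .ofNat 47736],
    [.ofNat 437400, .ofNat 927288, .ofNat 518832, .negSucc 397007, .ofNat 16848]]

/-- coefficient of `c p`. -/
def kcp : P2 :=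
  [[.ofNat 0, .ofNat 0, .ofNat 0, .ofNat 0, .ofNat 0, .ofNat 0, .ofNat 0, .ofNat 1440,
      .ofNat 53136, .ofNat 88464, .ofNat 121056, .ofNat 23904, .negSucc 63871, .negSucc 44927],
    [.ofNat 0, .ofNat 0, .ofNat 0, .ofNat 0, .ofNat 0, .ofNat 0, .ofNat 31320, .ofNat 664092,
      .ofNat 975204, .ofNat 1001724, .ofNat 74508, .negSucc 511199, .negSucc 357791,
      .ofNat 3744],
    [.ofNat 0, .ofNat 0, .ofNat 0, .ofNat 0, .ofNat 0, .ofNat 180900, .ofNat 3420954,
      .ofNat 4737534, .ofNat 3388806, .negSucc 631409, .negSucc 1841119, .negSucc 1124735,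
      .ofNat 207120, .ofNat 104832],
    [.ofNat 0, .ofNat 0, .ofNat 0, .ofNat 0, .ofNat 401580, .ofNat 9961974, .ofNat 14241090,
      .ofNat 5331546, .negSucc 5839853, .negSucc 4384035, .negSucc 1304947, .ofNat 1639944,
      .ofNat 872832, .negSucc 7487],
    [.ofNat 0, .ofNat 0, .ofNat 0, .ofNat 380160, .ofNat 18082116, .ofNat 27109836,
      .negSucc 1755503, .negSucc 22485887, .negSucc 8298713, .ofNat 2829438, .ofNat 6619908,
      .ofNat 2867832, .negSucc 210575, .negSucc 73007],
    [.ofNat 0, .ofNat 0, .ofNat 129600, .ofNat 20749284, .ofNat 30634008, .negSucc 25845497,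
      .negSucc 49776269, .negSucc 10552271, .ofNat 17796704, .ofNat 18480000, .ofNat 4055532,
      .negSucc 1636343, .negSucc 766583],
    [.ofNat 0, .ofNat 0, .ofNat 14484744, .ofNat 18392040, .negSucc 53525267,
      .negSucc 72341459, .negSucc 930347, .ofNat 58173000, .ofNat 47367696, .negSucc 2563067,
      .negSucc 8394179, .negSucc 3094739, .ofNat 186896, .ofNat 16848],
    [.ofNat 0, .ofNat 5540400, .ofNat 3999348, .negSucc 57708233, .negSucc 72068489,
      .ofNat 33736500, .ofNat 131695992, .ofNat 98500068, .negSucc 25392971, .negSucc 27545069,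
      .negSucc 5368661, .ofNat 1445736, .ofNat 176904],
    [.ofNat 874800, .negSucc 915623, .negSucc 36096839, .negSucc 45963395, .ofNat 82257978,
      .ofNat 200404518, .ofNat 138948864, .negSucc 75114215, .negSucc 70561769, .ofNat 1223982,
      .ofNat 6412196, .ofNat 506916, .negSucc 44927],
    [.negSucc 437399, .negSucc 12469787, .negSucc 15319043, .ofNat 99457020, .ofNat 203024196,
      .ofNat 113898324, .negSucc 157309499, .negSucc 138266477, .ofNat 26663298,
      .ofNat 16228534, .negSucc 388329, .negSucc 117311],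
    [.negSucc 1822499, .negSucc 1093499, .ofNat 67378176, .ofNat 132817860, .ofNat 23488452,
      .negSucc 232482347, .negSucc 187361549, .ofNat 64784934, .ofNat 26953662,
      .negSucc 5176745, .ofNat 14040],
    [.ofNat 437400, .ofNat 24473988, .ofNat 50860548, .negSucc 52401275, .negSucc 229531631,
      .negSucc 164058167, .ofNat 91849944, .ofNat 35053608, .negSucc 13977079, .ofNat 448188],
    [.ofNat 3717900, .ofNat 8805348, .negSucc 56419739, .negSucc 143527535, .negSucc 82850129,
      .ofNat 90844182, .ofNat 38183676, .negSucc 21745583, .ofNat 871884],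
    [.ofNat 145800, .negSucc 23699303, .negSucc 51445259, .negSucc 12885101, .ofNat 66327606,
      .ofNat 32229000, .negSucc 21826475, .ofNat 918216],
    [.negSucc 3790799, .negSucc 8036495, .ofNat 9645156, .ofNat 34911324, .ofNat 18754656,
      .negSucc 13851167, .ofNat 587808],
    [.ofNat 0, .ofNat 5540400, .ofNat 11745648, .ofNat 6571872, .negSucc 5028767,
      .ofNat 213408],
    [.ofNat 874800, .ofNat 1854576, .ofNat 1037664, .negSucc 794015, .ofNat 33696]]

/-- coefficient of `c² p`. -/
def kccp : P2 :=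
  [[],
    [],
    [.ofNat 0, .ofNat 0, .ofNat 0, .ofNat 0, .ofNat 0, .ofNat 0, .ofNat 0, .ofNat 960,
      .ofNat 35424, .ofNat 42336, .ofNat 31936, .ofNat 22464],
    [.ofNat 0, .ofNat 0, .ofNat 0, .ofNat 0, .ofNat 0, .ofNat 0, .ofNat 20880, .ofNat 442728,
      .ofNat 486216, .ofNat 226528, .ofNat 159904, .negSucc 2495],
    [.ofNat 0, .ofNat 0, .ofNat 0, .ofNat 0, .ofNat 0, .ofNat 120600, .ofNat 2280636,
      .ofNat 2459916, .ofNat 601296, .ofNat 349680, .negSucc 146111, .negSucc 71135],
    [.ofNat 0, .ofNat 0, .ofNat 0, .ofNat 0, .ofNat 267720, .ofNat 6641316, .ofNat 7797060,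
      .ofNat 319752, .negSucc 732615, .negSucc 1089215, .negSucc 519023, .ofNat 7488],
    [.ofNat 0, .ofNat 0, .ofNat 0, .ofNat 253440, .ofNat 12054744, .ofNat 15417864,
      .negSucc 4178423, .negSucc 6046751, .negSucc 3506111, .negSucc 1625639, .ofNat 360672,
      .ofNat 82368],
    [.ofNat 0, .ofNat 0, .ofNat 86400, .ofNat 13832856, .ofNat 17768592, .negSucc 17523059,
      .negSucc 18500387, .negSucc 7996763, .negSucc 1938659, .ofNat 3048144, .ofNat 409056,
      .negSucc 14975],
    [.ofNat 0, .ofNat 0, .ofNat 9656496, .ofNat 10756800, .negSucc 34221983, .negSucc 35766335,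
      .negSucc 12983111, .ofNat 3109296, .ofNat 10782072, .ofNat 398736, .negSucc 261471,
      .negSucc 33695],
    [.ofNat 0, .ofNat 3693600, .ofNat 2306232, .negSucc 38200427, .negSucc 43647731,
      .negSucc 8414747, .ofNat 17848812, .ofNat 22952784, .negSucc 1882775, .negSucc 2100591,
      .negSucc 49935, .ofNat 9984],
    [.ofNat 583200, .negSucc 610415, .negSucc 25026623, .negSucc 31030991, .ofNat 10450728,
      .ofNat 38133360, .ofNat 34655952, .negSucc 8015639, .negSucc 7615031, .ofNat 834888,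
      .ofNat 14976],
    [.negSucc 291599, .negSucc 8928791, .negSucc 10977767, .ofNat 25277832, .ofNat 47682912,
      .ofNat 36117108, .negSucc 17051579, .negSucc 15315083, .ofNat 4067836, .negSucc 84863],
    [.negSucc 1312199, .negSucc 935063, .ofNat 20798208, .ofNat 35513352, .ofNat 21278952,
      .negSucc 24632567, .negSucc 19489571, .ofNat 8492220, .negSucc 297647],
    [.ofNat 291600, .ofNat 8005392, .ofNat 14457960, .ofNat 2375676, .negSucc 24585875,
      .negSucc 16713911, .ofNat 9885216, .negSucc 403415],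
    [.ofNat 1166400, .ofNat 2472768, .negSucc 4909247, .negSucc 15889607, .negSucc 9545591,
      .ofNat 6727080, .negSucc 285479],
    [.ofNat 0, .negSucc 2770199, .negSucc 5872823, .negSucc 3285935, .ofNat 2514384,
      .negSucc 106703],
    [.negSucc 437399, .negSucc 927287, .negSucc 518831, .ofNat 397008, .negSucc 16847]]

/-- coefficient of `p²`. -/
def kpp : P2 :=
  [[.ofNat 0, .ofNat 0, .ofNat 0, .ofNat 0, .ofNat 0, .ofNat 0, .ofNat 0, .negSucc 479,
      .negSucc 17711, .negSucc 21167, .negSucc 15967, .negSucc 11231],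
    [.ofNat 0, .ofNat 0, .ofNat 0, .ofNat 0, .ofNat 0, .ofNat 0, .negSucc 13139,
      .negSucc 239057, .negSucc 253529, .negSucc 86063, .negSucc 60959, .ofNat 1872],
    [.ofNat 0, .ofNat 0, .ofNat 0, .ofNat 0, .ofNat 0, .negSucc 69209, .negSucc 1244672,
      .negSucc 1335860, .negSucc 173567, .negSucc 73463, .ofNat 91656, .ofNat 37440],
    [.ofNat 0, .ofNat 0, .ofNat 0, .ofNat 0, .negSucc 87689, .negSucc 3716180,
      .negSucc 4839452, .negSucc 116009, .ofNat 656738, .ofNat 619876, .ofNat 203200,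
      .negSucc 6239],
    [.ofNat 0, .ofNat 0, .ofNat 0, .negSucc 10079, .negSucc 6824357, .negSucc 9478727,
      .ofNat 2547783, .ofNat 2951385, .ofNat 1825938, .ofNat 640044, .negSucc 368687,
      .negSucc 52415],
    [.ofNat 0, .ofNat 0, .ofNat 21600, .negSucc 7662437, .negSucc 9633095, .ofNat 10702815,
      .ofNat 9165345, .ofNat 6792906, .ofNat 710508, .negSucc 3222599, .ofNat 76368,
      .ofNat 20592],
    [.ofNat 0, .ofNat 0, .negSucc 5086799, .negSucc 4618565, .ofNat 19220637, .ofNat 18167523,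
      .ofNat 15554301, .negSucc 2034914, .negSucc 10706327, .ofNat 1904700, .ofNat 283640,
      .ofNat 26208],
    [.ofNat 0, .negSucc 1846799, .negSucc 185165, .ofNat 18985437, .ofNat 20698731,
      .ofNat 16947357, .negSucc 13171574, .negSucc 24430019, .ofNat 7491336, .ofNat 2411196,
      .negSucc 294575, .negSucc 18719],
    [.negSucc 291599, .ofNat 766908, .ofNat 10711224, .ofNat 13957650, .ofNat 6036615,
      .negSucc 30096944, .negSucc 39226286, .ofNat 16498833, .ofNat 7626918, .negSucc 2878595,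
      .ofNat 28080],
    [.ofNat 218700, .ofNat 3233844, .ofNat 5472846, .negSucc 5332040, .negSucc 35641508,
      .negSucc 39880358, .ofNat 27013773, .ofNat 14972376, .negSucc 9453877, .ofNat 344984,
      .ofNat 75968, .ofNat 2496],
    [.ofNat 437400, .ofNat 927288, .negSucc 6834779, .negSucc 24464285, .negSucc 23782004,
      .ofNat 34137135, .ofNat 19473972, .negSucc 16877015, .ofNat 1515888, .ofNat 428484,
      .negSucc 18719],
    [.ofNat 0, .negSucc 2770199, .negSucc 10126673, .negSucc 6134696, .ofNat 29783079,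
      .ofNat 14602692, .negSucc 18554375, .ofNat 3048822, .ofNat 848826, .negSucc 67391],
    [.negSucc 437399, .negSucc 2312387, .ofNat 1533168, .ofNat 16072506, .ofNat 5067987,
      .negSucc 12759026, .ofNat 2899116, .ofNat 798054, .negSucc 71135],
    [.negSucc 218699, .ofNat 1383156, .ofNat 4817394, .ofNat 143739, .negSucc 5119514,
      .ofNat 1343676, .ofNat 399426, .negSucc 29015],
    [.ofNat 291600, .ofNat 618192, .negSucc 322811, .negSucc 937223, .ofNat 281124,
      .ofNat 99252, .negSucc 4211]]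

end Vale.Agent.P219.D4
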