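import Vale.Agent.P219.D4.Lits

/-! # The certificate in dimension 4: factorisations (generated) -/

namespace Vale.Agent.P219.D4

open Vale.Agent.P219.C5

theorem S1_eq : eqv3 S1 (kmap (mul2 (mul2 (mpow pv 3) (mpow pL0 1))) S1l) = true :=
    by decide +kernel
theorem S2_eq : eqv3 S2 (kmap (mul2 (mpow pv 1)) S2l) = true := by decide +kernel
theorem S3_eq : eqv3 S3 (kmap (mul2 (smul2 2 (mpow pv 1))) S3l) = true := by decide +kernel
theorem S4_eq : eqv3 S4 (kmap (mul2 (mpow pv 1)) S4l) = true := by decide +kernel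
theorem S5_eq : eqv3 S5 (kmap (mul2 (smul2 2 (mul2 (mpow pv 1) (mpow pL1 1)))) S5l) = true :=
    by decide +kernel
theorem S6b_eq : eqv3 S6b (kmap (mul2 (mpow pv 2)) S6bl) = true := by decide +kernel
theorem S6u_eq : eqv3 S6u (kmap (mul2 (mpow pv 1)) S6ul) = true := by decide +kernel
theorem S9_eq : eqv3 S9 (kmap (mul2 (smul2 2 (mul2 (mpow pv 2) (mpow pL1 1)))) S9l) = true :=
    by decide +kernel
theorem S10_eq : eqv3 S10 (kmap (mul2 (smul2 4 (mul2 (mpow pv 1) (mpow pL1 1)))) S10l) = true :=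
    by decide +kernel
theorem S11_eq : eqv3 S11 (kmap (mul2 (mul2 (mpow pv 2) (mpow pL1 1))) S11l) = true :=
    by decide +kernel
theorem S12a_eq : eqv3 S12a (kmap (mul2 (smul2 3 (mpow pv 1))) S12al) = true := by decide +kernel
theorem S12b_eq : eqv3 S12b (kmap (mul2 (smul2 6 (mul2 (mul2 (mpow pv 2) (mpow pL0 1)) (mpow pL1
    1)))) S12bl) = true := by decide +kernel
theorem S13_eq : eqv3 S13 (kmap (mul2 (mpow pv 2)) S13l) = true := by decide +kernel
theorem S14_eq : eqv3 S14 (kmap (mul2 (smul2 2 (mul2 (mpow pv 2) (mpow pL1 1)))) S14l) = true :=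
    by decide +kernel
theorem T1_eq : eqv3 T1 (kmap (mul2 (mul2 (mpow pv 2) (mpow pL0 1))) T1l) = true :=
    by decide +kernel
theorem T2_eq : eqv3 T2 (kmap (mul2 (p1)) T2l) = true := by decide +kernel
theorem T3_eq : eqv3 T3 (kmap (mul2 (p1)) T3l) = true := by decide +kernel
theorem T4_eq : eqv3 T4 (kmap (mul2 (mpow pL1 1)) T4l) = true := by decide +kernel
theorem T5_eq : eqv3 T5 (kmap (mul2 (smul2 2 (mpow pL1 3))) T5l) = true := by decide +kernel
theorem J1_eq : eqv3 J1 (kmap (mul2 (p1)) J1l) = true := by decide +kernel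
theorem J2_eq : eqv3 J2 (kmap (mul2 (mul2 (mpow pv 1) (mpow pL1 1))) J2l) = true :=
    by decide +kernel
theorem V0_eq : eqv3 V0 (kmap (mul2 (smul2 2 (mpow pv 1))) V0l) = true := by decide +kernel
theorem V1_eq : eqv3 V1 (kmap (mul2 (smul2 2 (mul2 (mpow pv 1) (mpow pL1 1)))) V1l) = true :=
    by decide +kernel
theorem M0_eq : eqv3 M0 (kmap (mul2 (smul2 2 (mpow pv 2))) M0l) = true := by decide +kernel
theorem M1_eq : eqv3 M1 (kmap (mul2 (smul2 2 (mul2 (mpow pv 2) (mpow pL1 1)))) M1l) = true :=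
    by decide +kernel
theorem N0_eq : eqv3 N0 (kmap (mul2 (smul2 4 (mpow pv 2))) N0l) = true := by decide +kernel
theorem N1_eq : eqv3 N1 (kmap (mul2 (mul2 (mpow pv 2) (mpow pL1 1))) N1l) = true :=
    by decide +kernel
theorem O1a_eq : eqv3 O1a (kmap (mul2 (smul2 4 (mul2 (mpow pv 3) (mpow pL0 3)))) O1al) = true :=
    by decide +kernel
theorem O1b_eq : eqv3 O1b (kmap (mul2 (smul2 4 (mul2 (mul2 (mpow pv 3) (mpow pL0 3)) (mpow pL1
    1)))) O1bl) = true := by decide +kernel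
theorem O2_eq : eqv3 O2 (kmap (mul2 (smul2 4 (mul2 (mpow pv 1) (mpow pL1 1)))) O2l) = true :=
    by decide +kernel

end Vale.Agent.P219.D4
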