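import Vale.Agent.P219.D4.Kern
import Vale.Agent.P219.C5.Field

/-! # The certificate in dimension 4: the field -/

open Set MeasureTheory Metric
open scoped ContDiff

namespace Vale.Agent.P219.D4

open Vale.Agent.P219.TP Vale.Agent.P219.TPH Vale.Agent.P219.C5

variable {T e r a b : ℝ}

/-- `ρ = 1/cosh(r/2)`. -/
noncomputable def rh (r : ℝ) : ℝ := 1 / Real.cosh (r / 2)

theorem rh_pos (r : ℝ) : 0 < rh r := by
  have := Real.cosh_pos (r / 2)
  unfold rh
  positivity

theorem rh_lt_one (hr : 0 < r) : rh r < 1 := by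
  have h := Real.one_lt_cosh.2 (by positivity : r / 2 ≠ 0)
  rw [rh, div_lt_one (by linarith)]
  exact h

/-- `Y = T² x² = 1 - ρ²`. -/
theorem Y_xx (hT : 0 < T) (r : ℝ) : T ^ 2 * xx T r ^ 2 = 1 - rh r ^ 2 := by
  rw [← mul_pow, T_xx hT, rh, Real.tanh_eq_sinh_div_cosh]
  have hc := Real.cosh_pos (r / 2)
  have h2 := Real.cosh_sq_sub_sinh_sq (r / 2)
  field_simp
  linarith

theorem ro_xx (hT : 0 < T) (r : ℝ) : ro T (xx T r) = rh r := by
  rw [ro, Y_xx hT, sub_sub_cancel, Real.sqrt_sq (rh_pos r).le]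

theorem xx_L4 (hT : 0 < T) (r : ℝ) : L4 T (xx T r) = r := xx_log hT r

theorem sinh_eq (hT : 0 < T) (r : ℝ) : Real.sinh r = 2 * T * xx T r / rh r ^ 2 := by
  rw [xx_sinh hT]
  congr 1
  have := Y_xx hT r
  linear_combination -this

theorem cosh_eq (hT : 0 < T) (r : ℝ) : Real.cosh r = (2 - rh r ^ 2) / rh r ^ 2 := by
  rw [xx_cosh hT]
  have := Y_xx hT r
  congr 1
  · linear_combination this
  · linear_combination -this

theorem T_xx_lt (hT : 0 < T) (r : ℝ) : T * xx T r < 1 := by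
  rw [T_xx hT]; exact Real.tanh_lt_one _

theorem hasDerivAt_xx' (hT : 0 < T) (r : ℝ) : HasDerivAt (xx T) (rh r ^ 2 / (2 * T)) r := by
  refine (hasDerivAt_xx hT r).congr_deriv ?_
  have := Y_xx hT r
  congr 1
  linear_combination -this

theorem hasDerivAt_rh (hT : 0 < T) (r : ℝ) :
    HasDerivAt rh (-(rh r * (T * xx T r) / 2)) r := by
  have hc := Real.cosh_pos (r / 2)
  have h0 : HasDerivAt (fun r : ℝ => r / 2) (1 / 2) r := (hasDerivAt_id r).div_const 2
  have h2 := (Real.hasDerivAt_cosh (r / 2)).comp r h0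
  have h3 := (hasDerivAt_const r (1 : ℝ)).fun_div h2 hc.ne'
  refine h3.congr_deriv ?_
  rw [T_xx hT, Real.tanh_eq_sinh_div_cosh, rh]
  simp only [Function.comp]
  field_simp
  ring

/-! ### The field -/

/-- The field. -/
noncomputable def phi (T e r a : ℝ) : ℝ :=
  rh r ^ 4 * (2 * xx T r ^ 2 * wq e (rh r) - a ^ 2 * bq e (rh r)) / (8 * sE e * T * xx T r ^ 3)

/-- Derivative in `r`. -/
noncomputable def phir (T e r a : ℝ) : ℝ :=
  rh r ^ 4 * (rh r ^ 2 * (xx T r ^ 2 * vq e (rh r) + a ^ 2 * cq e (rh r) / 2) -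
    2 * (2 - rh r ^ 2) * (xx T r ^ 2 * wq e (rh r) - a ^ 2 * bq e (rh r) / 2)) /
    (8 * sE e * (T ^ 2 * xx T r ^ 4))

/-- Derivative in `a`. -/
noncomputable def phia (T e r a : ℝ) : ℝ :=
  -(2 * a * (rh r ^ 4 * bq e (rh r))) / (8 * sE e * T * xx T r ^ 3)

theorem hasDerivAt_phi_a (T e r a : ℝ) : HasDerivAt (phi T e r) (phia T e r a) a := by
  have h := ((((hasDerivAt_pow 2 a).mul_const (bq e (rh r))).const_sub
      (2 * xx T r ^ 2 * wq e (rh r))).const_mul (rh r ^ 4)).div_const (8 * sE e * T * xx T r ^ 3)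
  refine h.congr_deriv ?_
  unfold phia
  congr 1
  norm_num
  ring

theorem hasDerivAt_phi_r (hT : 0 < T) (he : 0 < e) (hr : 0 < r) (a : ℝ) :
    HasDerivAt (fun r => phi T e r a) (phir T e r a) r := by
  have hx := xx_pos hT hr
  have hp := rh_pos r
  have hY := Y_xx hT r
  have hs := sE_pos he
  have d1 := hasDerivAt_xx' hT r
  have d2 := hasDerivAt_rh hT r
  have d3 := (hasDerivAt_uq hp he).comp r d2
  have d4 := (hasDerivAt_bq hp he).comp r d2
  have d5 := ((d2.fun_pow 4).fun_mul ((((d1.fun_pow 2).const_mul 2).fun_mul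
    (d3.fun_add (d4.div_const 2))).fun_sub (d4.const_mul (a ^ 2)))).fun_div
      ((d1.fun_pow 3).const_mul (8 * sE e * T)) (by positivity)
  refine d5.congr_deriv ?_
  have hb := bq' hp he
  have hu := uq' hp he
  rw [← hY] at hb hu
  unfold phir vq wq
  rw [← hY]
  clear d1 d2 d3 d4 d5
  simp only [Function.comp]
  generalize fq e (opD bN 4 2 4 0) (4 + 1) (2 + 1) (4 + 1) (0 + 1) (rh r) = P1 at *
  generalize fq e (opD uN 4 1 3 0) (4 + 1) (1 + 1) (3 + 1) (0 + 1) (rh r) = P2 at *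
  generalize uq e (rh r) = u at *
  generalize bq e (rh r) = b at *
  generalize cq e (rh r) = c at *
  generalize Fq e (rh r) = F at *
  generalize rh r = p at *
  generalize xx T r = x at *
  generalize sE e = s at *
  have hP1 : P1 = 6 * p * (c - b) / (T ^ 2 * x ^ 2) := by
    rw [← hb]; field_simp
  have hP2 : P2 = 6 * p * (u + b - T ^ 2 * x ^ 2 * F) / (T ^ 2 * x ^ 2) := by
    rw [← hu]; field_simp
  have h2 : 2 * (2 - p ^ 2) = 4 * (T ^ 2 * x ^ 2) + 2 * p ^ 2 := by linear_combination -4 * hY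
  rw [hP1, hP2, h2]
  field_simp
  push_cast
  ring

/-! ### Smoothness -/

theorem contDiff_rh : ContDiff ℝ ∞ rh := by
  have h0 : ContDiff ℝ ∞ fun r : ℝ => r / 2 := contDiff_id.div_const 2
  exact contDiff_const.div (Real.contDiff_cosh.comp h0) fun r => (Real.cosh_pos _).ne'

theorem contDiff_fq (he : 0 < e) (P : P2) (i j k l : ℕ) :
    ContDiff ℝ ∞ fun p : ℝ × ℝ => fq e P i j k l (rh p.1) := by
  have hx : ContDiff ℝ ∞ fun p : ℝ × ℝ => rh p.1 := contDiff_rh.comp contDiff_fst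
  have hn : ContDiff ℝ ∞ fun p : ℝ × ℝ => e2 (rh p.1) e P := (contDiff_e2 e P).comp hx
  unfold fq
  refine hn.div ((((hx.pow i).mul ((hx.add contDiff_const).pow j)).mul
    (((contDiff_const.mul hx).add contDiff_const).pow k)).mul
      ((contDiff_const.add hx).pow l)) fun p => ?_
  have := rh_pos p.1
  positivity

theorem contDiffOn_phi (hT : 0 < T) (he : 0 < e) :
    ContDiffOn ℝ ∞ (Function.uncurry (phi T e)) {p : ℝ × ℝ | 0 < p.1} := by
  have hx : ContDiff ℝ ∞ fun p : ℝ × ℝ => xx T p.1 := (contDiff_xx T).comp contDiff_fst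
  have hr : ContDiff ℝ ∞ fun p : ℝ × ℝ => rh p.1 := contDiff_rh.comp contDiff_fst
  have hu : ContDiff ℝ ∞ fun p : ℝ × ℝ => uq e (rh p.1) := (contDiff_fq he uN 4 1 3 0).div_const 6
  have hb : ContDiff ℝ ∞ fun p : ℝ × ℝ => bq e (rh p.1) := (contDiff_fq he bN 4 2 4 0).div_const 6
  have hn : ContDiff ℝ ∞ fun p : ℝ × ℝ => rh p.1 ^ 4 * (2 * xx T p.1 ^ 2 *
      (uq e (rh p.1) + bq e (rh p.1) / 2) - p.2 ^ 2 * bq e (rh p.1)) :=
    (hr.pow 4).mul (((contDiff_const.mul (hx.pow 2)).mul (hu.add (hb.div_const 2))).sub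
      ((contDiff_snd.pow 2).mul hb))
  have hd : ContDiff ℝ ∞ fun p : ℝ × ℝ => 8 * sE e * T * xx T p.1 ^ 3 :=
    contDiff_const.mul (hx.pow 3)
  exact hn.contDiffOn.div hd.contDiffOn (s := {p : ℝ × ℝ | 0 < p.1}) fun p hp => by
    have h1 := xx_pos hT (show 0 < p.1 from hp)
    have h2 := sE_pos he
    positivity

/-! ### The kernel -/

theorem KN_eq (hT : 0 < T) (he : 0 < e) (hr : 0 < r) (ha : 0 ≤ a) (hb : 0 ≤ b)
    (hB : 0 ≤ bq e (rh r)) :
    KN 1 3 (phi T e) (phir T e) (phia T e) (lam4 T e) (3 / T) r a b * Real.sinh r ^ 3 =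
      xx T r * T / sE e * Kh e (rh r) (xx T r ^ 2) (a / xx T r) (b / xx T r)
        (√((1 - a ^ 2) * (1 - b ^ 2))) := by
  have hx := xx_pos hT hr
  have hp := rh_pos r
  have hs := sE_pos he
  have hS : (1 - b ^ 2) * (1 - a ^ 2) = (1 - a ^ 2) * (1 - b ^ 2) := by ring
  have abs1 : ∀ c : ℝ, 0 ≤ c → |phia T e r c| = 2 * c * (rh r ^ 4 * bq e (rh r)) /
      (8 * sE e * T * xx T r ^ 3) := by
    intro c hc
    rw [phia, neg_div, abs_neg, abs_of_nonneg (by positivity)]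
  unfold KN NN kapN
  rw [hS, sn_one, cs_one, sinh_eq hT, cosh_eq hT, abs1 a ha, abs1 b hb, abs_of_nonneg ha,
    abs_of_nonneg hb]
  unfold phi phir lam4 Kh Rq
  generalize √((1 - a ^ 2) * (1 - b ^ 2)) = S
  clear abs1
  generalize wq e (rh r) = w at *
  generalize bq e (rh r) = b' at *
  generalize cq e (rh r) = c at *
  generalize vq e (rh r) = v at *
  generalize rh r = p at *
  generalize xx T r = x at *
  generalize sE e = s at *
  generalize (14 + 75 * e + 39 * e ^ 2) = m at *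
  push_cast
  field_simp
  ring

end Vale.Agent.P219.D4
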