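import Vale.Agent.P219.D4.Ident
import Vale.Agent.P219.TPH.BalFour

/-! # The certificate in dimension 4: the profile `f` -/

open Set MeasureTheory
open scoped Real

namespace Vale.Agent.P219.D4

open Vale.Agent.P219.C5

variable {r e T x y a b : ℝ}

/-! ### Values -/

theorem v_r (r e : ℝ) : e2 r e pr = r := by simp [e2, pr, evz]
theorem v_e (r e : ℝ) : e2 r e pe = e := by simp [e2, pe, evz]
theorem v_1 (r e : ℝ) : e2 r e p1 = 1 := by simp [e2, p1, evz]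
theorem v_L1 (r e : ℝ) : e2 r e pL1 = r + e := by simp [e2, pL1, evz]; ring
theorem v_L2 (r e : ℝ) : e2 r e pL2 = 3 * r + 2 * e := by simp [e2, pL2, evz]; ring
theorem v_L0 (r e : ℝ) : e2 r e pL0 = 1 + r := by simp [e2, pL0, evz]
theorem v_v (r e : ℝ) : e2 r e pv = 1 - r := by simp [e2, pv, evz]; ring
theorem v_Y (r e : ℝ) : e2 r e pY = 1 - r ^ 2 := by simp [e2, pY, evz]; ring
theorem v_T (r e : ℝ) : e2 r e pT = 1 - e ^ 2 := by simp [e2, pT, evz]; ring
theorem v_C (r e : ℝ) : e2 r e pC = 2 - r ^ 2 := by simp [e2, pC, evz]; ring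
theorem v_G (r e : ℝ) : e2 r e pG = r ^ 2 - e ^ 2 := by simp [e2, pG, evz]; ring
theorem v_s (r e : ℝ) : e2 r e ps = 15 * (25 + 53 * e + 50 * e ^ 2) := by
  simp [e2, ps, evz]; ring
theorem v_m3 (r e : ℝ) : e2 r e pm3 = e ^ 3 * (14 + 75 * e + 39 * e ^ 2) := by
  simp [e2, pm3, evz]; ring

theorem v_pow (r e : ℝ) (p : P2) (n : ℕ) : e2 r e (ppow p n) = e2 r e p ^ n := by
  induction n with
  | zero => simp [e2, ppow, evz]
  | succ n ih => rw [pow_succ, ← ih]; exact e2_mul r e _ _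

theorem v_opD (r e : ℝ) (P : P2) (i j k l : ℤ) : e2 r e (opD P i j k l) =
    r * (r + e) * (3 * r + 2 * e) * (1 + r) * e2 r e (dx P) -
      e2 r e P * (i * ((r + e) * (3 * r + 2 * e) * (1 + r)) +
        j * (r * (3 * r + 2 * e) * (1 + r)) + 3 * k * (r * (r + e) * (1 + r)) +
        l * (r * (r + e) * (3 * r + 2 * e))) := by
  simp only [opD, e2_add, e2_mul, e2_smul, v_r, v_L1, v_L2, v_L0]
  push_cast
  ring

/-! ### Fractions -/

/-- `P/(ρ^i L1^j L2^k (1+ρ)^l)`. -/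
noncomputable def fq (e : ℝ) (P : P2) (i j k l : ℕ) (r : ℝ) : ℝ :=
  e2 r e P / (r ^ i * (r + e) ^ j * (3 * r + 2 * e) ^ k * (1 + r) ^ l)

theorem hasDerivAt_lin (c d : ℝ) (n : ℕ) (h : c * r + d ≠ 0) :
    HasDerivAt (fun r : ℝ => (c * r + d) ^ n) (n * c * (c * r + d) ^ n / (c * r + d)) r := by
  have h1 := (((hasDerivAt_id r).const_mul c).add_const d).pow n
  refine h1.congr_deriv ?_
  simp only [id, mul_one]
  cases n with
  | zero => simp
  | succ n => rw [Nat.add_sub_cancel, pow_succ (c * r + d) n]; field_simp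

theorem hasDerivAt_fq (P : P2) (i j k l : ℕ) (h0 : r ≠ 0) (h1 : r + e ≠ 0)
    (h2 : 3 * r + 2 * e ≠ 0) (h3 : 1 + r ≠ 0) :
    HasDerivAt (fq e P i j k l) (fq e (opD P i j k l) (i + 1) (j + 1) (k + 1) (l + 1) r) r := by
  have d0 : HasDerivAt (fun r : ℝ => r ^ i) (i * r ^ i / r) r := by
    have := hasDerivAt_lin (r := r) 1 0 i (by simpa using h0)
    simpa using this
  have d1 : HasDerivAt (fun r : ℝ => (r + e) ^ j) (j * (r + e) ^ j / (r + e)) r := by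
    have := hasDerivAt_lin (r := r) 1 e j (by simpa using h1)
    simpa using this
  have d2 : HasDerivAt (fun r : ℝ => (3 * r + 2 * e) ^ k)
      (k * 3 * (3 * r + 2 * e) ^ k / (3 * r + 2 * e)) r := hasDerivAt_lin 3 (2 * e) k h2
  have d3 : HasDerivAt (fun r : ℝ => (1 + r) ^ l) (l * (1 + r) ^ l / (1 + r)) r := by
    have := hasDerivAt_lin (r := r) 1 1 l (by simpa [add_comm] using h3)
    simpa [add_comm] using this
  have hd := (hasDerivAt_e2 r e P).fun_div (((d0.mul d1).mul d2).mul d3)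
    (mul_ne_zero (mul_ne_zero (mul_ne_zero (pow_ne_zero _ h0) (pow_ne_zero _ h1))
      (pow_ne_zero _ h2)) (pow_ne_zero _ h3))
  refine hd.congr_deriv ?_
  clear hd d0 d1 d2 d3
  rw [fq, v_opD, pow_succ r i, pow_succ (r + e) j, pow_succ (3 * r + 2 * e) k,
    pow_succ (1 + r) l]
  have p0 : r ^ i ≠ 0 := pow_ne_zero _ h0
  have p1 : (r + e) ^ j ≠ 0 := pow_ne_zero _ h1
  have p2 : (3 * r + 2 * e) ^ k ≠ 0 := pow_ne_zero _ h2
  have p3 : (1 + r) ^ l ≠ 0 := pow_ne_zero _ h3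
  simp only [Pi.mul_apply]
  generalize r ^ i = Q0 at *
  generalize (r + e) ^ j = Q1 at *
  generalize (3 * r + 2 * e) ^ k = Q2 at *
  generalize (1 + r) ^ l = Q3 at *
  generalize e2 r e P = P0
  generalize e2 r e (dx P) = P1
  generalize (r + e) = R1 at *
  generalize (3 * r + 2 * e) = R2 at *
  generalize (1 + r) = R3 at *
  push_cast
  field_simp

/-! ### The profile -/

/-- `ρ(y)`. -/
noncomputable def ro (T y : ℝ) : ℝ := √(1 - T ^ 2 * y ^ 2)

/-- `s`. -/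
noncomputable def sE (e : ℝ) : ℝ := 15 * (25 + 53 * e + 50 * e ^ 2)

/-- `γ`. -/
noncomputable def gam (e r : ℝ) : ℝ := fq e gN 4 1 4 1 r / 6

/-- `φ`. -/
noncomputable def fph (e r : ℝ) : ℝ := fq e fN 6 2 5 1 r / 6

/-- `2 artanh (T y)`. -/
noncomputable def L4 (T y : ℝ) : ℝ := Real.log ((1 + T * y) / (1 - T * y))

/-- The kernel on the ball. -/
noncomputable def G4 (T e y : ℝ) : ℝ := T * y * gam e (ro T y) / sE e

/-- The profile. -/
noncomputable def f4 (T e y : ℝ) : ℝ := L4 T y - G4 T e y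

/-- Its derivative. -/
noncomputable def f4' (T e y : ℝ) : ℝ := T * fph e (ro T y) / sE e

theorem sE_pos (he : 0 < e) : 0 < sE e := by unfold sE; positivity

theorem ro_sq (h : T ^ 2 * y ^ 2 < 1) : ro T y ^ 2 = 1 - T ^ 2 * y ^ 2 :=
  Real.sq_sqrt (by linarith)

theorem ro_pos (h : T ^ 2 * y ^ 2 < 1) : 0 < ro T y := Real.sqrt_pos.2 (by linarith)

theorem ro_le_one (T y : ℝ) : ro T y ≤ 1 := by
  rw [ro, Real.sqrt_le_iff]
  exact ⟨zero_le_one, by nlinarith [mul_nonneg (sq_nonneg T) (sq_nonneg y)]⟩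

theorem hasDerivAt_ro (h : T ^ 2 * y ^ 2 < 1) : HasDerivAt (ro T) (-(T ^ 2 * y) / ro T y) y := by
  have h1 : HasDerivAt (fun y : ℝ => 1 - T ^ 2 * y ^ 2) (-(T ^ 2 * (2 * y))) y := by
    have h2 := (((hasDerivAt_id y).pow 2).const_mul (T ^ 2)).const_sub 1
    refine h2.congr_deriv ?_
    simp
  have h3 := h1.sqrt (by linarith)
  refine h3.congr_deriv ?_
  have := ro_pos h
  have e1 : √(1 - T ^ 2 * y ^ 2) = ro T y := rfl
  rw [e1]
  field_simp

theorem hasDerivAt_L4 (hu : 0 < 1 - T * y) (hv : 0 < 1 + T * y) :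
    HasDerivAt (L4 T) (2 * T / (1 - T ^ 2 * y ^ 2)) y := by
  have h1 : HasDerivAt (fun y : ℝ => 1 + T * y) T y := by
    simpa using ((hasDerivAt_id y).const_mul T).const_add 1
  have h2 : HasDerivAt (fun y : ℝ => 1 - T * y) (-T) y := by
    simpa using ((hasDerivAt_id y).const_mul T).const_sub 1
  have h3 := (h1.fun_div h2 hu.ne').log (div_pos hv hu).ne'
  refine h3.congr_deriv ?_
  have : (1 - T ^ 2 * y ^ 2) = (1 - T * y) * (1 + T * y) := by ring
  rw [this]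
  field_simp
  ring

theorem fph_eq (hr : 0 < r) (he : 0 < e) :
    fph e r = 2 * sE e / r ^ 2 - gam e r +
      (1 - r ^ 2) / r * (fq e (opD gN 4 1 4 1) (4 + 1) (1 + 1) (4 + 1) (1 + 1) r / 6) := by
  have h := e2_eqv fN_eq r e
  simp only [e2_add, e2_mul, e2_smul, v_pow, v_r, v_L1, v_L2, v_L0, v_Y, v_s] at h
  unfold fph gam fq sE
  have h1 : 0 < r + e := by positivity
  have h2 : 0 < 3 * r + 2 * e := by positivity
  have h3 : 0 < 1 + r := by positivity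
  generalize e2 r e (opD gN 4 1 4 1) = P1 at *
  generalize e2 r e fN = P2 at *
  generalize e2 r e gN = P3 at *
  have h4 : P2 = (1 / (1 + r)) * ((1 + r) * P2) := by field_simp
  rw [h4, h]
  push_cast
  clear h h4
  generalize (3 * r + 2 * e) = R2 at *
  generalize hR1 : (r + e) = R1 at *
  field_simp
  ring

theorem hasDerivAt_gam (hr : 0 < r) (he : 0 < e) :
    HasDerivAt (gam e) (fq e (opD gN 4 1 4 1) (4 + 1) (1 + 1) (4 + 1) (1 + 1) r / 6) r :=
  (hasDerivAt_fq gN 4 1 4 1 hr.ne' (by positivity) (by positivity) (by positivity)).div_const 6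

/-- (P1). -/
theorem hasDerivAt_f4 (he : 0 < e) (hu : 0 < 1 - T * y) (hv : 0 < 1 + T * y) :
    HasDerivAt (f4 T e) (f4' T e y) y := by
  have hq : T ^ 2 * y ^ 2 < 1 := by nlinarith [mul_pos hu hv]
  have hr := ro_pos hq
  have h2 := ro_sq hq
  have hs := sE_pos he
  have d1 := (hasDerivAt_gam hr he).comp y (hasDerivAt_ro hq)
  have d2 : HasDerivAt (fun y : ℝ => T * y) T y := by simpa using (hasDerivAt_id y).const_mul T
  have d3 := (hasDerivAt_L4 hu hv).sub ((d2.mul d1).div_const (sE e))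
  refine d3.congr_deriv ?_
  rw [f4', fph_eq hr he, Function.comp_apply]
  clear d1 d2 d3
  generalize fq e (opD gN 4 1 4 1) (4 + 1) (1 + 1) (4 + 1) (1 + 1) (ro T y) = P1 at *
  generalize gam e (ro T y) = P2 at *
  have h3 : 1 - ro T y ^ 2 = T ^ 2 * y ^ 2 := by linarith
  rw [h3, ← h2]
  generalize ro T y = z at *
  field_simp
  ring

theorem f4_zero (T e : ℝ) : f4 T e 0 = 0 := by simp [f4, L4, G4]

/-! ### General lemmas -/

/-- Tangent inequality from a monotone derivative. -/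
theorem tan_of_mono {f f' : ℝ → ℝ} {S : Set ℝ} (hS : S.OrdConnected)
    (hd : ∀ y ∈ S, HasDerivAt f (f' y) y) (hm : MonotoneOn f' S) (ha : a ∈ S) (hx : x ∈ S) :
    f x + f' x * (a - x) ≤ f a := by
  rcases lt_trichotomy a x with h | h | h
  · have hsub : Icc a x ⊆ S := hS.out ha hx
    obtain ⟨c, hc, h1⟩ := exists_hasDerivAt_eq_slope f f' h
      (fun y hy => (hd y (hsub hy)).continuousAt.continuousWithinAt)
      (fun y hy => hd y (hsub (Ioo_subset_Icc_self hy)))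
    have h2 := hm (hsub (Ioo_subset_Icc_self hc)) hx hc.2.le
    have h3 : 0 < x - a := by linarith
    rw [h1, div_le_iff₀ h3] at h2
    linarith
  · rw [h]; simp
  · have hsub : Icc x a ⊆ S := hS.out hx ha
    obtain ⟨c, hc, h1⟩ := exists_hasDerivAt_eq_slope f f' h
      (fun y hy => (hd y (hsub hy)).continuousAt.continuousWithinAt)
      (fun y hy => hd y (hsub (Ioo_subset_Icc_self hy)))
    have h2 := hm hx (hsub (Ioo_subset_Icc_self hc)) hc.1.le
    have h3 : 0 < a - x := by linarith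
    rw [h1, le_div_iff₀ h3] at h2
    linarith

/-- Strict version. -/
theorem tan_of_mono_lt {f f' : ℝ → ℝ} {S : Set ℝ} (hS : S.OrdConnected)
    (hd : ∀ y ∈ S, HasDerivAt f (f' y) y) (hm : StrictMonoOn f' S) (ha : a ∈ S) (hx : x ∈ S)
    (hne : a ≠ x) : f x + f' x * (a - x) < f a := by
  rcases lt_or_gt_of_ne hne with h | h
  · have hsub : Icc a x ⊆ S := hS.out ha hx
    obtain ⟨c, hc, h1⟩ := exists_hasDerivAt_eq_slope f f' h
      (fun y hy => (hd y (hsub hy)).continuousAt.continuousWithinAt)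
      (fun y hy => hd y (hsub (Ioo_subset_Icc_self hy)))
    have h2 := hm (hsub (Ioo_subset_Icc_self hc)) hx hc.2
    have h3 : 0 < x - a := by linarith
    rw [h1, div_lt_iff₀ h3] at h2
    linarith
  · have hsub : Icc x a ⊆ S := hS.out hx ha
    obtain ⟨c, hc, h1⟩ := exists_hasDerivAt_eq_slope f f' h
      (fun y hy => (hd y (hsub hy)).continuousAt.continuousWithinAt)
      (fun y hy => hd y (hsub (Ioo_subset_Icc_self hy)))
    have h2 := hm hx (hsub (Ioo_subset_Icc_self hc)) hc.1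
    have h3 : 0 < a - x := by linarith
    rw [h1, lt_div_iff₀ h3] at h2
    linarith

/-- The gap of the tangent inequality, left of `x`. -/
theorem gap_left {f f' : ℝ → ℝ} (hd : ∀ y ∈ Icc a x, HasDerivAt f (f' y) y)
    (ha0 : 0 ≤ a) (hax : a ≤ x) (hx : T ^ 2 * x ^ 2 < 1) (h0 : 0 ≤ f' x)
    (hm : ∀ y ∈ Icc a x, f' y * (1 - T ^ 2 * y ^ 2) ≤ f' x * (1 - T ^ 2 * x ^ 2)) :
    f' x * T ^ 2 * ((x - a) ^ 2 * (2 * x + a)) / (3 * (1 - T ^ 2 * a ^ 2)) ≤
      f a - f x - f' x * (a - x) := by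
  rcases hax.eq_or_lt with h | h
  · rw [h]; simp
  have hT2 : ∀ y, 0 ≤ y → y ≤ x → T ^ 2 * y ^ 2 ≤ T ^ 2 * x ^ 2 := fun y h1 h2 =>
    mul_le_mul_of_nonneg_left (pow_le_pow_left₀ h1 h2 2) (sq_nonneg T)
  have hqa : 0 < 1 - T ^ 2 * a ^ 2 := by linarith [hT2 a ha0 hax]
  have hD : ∀ y ∈ Icc a x, HasDerivAt
      (fun y => f y - f' x * y + f' x * T ^ 2 / (1 - T ^ 2 * a ^ 2) * (x ^ 2 * y - y ^ 3 / 3))
      (f' y - f' x + f' x * T ^ 2 / (1 - T ^ 2 * a ^ 2) * (x ^ 2 - y ^ 2)) y := by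
    intro y hy
    have d1 : HasDerivAt (fun y : ℝ => x ^ 2 * y - y ^ 3 / 3) (x ^ 2 - y ^ 2) y := by
      have := (((hasDerivAt_id y).const_mul (x ^ 2)).sub (((hasDerivAt_id y).pow 3).div_const 3))
      refine this.congr_deriv ?_
      simp
    refine (((hd y hy).sub ((hasDerivAt_id y).const_mul (f' x))).add
      (d1.const_mul (f' x * T ^ 2 / (1 - T ^ 2 * a ^ 2)))).congr_deriv ?_
    simp
  obtain ⟨c, hc, h1⟩ := exists_hasDerivAt_eq_slope _ _ h
      (fun y hy => (hD y hy).continuousAt.continuousWithinAt)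
      (fun y hy => hD y (Ioo_subset_Icc_self hy))
  have hc' := Ioo_subset_Icc_self hc
  have hc0 : 0 ≤ c := ha0.trans hc'.1
  have hqc : 0 < 1 - T ^ 2 * c ^ 2 := by linarith [hT2 c hc0 hc'.2]
  have h2 := hm c hc'
  have h3 : f' c ≤ f' x * (1 - T ^ 2 * x ^ 2) / (1 - T ^ 2 * c ^ 2) := by
    rw [le_div_iff₀ hqc]; exact h2
  have h4 : f' x * (1 - T ^ 2 * x ^ 2) / (1 - T ^ 2 * c ^ 2) - f' x =
      -(f' x * T ^ 2 * (x ^ 2 - c ^ 2) / (1 - T ^ 2 * c ^ 2)) := by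
    field_simp
    ring
  have h5 : f' x * T ^ 2 / (1 - T ^ 2 * a ^ 2) * (x ^ 2 - c ^ 2) ≤
      f' x * T ^ 2 * (x ^ 2 - c ^ 2) / (1 - T ^ 2 * c ^ 2) := by
    have e1 : 0 ≤ x ^ 2 - c ^ 2 := sub_nonneg.2 (pow_le_pow_left₀ hc0 hc'.2 2)
    have e2 : 1 - T ^ 2 * c ^ 2 ≤ 1 - T ^ 2 * a ^ 2 := by
      have := mul_le_mul_of_nonneg_left (pow_le_pow_left₀ ha0 hc'.1 2) (sq_nonneg T)
      linarith
    rw [div_mul_eq_mul_div]
    exact div_le_div_of_nonneg_left (mul_nonneg (mul_nonneg h0 (sq_nonneg T)) e1) hqc e2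
  have h6 : f' c - f' x + f' x * T ^ 2 / (1 - T ^ 2 * a ^ 2) * (x ^ 2 - c ^ 2) ≤ 0 := by linarith
  have h7 : 0 < x - a := by linarith
  rw [h1, div_le_iff₀ h7, zero_mul] at h6
  have h8 : f' x * T ^ 2 * ((x - a) ^ 2 * (2 * x + a)) / (3 * (1 - T ^ 2 * a ^ 2)) =
      f' x * T ^ 2 / (1 - T ^ 2 * a ^ 2) * (x ^ 2 * x - x ^ 3 / 3) -
      f' x * T ^ 2 / (1 - T ^ 2 * a ^ 2) * (x ^ 2 * a - a ^ 3 / 3) := by
    field_simp
    ring
  rw [h8]
  linarith

/-- The gap of the tangent inequality, right of `x`. -/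
theorem gap_right {f f' : ℝ → ℝ} (hd : ∀ y ∈ Icc x b, HasDerivAt f (f' y) y)
    (hx0 : 0 ≤ x) (hxb : x ≤ b) (hb : T ^ 2 * b ^ 2 < 1) (h0 : 0 ≤ f' x)
    (hm : ∀ y ∈ Icc x b, f' x * (1 - T ^ 2 * x ^ 2) ≤ f' y * (1 - T ^ 2 * y ^ 2)) :
    f' x * T ^ 2 * ((b - x) ^ 2 * (2 * x + b)) / (3 * (1 - T ^ 2 * x ^ 2)) ≤
      f b - f x - f' x * (b - x) := by
  rcases hxb.eq_or_lt with h | h
  · rw [h]; simp
  have hT2 : ∀ y, 0 ≤ y → y ≤ b → T ^ 2 * y ^ 2 ≤ T ^ 2 * b ^ 2 := fun y h1 h2 =>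
    mul_le_mul_of_nonneg_left (pow_le_pow_left₀ h1 h2 2) (sq_nonneg T)
  have hqx : 0 < 1 - T ^ 2 * x ^ 2 := by linarith [hT2 x hx0 hxb]
  have hD : ∀ y ∈ Icc x b, HasDerivAt
      (fun y => f y - f' x * y - f' x * T ^ 2 / (1 - T ^ 2 * x ^ 2) * (y ^ 3 / 3 - x ^ 2 * y))
      (f' y - f' x - f' x * T ^ 2 / (1 - T ^ 2 * x ^ 2) * (y ^ 2 - x ^ 2)) y := by
    intro y hy
    have d1 : HasDerivAt (fun y : ℝ => y ^ 3 / 3 - x ^ 2 * y) (y ^ 2 - x ^ 2) y := by
      have := ((((hasDerivAt_id y).pow 3).div_const 3).sub ((hasDerivAt_id y).const_mul (x ^ 2)))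
      refine this.congr_deriv ?_
      simp
    refine (((hd y hy).sub ((hasDerivAt_id y).const_mul (f' x))).sub
      (d1.const_mul (f' x * T ^ 2 / (1 - T ^ 2 * x ^ 2)))).congr_deriv ?_
    simp
  obtain ⟨c, hc, h1⟩ := exists_hasDerivAt_eq_slope _ _ h
      (fun y hy => (hD y hy).continuousAt.continuousWithinAt)
      (fun y hy => hD y (Ioo_subset_Icc_self hy))
  have hc' := Ioo_subset_Icc_self hc
  have hc0 : 0 ≤ c := hx0.trans hc'.1
  have hqc : 0 < 1 - T ^ 2 * c ^ 2 := by linarith [hT2 c hc0 hc'.2]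
  have h2 := hm c hc'
  have h3 : f' x * (1 - T ^ 2 * x ^ 2) / (1 - T ^ 2 * c ^ 2) ≤ f' c := by
    rw [div_le_iff₀ hqc]; exact h2
  have h4 : f' x * (1 - T ^ 2 * x ^ 2) / (1 - T ^ 2 * c ^ 2) - f' x =
      f' x * T ^ 2 * (c ^ 2 - x ^ 2) / (1 - T ^ 2 * c ^ 2) := by
    field_simp
    ring
  have h5 : f' x * T ^ 2 / (1 - T ^ 2 * x ^ 2) * (c ^ 2 - x ^ 2) ≤
      f' x * T ^ 2 * (c ^ 2 - x ^ 2) / (1 - T ^ 2 * c ^ 2) := by
    have e1 : 0 ≤ c ^ 2 - x ^ 2 := sub_nonneg.2 (pow_le_pow_left₀ hx0 hc'.1 2)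
    have e2 : 1 - T ^ 2 * c ^ 2 ≤ 1 - T ^ 2 * x ^ 2 := by
      have := mul_le_mul_of_nonneg_left (pow_le_pow_left₀ hx0 hc'.1 2) (sq_nonneg T)
      linarith
    rw [div_mul_eq_mul_div]
    exact div_le_div_of_nonneg_left (mul_nonneg (mul_nonneg h0 (sq_nonneg T)) e1) hqc e2
  have h6 : 0 ≤ f' c - f' x - f' x * T ^ 2 / (1 - T ^ 2 * x ^ 2) * (c ^ 2 - x ^ 2) := by linarith
  have h7 : 0 < b - x := by linarith
  rw [h1, le_div_iff₀ h7, zero_mul] at h6
  have h8 : f' x * T ^ 2 * ((b - x) ^ 2 * (2 * x + b)) / (3 * (1 - T ^ 2 * x ^ 2)) =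
      f' x * T ^ 2 / (1 - T ^ 2 * x ^ 2) * (b ^ 3 / 3 - x ^ 2 * b) -
      f' x * T ^ 2 / (1 - T ^ 2 * x ^ 2) * (x ^ 3 / 3 - x ^ 2 * x) := by
    field_simp
    ring
  rw [h8]
  linarith

/-! ### Monotonicity from the polynomial inequalities -/

theorem fq_anti {P : P2} {i j k l : ℕ} {r0 r1 : ℝ} (he : 0 < e) (hr0 : 0 < r0)
    (h : ∀ r ∈ Icc r0 r1, e2 r e (opD P i j k l) ≤ 0) : AntitoneOn (fq e P i j k l) (Icc r0 r1) := by
  have hd : ∀ r ∈ Icc r0 r1, HasDerivAt (fq e P i j k l)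
      (fq e (opD P i j k l) (i + 1) (j + 1) (k + 1) (l + 1) r) r := by
    intro r hr
    have : 0 < r := hr0.trans_le hr.1
    exact hasDerivAt_fq P i j k l (by positivity) (by positivity) (by positivity) (by positivity)
  refine antitoneOn_of_deriv_nonpos (convex_Icc _ _)
    (fun r hr => (hd r hr).continuousAt.continuousWithinAt)
    (fun r hr => (hd r (interior_subset hr)).differentiableAt.differentiableWithinAt) ?_
  intro r hr
  have hr' := interior_subset hr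
  have : 0 < r := hr0.trans_le hr'.1
  rw [(hd r hr').deriv]
  exact div_nonpos_of_nonpos_of_nonneg (h r hr') (by positivity)

theorem fq_strictAnti {P : P2} {i j k l : ℕ} {r0 r1 : ℝ} (he : 0 < e) (hr0 : 0 < r0)
    (h : ∀ r ∈ Ioo r0 r1, e2 r e (opD P i j k l) < 0) :
    StrictAntiOn (fq e P i j k l) (Icc r0 r1) := by
  have hd : ∀ r ∈ Icc r0 r1, HasDerivAt (fq e P i j k l)
      (fq e (opD P i j k l) (i + 1) (j + 1) (k + 1) (l + 1) r) r := by
    intro r hr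
    have : 0 < r := hr0.trans_le hr.1
    exact hasDerivAt_fq P i j k l (by positivity) (by positivity) (by positivity) (by positivity)
  refine strictAntiOn_of_deriv_neg (convex_Icc _ _)
    (fun r hr => (hd r hr).continuousAt.continuousWithinAt) ?_
  intro r hr
  rw [interior_Icc] at hr
  have hr' := Ioo_subset_Icc_self hr
  have : 0 < r := hr0.trans_le hr'.1
  rw [(hd r hr').deriv]
  exact div_neg_of_neg_of_pos (h r hr) (by positivity)

theorem ro_anti (hy : 0 ≤ y) (hyx : y ≤ x) : ro T x ≤ ro T y := by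
  refine Real.sqrt_le_sqrt ?_
  have := mul_le_mul_of_nonneg_left (pow_le_pow_left₀ hy hyx 2) (sq_nonneg T)
  linarith

theorem ro_strictAnti (hT : 0 < T) (hy : 0 ≤ y) (hyx : y < x) (hx : T ^ 2 * x ^ 2 < 1) :
    ro T x < ro T y := by
  refine Real.sqrt_lt_sqrt (by linarith) ?_
  have := mul_lt_mul_of_pos_left (pow_lt_pow_left₀ hyx hy two_ne_zero) (pow_pos hT 2)
  linarith

theorem ro_ge (heT : e ^ 2 = 1 - T ^ 2) (he : 0 < e) (hy : 0 ≤ y) (hy1 : y ≤ 1) : e ≤ ro T y := by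
  have h1 := ro_anti (T := T) hy hy1
  have h2 : ro T 1 = e := by
    rw [ro, one_pow, mul_one, ← heT, Real.sqrt_sq he.le]
  rwa [h2] at h1

theorem lt_one_of_mul (hT : 0 < T) (hy : 0 ≤ y) (h : T * y < 1) :
    T ^ 2 * y ^ 2 < 1 ∧ 0 < 1 - T * y ∧ 0 < 1 + T * y := by
  have h1 : 0 ≤ T * y := mul_nonneg hT.le hy
  refine ⟨?_, by linarith, by linarith⟩
  rw [← mul_pow]
  exact pow_lt_one₀ h1 h two_ne_zero

/-- (P2). -/
theorem f4_tangent (hT : 0 < T) (he : 0 < e)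
    (hm : ∀ r, e / 3 ≤ r → r ≤ 1 → e2 r e (opD fN 6 2 5 1) ≤ 0)
    (ha : 0 ≤ a) (ha1 : T * a < 1) (hra : e / 3 ≤ ro T a)
    (hx : 0 ≤ x) (hx1 : T * x < 1) (hrx : e / 3 ≤ ro T x) :
    f4 T e x + f4' T e x * (a - x) ≤ f4 T e a := by
  have hz1 : T * max a x < 1 := by
    rcases le_total a x with h | h
    · rwa [max_eq_right h]
    · rwa [max_eq_left h]
  have hrz : e / 3 ≤ ro T (max a x) := by
    rcases le_total a x with h | h
    · rwa [max_eq_right h]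
    · rwa [max_eq_left h]
  have hT1 : ∀ y ∈ Icc 0 (max a x), T * y < 1 := fun y hy =>
    (mul_le_mul_of_nonneg_left hy.2 hT.le).trans_lt hz1
  have hr1 : ∀ y ∈ Icc 0 (max a x), ro T y ∈ Icc (e / 3) 1 := fun y hy =>
    ⟨hrz.trans (ro_anti hy.1 hy.2), ro_le_one T y⟩
  have hs := sE_pos he
  refine tan_of_mono (S := Icc 0 (max a x)) ordConnected_Icc (fun y hy => ?_) ?_
    ⟨ha, le_max_left _ _⟩ ⟨hx, le_max_right _ _⟩
  · obtain ⟨h1, h2, h3⟩ := lt_one_of_mul hT hy.1 (hT1 y hy)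
    exact hasDerivAt_f4 he h2 h3
  · intro y hy z hz hyz
    have h1 := fq_anti (P := fN) (i := 6) (j := 2) (k := 5) (l := 1) (r0 := e / 3) (r1 := 1) he
      (by positivity) (fun r hr => hm r hr.1 hr.2)
    have h2 := h1 (hr1 z hz) (hr1 y hy) (ro_anti hy.1 hyz)
    unfold f4' fph
    have h3 := mul_le_mul_of_nonneg_left (div_le_div_of_nonneg_right h2 (by norm_num : (0 : ℝ) ≤ 6))
      hT.le
    exact div_le_div_of_nonneg_right h3 hs.le

/-- (P2), strict. -/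
theorem f4_tangent_lt (hT : 0 < T) (he : 0 < e)
    (hm : ∀ r, e / 3 < r → r < 1 → e2 r e (opD fN 6 2 5 1) < 0)
    (ha : 0 ≤ a) (ha1 : T * a < 1) (hra : e / 3 ≤ ro T a)
    (hx : 0 ≤ x) (hx1 : T * x < 1) (hrx : e / 3 ≤ ro T x) (hne : a ≠ x) :
    f4 T e x + f4' T e x * (a - x) < f4 T e a := by
  have hz1 : T * max a x < 1 := by
    rcases le_total a x with h | h
    · rwa [max_eq_right h]
    · rwa [max_eq_left h]
  have hrz : e / 3 ≤ ro T (max a x) := by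
    rcases le_total a x with h | h
    · rwa [max_eq_right h]
    · rwa [max_eq_left h]
  have hT1 : ∀ y ∈ Icc 0 (max a x), T * y < 1 := fun y hy =>
    (mul_le_mul_of_nonneg_left hy.2 hT.le).trans_lt hz1
  have hr1 : ∀ y ∈ Icc 0 (max a x), ro T y ∈ Icc (e / 3) 1 := fun y hy =>
    ⟨hrz.trans (ro_anti hy.1 hy.2), ro_le_one T y⟩
  have hs := sE_pos he
  refine tan_of_mono_lt (S := Icc 0 (max a x)) ordConnected_Icc (fun y hy => ?_) ?_
    ⟨ha, le_max_left _ _⟩ ⟨hx, le_max_right _ _⟩ hne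
  · obtain ⟨h1, h2, h3⟩ := lt_one_of_mul hT hy.1 (hT1 y hy)
    exact hasDerivAt_f4 he h2 h3
  · intro y hy z hz hyz
    have h1 := fq_strictAnti (P := fN) (i := 6) (j := 2) (k := 5) (l := 1) (r0 := e / 3) (r1 := 1)
      he (by positivity) (fun r hr => hm r hr.1 hr.2)
    have h2 := h1 (hr1 z hz) (hr1 y hy)
      (ro_strictAnti hT hy.1 hyz (lt_one_of_mul hT hz.1 (hT1 z hz)).1)
    unfold f4' fph
    have h3 := mul_lt_mul_of_pos_left (div_lt_div_of_pos_right h2 (by norm_num : (0 : ℝ) < 6)) hT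
    exact div_lt_div_of_pos_right h3 hs

theorem fph_nonneg (he : 0 < e) (h0 : 0 ≤ e2 r e fN) (hr : 0 < r) : 0 ≤ fph e r := by
  unfold fph fq
  positivity

theorem f4'_nonneg (hT : 0 < T) (he : 0 < e) (h0 : ∀ r, e ≤ r → r ≤ 1 → 0 ≤ e2 r e fN)
    (heT : e ^ 2 = 1 - T ^ 2) (hy : 0 ≤ y) (hy1 : y ≤ 1) : 0 ≤ f4' T e y := by
  have h1 := ro_ge heT he hy hy1
  have h2 := fph_nonneg he (h0 _ h1 (ro_le_one T y)) (he.trans_le h1)
  have := sE_pos he
  unfold f4'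
  positivity

/-- `f'(y) (1 - T² y²)` is nondecreasing on `[0,1]`. -/
theorem f4'_mul_mono (hT : 0 < T) (he : 0 < e) (heT : e ^ 2 = 1 - T ^ 2)
    (h1 : ∀ r, e ≤ r → r ≤ 1 → e2 r e (opD fN 4 2 5 1) ≤ 0) (hy : 0 ≤ y) (hyx : y ≤ x)
    (hx1 : x ≤ 1) : f4' T e y * (1 - T ^ 2 * y ^ 2) ≤ f4' T e x * (1 - T ^ 2 * x ^ 2) := by
  have hT1 : T < 1 := by nlinarith
  have key : ∀ z, 0 ≤ z → z ≤ 1 → f4' T e z * (1 - T ^ 2 * z ^ 2) =
      T * (fq e fN 4 2 5 1 (ro T z) / 6) / sE e := by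
    intro z hz hz1
    have h3 : T * z < 1 := by nlinarith
    obtain ⟨h4, -, -⟩ := lt_one_of_mul hT hz h3
    rw [← ro_sq h4]
    have := ro_pos h4
    unfold f4' fph fq
    have hs := sE_pos he
    field_simp
  rw [key y hy (hyx.trans hx1), key x (hy.trans hyx) hx1]
  have h2 := fq_anti (P := fN) (i := 4) (j := 2) (k := 5) (l := 1) (r0 := e) (r1 := 1) he he
    (fun r hr => h1 r hr.1 hr.2)
  have h3 := h2 ⟨ro_ge heT he (hy.trans hyx) hx1, ro_le_one T x⟩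
    ⟨ro_ge heT he hy (hyx.trans hx1), ro_le_one T y⟩ (ro_anti hy hyx)
  exact div_le_div_of_nonneg_right (mul_le_mul_of_nonneg_left
    (div_le_div_of_nonneg_right h3 (by norm_num)) hT.le) (sE_pos he).le

/-- (P3), left. -/
theorem f4_gap_left (hT : 0 < T) (he : 0 < e) (heT : e ^ 2 = 1 - T ^ 2)
    (h0 : ∀ r, e ≤ r → r ≤ 1 → 0 ≤ e2 r e fN)
    (h1 : ∀ r, e ≤ r → r ≤ 1 → e2 r e (opD fN 4 2 5 1) ≤ 0)
    (ha : 0 ≤ a) (hax : a ≤ x) (hx1 : x ≤ 1) :
    f4' T e x * T ^ 2 * ((x - a) ^ 2 * (2 * x + a)) / (3 * (1 - T ^ 2 * a ^ 2)) ≤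
      f4 T e a - f4 T e x - f4' T e x * (a - x) := by
  have hT1 : T < 1 := by nlinarith
  have hx0 := ha.trans hax
  refine gap_left (fun y hy => ?_) ha hax ?_ (f4'_nonneg hT he h0 heT hx0 hx1) (fun y hy => ?_)
  · obtain ⟨h2, h3, h4⟩ := lt_one_of_mul hT (ha.trans hy.1) (by nlinarith [hy.2] : T * y < 1)
    exact hasDerivAt_f4 he h3 h4
  · exact (lt_one_of_mul hT hx0 (by nlinarith : T * x < 1)).1
  · exact f4'_mul_mono hT he heT h1 (ha.trans hy.1) hy.2 hx1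

/-- (P3), right. -/
theorem f4_gap_right (hT : 0 < T) (he : 0 < e) (heT : e ^ 2 = 1 - T ^ 2)
    (h0 : ∀ r, e ≤ r → r ≤ 1 → 0 ≤ e2 r e fN)
    (h1 : ∀ r, e ≤ r → r ≤ 1 → e2 r e (opD fN 4 2 5 1) ≤ 0)
    (hx : 0 ≤ x) (hxb : x ≤ b) (hb1 : b ≤ 1) :
    f4' T e x * T ^ 2 * ((b - x) ^ 2 * (2 * x + b)) / (3 * (1 - T ^ 2 * x ^ 2)) ≤
      f4 T e b - f4 T e x - f4' T e x * (b - x) := by
  have hT1 : T < 1 := by nlinarith
  refine gap_right (fun y hy => ?_) hx hxb ?_ (f4'_nonneg hT he h0 heT hx (hxb.trans hb1))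
    (fun y hy => ?_)
  · obtain ⟨h2, h3, h4⟩ := lt_one_of_mul hT (hx.trans hy.1) (by nlinarith [hy.2, hy.1] : T * y < 1)
    exact hasDerivAt_f4 he h3 h4
  · exact (lt_one_of_mul hT (hx.trans hxb) (by nlinarith : T * b < 1)).1
  · exact f4'_mul_mono hT he heT h1 hx hy.1 (hy.2.trans hb1)

theorem f4_nonneg (hT : 0 < T) (he : 0 < e) (heT : e ^ 2 = 1 - T ^ 2)
    (h0 : ∀ r, e ≤ r → r ≤ 1 → 0 ≤ e2 r e fN) (ha : 0 ≤ a) (ha1 : a ≤ 1) : 0 ≤ f4 T e a := by
  have hT1 : T < 1 := by nlinarith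
  have hd : ∀ y ∈ Icc (0 : ℝ) a, HasDerivAt (f4 T e) (f4' T e y) y := by
    intro y hy
    obtain ⟨h2, h3, h4⟩ := lt_one_of_mul hT hy.1 (by nlinarith [hy.2, hy.1] : T * y < 1)
    exact hasDerivAt_f4 he h3 h4
  rcases ha.eq_or_lt with h | h
  · rw [← h, f4_zero]
  obtain ⟨c, hc, h1⟩ := exists_hasDerivAt_eq_slope _ _ h
    (fun y hy => (hd y hy).continuousAt.continuousWithinAt)
    (fun y hy => hd y (Ioo_subset_Icc_self hy))
  have h2 := f4'_nonneg hT he h0 heT hc.1.le (hc.2.le.trans ha1)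
  rw [h1, le_div_iff₀ (by linarith), f4_zero] at h2
  linarith

/-! ### The integral of the kernel over the ball -/

/-- `γ = 10 m e³/ρ⁶ - 3 u + (ρ² - e²) (F - b/Y)`, with `Y F - b = u - (Y/ρ) u_ρ`. -/
theorem gN_eq : eqv (mul2 (mul2 pY (mul2 pr2 pL1)) gN)
    (add2 (smul2 60 (mul2 (mul2 pm3 pY) (mul2 (mul2 (ppow pL1 2) (ppow pL2 4)) pL0)))
    (add2 (smul2 (-3 : ℤ) (mul2 (mul2 (mul2 pY pr2) (mul2 pL pL0)) uN))
    (mul2 pG (add2 (mul2 (mul2 pr2 (mul2 pL pL0)) uN)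
      (smul2 (-1 : ℤ) (mul2 pY (opD uN 4 1 3 0))))))) = true := by decide +kernel

/-- `u`. -/
noncomputable def uq (e r : ℝ) : ℝ := fq e uN 4 1 3 0 r / 6

theorem gam_eq (hr : 0 < r) (he : 0 < e) :
    (1 - r ^ 2) * gam e r = 10 * (e ^ 3 * (14 + 75 * e + 39 * e ^ 2)) * (1 - r ^ 2) / r ^ 6 -
      3 * (1 - r ^ 2) * uq e r + (r ^ 2 - e ^ 2) *
      (uq e r - (1 - r ^ 2) / r *
        (fq e (opD uN 4 1 3 0) (4 + 1) (1 + 1) (3 + 1) (0 + 1) r / 6)) := by
  have h := e2_eqv gN_eq r e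
  simp only [e2_add, e2_mul, e2_smul, v_pow, v_r, v_L1, v_L2, v_L0, v_Y, v_m3, v_G, pr2, pL] at h
  unfold gam uq fq
  have h1 : 0 < r + e := by positivity
  have h2 : 0 < 3 * r + 2 * e := by positivity
  have h3 : 0 < 1 + r := by positivity
  generalize e2 r e (opD uN 4 1 3 0) = P1 at *
  generalize e2 r e uN = P2 at *
  generalize e2 r e gN = P3 at *
  push_cast at h
  generalize (3 * r + 2 * e) = R2 at *
  generalize (r + e) = R1 at *
  generalize (14 + 75 * e + 39 * e ^ 2) = m at *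
  have h4 : (1 - r ^ 2) * (P3 / (r ^ 4 * R1 ^ 1 * R2 ^ 4 * (1 + r) ^ 1) / 6) =
      ((1 - r ^ 2) * (r * r * R1) * P3) / (6 * r ^ 6 * R1 ^ 2 * R2 ^ 4 * (1 + r)) := by
    field_simp
  rw [h4, h]
  field_simp
  ring

/-- The integral of the kernel of the ball. -/
theorem int_G4 (hT : 0 < T) (he : 0 < e) (heT : e ^ 2 = 1 - T ^ 2) :
    ∫ t in (0 : ℝ)..1, G4 T e t * t * √(1 - t ^ 2) =
      5 * π * T * (14 + 75 * e + 39 * e ^ 2) / (8 * sE e) := by
  have hT1 : T < 1 := by nlinarith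
  have hs := sE_pos he
  have hq : ∀ t ∈ Icc (0 : ℝ) 1, T ^ 2 * t ^ 2 < 1 := by
    intro t ht
    exact (lt_one_of_mul hT ht.1 (by nlinarith [ht.1, ht.2] : T * t < 1)).1
  set m := 14 + 75 * e + 39 * e ^ 2 with hm
  set F : ℝ → ℝ := fun t => √(1 - t ^ 2) ^ 3 * (T * t * uq e (ro T t) / sE e) +
    10 * T * m / sE e * ((e * t * √(1 - t ^ 2) * ((1 + e ^ 2) * t ^ 2 - 1) / ro T t ^ 4 +
      Real.arcsin (e * t / ro T t)) / 8) with hF
  have hro : ∀ t ∈ Icc (0 : ℝ) 1, HasDerivAt (ro T) (-(T ^ 2 * t) / ro T t) t :=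
    fun t ht => hasDerivAt_ro (hq t ht)
  have hu : ∀ t ∈ Icc (0 : ℝ) 1, HasDerivAt (fun t => uq e (ro T t))
      (fq e (opD uN 4 1 3 0) (4 + 1) (1 + 1) (3 + 1) (0 + 1) (ro T t) / 6 *
        (-(T ^ 2 * t) / ro T t)) t := by
    intro t ht
    have hr := ro_pos (hq t ht)
    exact ((hasDerivAt_fq uN 4 1 3 0 hr.ne' (by positivity) (by positivity)
      (by positivity)).div_const 6).comp t (hro t ht)
  have cro : ContinuousOn (ro T) (Icc 0 1) := fun t ht =>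
    (hro t ht).continuousAt.continuousWithinAt
  have cu : ContinuousOn (fun t => uq e (ro T t)) (Icc 0 1) := fun t ht =>
    (hu t ht).continuousAt.continuousWithinAt
  have cw : ContinuousOn (fun t : ℝ => √(1 - t ^ 2)) (Icc 0 1) := by fun_prop
  have hcont : ContinuousOn F (Icc 0 1) := by
    have c4 : ContinuousOn (fun t : ℝ => Real.arcsin (e * t / ro T t)) (Icc 0 1) := by
      refine Real.continuous_arcsin.comp_continuousOn ?_
      exact ContinuousOn.div (by fun_prop) cro fun t ht => (ro_pos (hq t ht)).ne'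
    have c5 : ContinuousOn (fun t : ℝ => e * t * √(1 - t ^ 2) * ((1 + e ^ 2) * t ^ 2 - 1) /
        ro T t ^ 4) (Icc 0 1) :=
      ContinuousOn.div (by fun_prop) (cro.pow 4) fun t ht =>
        pow_ne_zero _ (ro_pos (hq t ht)).ne'
    have c6 : ContinuousOn (fun t : ℝ => T * t * uq e (ro T t) / sE e) (Icc 0 1) :=
      ContinuousOn.div_const (ContinuousOn.mul (by fun_prop) cu) _
    exact ((cw.pow 3).mul c6).add (((c5.add c4).div_const 8).const_smul (10 * T * m / sE e))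
  have hder : ∀ t ∈ Ioo (0 : ℝ) 1, HasDerivAt F (G4 T e t * t * √(1 - t ^ 2)) t := by
    intro t ht
    have ht' := Ioo_subset_Icc_self ht
    have hqt := hq t ht'
    have hw' : 0 < 1 - t ^ 2 := by nlinarith [ht.1, ht.2]
    have hw := Real.sqrt_pos.2 hw'
    have hr := ro_pos hqt
    have sw := Real.sq_sqrt hw'.le
    have sq := ro_sq hqt
    have ht0 := ht.1
    have d4 : HasDerivAt (fun t : ℝ => √(1 - t ^ 2)) (-t / √(1 - t ^ 2)) t := by
      have e1 : HasDerivAt (fun t : ℝ => 1 - t ^ 2) (-(2 * t)) t := by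
        simpa using ((hasDerivAt_pow 2 t).const_sub 1)
      refine (e1.sqrt hw'.ne').congr_deriv ?_
      field_simp
    have hg1 : 1 - (e * t / ro T t) ^ 2 = (√(1 - t ^ 2) / ro T t) ^ 2 := by
      rw [div_pow, div_pow, sw, sq, mul_pow, heT]
      have : 1 - T ^ 2 * t ^ 2 ≠ 0 := by linarith
      field_simp
      ring
    have hgn : 0 ≤ e * t / ro T t := by positivity
    have hg2 : e * t / ro T t < 1 := by
      have h5 : 0 < 1 - (e * t / ro T t) ^ 2 := by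
        rw [hg1]
        positivity
      nlinarith
    have d7 : HasDerivAt (fun t : ℝ => e * t / ro T t) (e / ro T t ^ 3) t := by
      have e1 : HasDerivAt (fun t : ℝ => e * t) e t := by
        simpa using (hasDerivAt_id t).const_mul e
      refine (e1.fun_div (hro t ht') hr.ne').congr_deriv ?_
      generalize ro T t = q at hr sq
      field_simp
      linear_combination sq
    have d8 : HasDerivAt (fun t : ℝ => Real.arcsin (e * t / ro T t))
        (e / (ro T t ^ 2 * √(1 - t ^ 2))) t := by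
      have e1 := (Real.hasDerivAt_arcsin (x := e * t / ro T t)
        (by linarith) (by linarith)).comp t d7
      refine e1.congr_deriv ?_
      rw [hg1, Real.sqrt_sq (by positivity)]
      field_simp
    have d9 : HasDerivAt (fun t : ℝ => e * t * √(1 - t ^ 2) * ((1 + e ^ 2) * t ^ 2 - 1))
        ((e * √(1 - t ^ 2) + e * t * (-t / √(1 - t ^ 2))) * ((1 + e ^ 2) * t ^ 2 - 1) +
          e * t * √(1 - t ^ 2) * ((1 + e ^ 2) * (2 * t))) t := by
      have e1 : HasDerivAt (fun t : ℝ => e * t) e t := by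
        simpa using (hasDerivAt_id t).const_mul e
      have e2 : HasDerivAt (fun t : ℝ => (1 + e ^ 2) * t ^ 2 - 1) ((1 + e ^ 2) * (2 * t)) t := by
        simpa using (((hasDerivAt_pow 2 t).const_mul (1 + e ^ 2)).sub_const 1)
      exact (e1.mul d4).mul e2
    have d10 := d9.fun_div ((hro t ht').fun_pow 4) (pow_ne_zero 4 hr.ne')
    have d11 : HasDerivAt (fun t : ℝ => T * t * uq e (ro T t) / sE e) _ t :=
      (((by simpa using (hasDerivAt_id t).const_mul T : HasDerivAt (fun t : ℝ => T * t) T t).mul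
        (hu t ht')).div_const (sE e))
    have d12 := ((d4.fun_pow 3).mul d11).add
      (((d10.add d8).div_const 8).const_mul (10 * T * m / sE e))
    refine d12.congr_deriv ?_
    have hg := gam_eq hr he
    rw [← hm] at hg
    rw [G4]
    clear d12 d11 d10 d9 d8 d7 d4 hcont hu hro
    generalize fq e (opD uN 4 1 3 0) (4 + 1) (1 + 1) (3 + 1) (0 + 1) (ro T t) = P1 at *
    generalize uq e (ro T t) = P2 at *
    generalize gam e (ro T t) = P3 at *
    generalize ro T t = q at *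
    generalize √(1 - t ^ 2) = w at *
    have key : ((w ^ 2 - t ^ 2) * ((1 + e ^ 2) * t ^ 2 - 1) + 2 * (1 + e ^ 2) * t ^ 2 * w ^ 2) *
        q ^ 2 + 4 * T ^ 2 * t ^ 2 * w ^ 2 * ((1 + e ^ 2) * t ^ 2 - 1) + q ^ 4 -
        8 * e ^ 2 * t ^ 2 * w ^ 2 = 0 := by
      rw [show q ^ 4 = (q ^ 2) ^ 2 by ring, sq, sw, heT]
      ring
    have hA : ((((e * w + e * t * (-t / w)) * ((1 + e ^ 2) * t ^ 2 - 1) +
        e * t * w * ((1 + e ^ 2) * (2 * t))) * q ^ 4 -
        e * t * w * ((1 + e ^ 2) * t ^ 2 - 1) * (4 * q ^ 3 * (-(T ^ 2 * t) / q))) / (q ^ 4) ^ 2 +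
        e / (q ^ 2 * w)) = 8 * e ^ 3 * t ^ 2 * w / q ^ 6 := by
      rw [← sub_eq_zero]
      have : ((((e * w + e * t * (-t / w)) * ((1 + e ^ 2) * t ^ 2 - 1) +
        e * t * w * ((1 + e ^ 2) * (2 * t))) * q ^ 4 -
        e * t * w * ((1 + e ^ 2) * t ^ 2 - 1) * (4 * q ^ 3 * (-(T ^ 2 * t) / q))) / (q ^ 4) ^ 2 +
        e / (q ^ 2 * w)) - 8 * e ^ 3 * t ^ 2 * w / q ^ 6 =
        e * (((w ^ 2 - t ^ 2) * ((1 + e ^ 2) * t ^ 2 - 1) + 2 * (1 + e ^ 2) * t ^ 2 * w ^ 2) *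
        q ^ 2 + 4 * T ^ 2 * t ^ 2 * w ^ 2 * ((1 + e ^ 2) * t ^ 2 - 1) + q ^ 4 -
        8 * e ^ 2 * t ^ 2 * w ^ 2) / (q ^ 6 * w) := by
        field_simp
        ring
      rw [this, key]
      simp
    have h1q : 1 - q ^ 2 = T ^ 2 * t ^ 2 := by linarith
    have h2q : q ^ 2 - e ^ 2 = T ^ 2 * w ^ 2 := by rw [sq, heT, sw]; ring
    rw [h1q, h2q] at hg
    have hstar : t ^ 2 * P3 = 10 * (e ^ 3 * m) * t ^ 2 / q ^ 6 - 3 * t ^ 2 * P2 +
        w ^ 2 * (P2 - T ^ 2 * t ^ 2 / q * (P1 / 6)) := by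
      apply mul_left_cancel₀ (pow_ne_zero 2 hT.ne')
      linear_combination hg
    have hR : T * t * P3 / sE e * t * w = T * w / sE e * (t ^ 2 * P3) := by ring
    rw [hR, hstar]
    push_cast
    rw [hA]
    field_simp
    ring
  have hint : IntervalIntegrable (fun t : ℝ => G4 T e t * t * √(1 - t ^ 2)) volume 0 1 := by
    refine ContinuousOn.intervalIntegrable ?_
    rw [uIcc_of_le zero_le_one]
    have c1 : ContinuousOn (fun t => gam e (ro T t)) (Icc 0 1) := fun t ht =>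
      ((hasDerivAt_gam (ro_pos (hq t ht)) he).comp t (hro t ht)).continuousAt.continuousWithinAt
    have c2 : ContinuousOn (fun t => G4 T e t) (Icc 0 1) :=
      ContinuousOn.div_const (ContinuousOn.mul (by fun_prop) c1) _
    exact (c2.mul continuousOn_id).mul cw
  rw [intervalIntegral.integral_eq_sub_of_hasDerivAt_of_le zero_le_one hcont hder hint]
  have he3 : ro T 1 = e := by rw [ro, one_pow, mul_one, ← heT, Real.sqrt_sq he.le]
  have he0 : ro T 0 = 1 := by simp [ro]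
  simp only [hF, mul_one, one_pow, sub_self, Real.sqrt_zero, mul_zero, add_zero, sub_zero, div_one,
    zero_mul, zero_div, Real.arcsin_one, Real.arcsin_zero, he3, he0, div_self he.ne',
    ne_eq, OfNat.ofNat_ne_zero, not_false_eq_true, zero_pow, zero_add]
  field_simp
  ring

/-! ### The extended profile and the balance -/

theorem f4_cont (hT : 0 < T) (he : 0 < e) (heT : e ^ 2 = 1 - T ^ 2) (hy : y ∈ Icc (0 : ℝ) 1) :
    ContinuousAt (f4 T e) y := by
  have hT1 : T < 1 := by nlinarith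
  obtain ⟨h2, h3, h4⟩ := lt_one_of_mul hT hy.1 (by nlinarith [hy.2, hy.1] : T * y < 1)
  exact (hasDerivAt_f4 he h3 h4).continuousAt

/-- The profile, extended by constants. -/
noncomputable def fE (T e y : ℝ) : ℝ := f4 T e (max 0 (min y 1))

theorem fE_eq (ha : a ∈ Icc (0 : ℝ) 1) : fE T e a = f4 T e a := by
  rw [fE, min_eq_left ha.2, max_eq_right ha.1]

theorem fE_cont (hT : 0 < T) (he : 0 < e) (heT : e ^ 2 = 1 - T ^ 2) : Continuous (fE T e) := by
  rw [continuous_iff_continuousAt]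
  intro y
  have hy : max 0 (min y 1) ∈ Icc (0 : ℝ) 1 :=
    ⟨le_max_left _ _, max_le zero_le_one (min_le_right _ _)⟩
  have h2 : ContinuousAt (fun y : ℝ => max 0 (min y 1)) y := by fun_prop
  exact ContinuousAt.comp (g := f4 T e) (f := fun y : ℝ => max 0 (min y 1))
    (f4_cont hT he heT hy) h2

/-- `λ`. -/
noncomputable def lam4 (T e : ℝ) : ℝ :=
  5 * e ^ 3 * (14 + 75 * e + 39 * e ^ 2) / (4 * T ^ 2 * sE e)

theorem lam4_pos (hT : 0 < T) (he : 0 < e) : 0 < lam4 T e := by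
  have := sE_pos he
  unfold lam4
  positivity

theorem int_fE (hT : 0 < T) (he : 0 < e) (heT : e ^ 2 = 1 - T ^ 2) :
    ∫ t in (0 : ℝ)..1, fE T e t * t * √(1 - t ^ 2) =
      (∫ t in (0 : ℝ)..1, Real.log ((1 + T * t) / (1 - T * t)) * t * √(1 - t ^ 2)) -
        5 * π * T * (14 + 75 * e + 39 * e ^ 2) / (8 * sE e) := by
  have hT1 : T < 1 := by nlinarith
  have hpos : ∀ t ∈ Icc (0 : ℝ) 1, T ^ 2 * t ^ 2 < 1 ∧ 0 < 1 - T * t ∧ 0 < 1 + T * t :=
    fun t ht => lt_one_of_mul hT ht.1 (by nlinarith [ht.1, ht.2] : T * t < 1)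
  rw [← int_G4 hT he heT, ← intervalIntegral.integral_sub]
  · refine intervalIntegral.integral_congr fun t ht => ?_
    rw [uIcc_of_le zero_le_one] at ht
    rw [fE_eq ht, f4, L4]
    ring
  · refine ContinuousOn.intervalIntegrable fun t ht => ?_
    rw [uIcc_of_le zero_le_one] at ht
    obtain ⟨h1, h2, h3⟩ := hpos t ht
    have h4 : ContinuousAt (fun t : ℝ => √(1 - t ^ 2)) t := by fun_prop
    exact (((hasDerivAt_L4 h2 h3).continuousAt.mul continuousAt_id).mul h4).continuousWithinAt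
  · refine ContinuousOn.intervalIntegrable fun t ht => ?_
    rw [uIcc_of_le zero_le_one] at ht
    obtain ⟨h1, h2, h3⟩ := hpos t ht
    have h4 : ContinuousAt (fun t : ℝ => √(1 - t ^ 2)) t := by fun_prop
    have h5 := ((hasDerivAt_gam (ro_pos h1) he).comp t (hasDerivAt_ro h1)).continuousAt
    have h6 : ContinuousAt (fun t : ℝ => T * t) t := by fun_prop
    exact ((((h6.mul h5).div_const (sE e)).mul continuousAt_id).mul h4).continuousWithinAt

/-- The relation between `T = tanh R` and `e = 1/cosh R`. -/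
theorem e_of_R {R : ℝ} (hR : 0 < R) : 0 < Real.tanh R ∧ 0 < 1 / Real.cosh R ∧
    (1 / Real.cosh R) ^ 2 = 1 - Real.tanh R ^ 2 := by
  have hs := Real.sinh_pos_iff.2 hR
  have hc := Real.cosh_pos R
  have h1 := Real.cosh_sq_sub_sinh_sq R
  refine ⟨?_, by positivity, ?_⟩
  · rw [Real.tanh_eq_sinh_div_cosh]; positivity
  · rw [Real.tanh_eq_sinh_div_cosh]
    field_simp
    linarith

theorem balance4 {R : ℝ} (hR : 0 < R) :
    lam4 (Real.tanh R) (1 / Real.cosh R) * TPH.AR 4 1 R ^ 2 = 1 * TP.sig 4 * TPH.VR 4 1 R -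
      4 * π * (∫ t in (0 : ℝ)..1, fE (Real.tanh R) (1 / Real.cosh R) t * t * √(1 - t ^ 2)) *
        TPH.AR 4 1 R := by
  obtain ⟨hT, he, heT⟩ := e_of_R hR
  rw [int_fE hT he heT, one_mul, ← TPH.bal_four hR]
  have hA : lam4 (Real.tanh R) (1 / Real.cosh R) * TPH.AR 4 1 R =
      4 * π * (5 * π * Real.tanh R * (14 + 75 * (1 / Real.cosh R) + 39 * (1 / Real.cosh R) ^ 2) /
        (8 * sE (1 / Real.cosh R))) := by
    have hs := sE_pos he
    have hsn : ∀ r : ℝ, TPH.sn 1 r = Real.sinh r := fun r => by simp [TPH.sn]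
    rw [TPH.AR, TPH.bo_sig, hsn, lam4]
    have hc := Real.cosh_pos R
    have h1 : Real.sinh R = Real.tanh R / (1 / Real.cosh R) := by
      rw [Real.tanh_eq_sinh_div_cosh]; field_simp
    rw [h1]
    generalize 1 / Real.cosh R = z at *
    generalize Real.tanh R = T at *
    norm_num
    field_simp
    ring
  rw [pow_two, ← mul_assoc, hA]
  ring

end Vale.Agent.P219.D4
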