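import Vale.Agent.P219.D4.Prof

/-! # The certificate in dimension 4: the functions of the field and the kernel -/

namespace Vale.Agent.P219.D4

open Vale.Agent.P219.C5

variable {r e : ℝ}

/-- `b`. -/
noncomputable def bq (e r : ℝ) : ℝ := fq e bN 4 2 4 0 r / 6

/-- `c = b + (Y/ρ) b_ρ`. -/
noncomputable def cq (e r : ℝ) : ℝ := fq e cN 6 3 5 0 r / 6

/-- `F`. -/
noncomputable def Fq (e r : ℝ) : ℝ := fq e FN 6 1 2 0 r

/-- `w = u + b/2`. -/
noncomputable def wq (e r : ℝ) : ℝ := uq e r + bq e r / 2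

/-- `v = Y F - c/2`. -/
noncomputable def vq (e r : ℝ) : ℝ := (1 - r ^ 2) * Fq e r - cq e r / 2

/-- `R0`. -/
noncomputable def Rq (e r : ℝ) : ℝ := 10 * (e ^ 3 * (14 + 75 * e + 39 * e ^ 2)) / r ^ 6

/-- The kernel: `KN sn³ = (x T/s) Kh`, `X = x²`, `A = a/x`, `B = b/x`, `S = √((1-a²)(1-b²))`. -/
noncomputable def Kh (e r X A B S : ℝ) : ℝ :=
  Rq e r * X + ((1 - B ^ 2 * X) * (vq e r + A ^ 2 * cq e r / 2) +
    (1 - A ^ 2 * X) * (vq e r + B ^ 2 * cq e r / 2)) / 2 +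
  3 / r ^ 2 * (2 - r ^ 2) / 2 * X * (B ^ 2 * (wq e r - A ^ 2 * bq e r / 2) +
    A ^ 2 * (wq e r - B ^ 2 * bq e r / 2)) -
  3 / r ^ 2 * X * ((A + B) * wq e r - A * B * (A + B) * bq e r / 2) - bq e r * A * B * S

theorem hasDerivAt_bq (hr : 0 < r) (he : 0 < e) :
    HasDerivAt (bq e) (fq e (opD bN 4 2 4 0) (4 + 1) (2 + 1) (4 + 1) (0 + 1) r / 6) r :=
  (hasDerivAt_fq bN 4 2 4 0 hr.ne' (by positivity) (by positivity) (by positivity)).div_const 6

theorem hasDerivAt_uq (hr : 0 < r) (he : 0 < e) :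
    HasDerivAt (uq e) (fq e (opD uN 4 1 3 0) (4 + 1) (1 + 1) (3 + 1) (0 + 1) r / 6) r :=
  (hasDerivAt_fq uN 4 1 3 0 hr.ne' (by positivity) (by positivity) (by positivity)).div_const 6

/-- `(Y/ρ) b_ρ = c - b`. -/
theorem bq' (hr : 0 < r) (he : 0 < e) : (1 - r ^ 2) / r *
    (fq e (opD bN 4 2 4 0) (4 + 1) (2 + 1) (4 + 1) (0 + 1) r / 6) = cq e r - bq e r := by
  have h := e2_eqv cN_eq r e
  simp only [e2_add, e2_mul, v_r, v_L1, v_L2, v_L0, v_Y] at h
  unfold cq bq fq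
  have h1 : 0 < r + e := by positivity
  have h2 : 0 < 3 * r + 2 * e := by positivity
  have h3 : 0 < 1 + r := by positivity
  generalize e2 r e (opD bN 4 2 4 0) = P1 at *
  generalize e2 r e cN = P2 at *
  generalize e2 r e bN = P3 at *
  have h4 : P2 = (1 / (1 + r)) * ((1 + r) * P2) := by field_simp
  rw [h4, h]
  clear h h4
  generalize (3 * r + 2 * e) = R2 at *
  generalize (r + e) = R1 at *
  field_simp
  ring

/-- `(Y/ρ) u_ρ = u + b - Y F`. -/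
theorem uq' (hr : 0 < r) (he : 0 < e) : (1 - r ^ 2) / r *
    (fq e (opD uN 4 1 3 0) (4 + 1) (1 + 1) (3 + 1) (0 + 1) r / 6) =
      uq e r + bq e r - (1 - r ^ 2) * Fq e r := by
  have h := e2_eqv FN_eq r e
  simp only [e2_add, e2_mul, e2_smul, v_r, v_L1, v_L2, v_L0, v_Y] at h
  unfold uq bq Fq fq
  have h1 : 0 < r + e := by positivity
  have h2 : 0 < 3 * r + 2 * e := by positivity
  have h3 : 0 < 1 + r := by positivity
  generalize e2 r e (opD uN 4 1 3 0) = P1 at *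
  generalize e2 r e FN = P2 at *
  generalize e2 r e bN = P3 at *
  generalize e2 r e uN = P4 at *
  generalize (1 - r ^ 2) = Y at *
  push_cast at h
  generalize (3 * r + 2 * e) = R2 at *
  generalize (r + e) = R1 at *
  have h4 : Y * (P2 / (r ^ 6 * R1 ^ 1 * R2 ^ 2 * (1 + r) ^ 0)) =
      6 * (Y * (1 + r) * R1 * R2 * R2 * P2) / (6 * r ^ 6 * (1 + r) * R1 ^ 2 * R2 ^ 4) := by
    field_simp
  rw [h4, h]
  field_simp
  ring

end Vale.Agent.P219.D4
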