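import Vale.Agent.P219.C5.Poly

/-! # Polynomials as nested lists: substitutions and strict tests -/

open Set

namespace Vale.Agent.P219.D4

open Vale.Agent.P219.C5

/-! ### Substitution in the outer variable -/

/-- `D^(n-1) p(q/D, v)`, `n` the length. -/
def hc (q : P2) (D : ℕ) (p : P2) : P2 :=
  List.rec (motive := fun _ => P2) [] (fun a p ih =>
    add2 [kmap (Int.mul (Int.ofNat (Nat.pow D (klen p)))) a] (mul2 q ih)) p

theorem ev_hc (q : P2) {D : ℕ} (hD : (D : ℝ) ≠ 0) (u v : ℝ) (p : P2) :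
    (D : ℝ) * e2 u v (hc q D p) = (D : ℝ) ^ p.length * e2 (e2 u v q / D) v p := by
  induction p with
  | nil => simp [hc, e2]
  | cons a p ih =>
    change (D : ℝ) * e2 u v (add2 [kmap (Int.mul (Int.ofNat (Nat.pow D (klen p)))) a]
      (mul2 q (hc q D p))) = _
    have h3 : ((Int.ofNat (Nat.pow D p.length) : ℤ) : ℝ) = (D : ℝ) ^ p.length := by
      simp
    have h1 : e2 u v [kmap (Int.mul (Int.ofNat (Nat.pow D (klen p)))) a] =
        (D : ℝ) ^ p.length * ev evz v a := by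
      rw [klen_eq]
      unfold e2
      rw [ev_cons, ev_nil, mul_zero, add_zero, ev_kmap]
      simp only [evz_mul]
      rw [ev_mul_left]
      congr 1
    have h2 : e2 (e2 u v q / D) v (a :: p) = ev evz v a + e2 u v q / D * e2 (e2 u v q / D) v p :=
      rfl
    rw [e2_add, e2_mul, h1, h2, List.length_cons, pow_succ]
    have h4 : (D : ℝ) * (e2 u v q * e2 u v (hc q D p)) =
        e2 u v q * ((D : ℝ) ^ p.length * e2 (e2 u v q / D) v p) := by rw [← ih]; ring
    rw [mul_add, h4]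
    field_simp

/-- Padding. -/
def padP (L : ℕ) (p : P2) : P2 := kapp p (krep [] (Nat.sub L (klen p)))

theorem ev_padP (L : ℕ) (x y : ℝ) (p : P2) : e2 x y (padP L p) = e2 x y p := by
  rw [padP, kapp_eq, krep_eq, e2, ev_pad (e := ev evz y) (z := []) rfl]

theorem length_padP {L : ℕ} {p : P2} (h : p.length ≤ L) : (padP L p).length = L := by
  rw [padP, kapp_eq, krep_eq, klen_eq, List.length_append, List.length_replicate, Nat.sub_eq]
  omega

/-- Substitution of `q/D` for the outer variable, multiplied by `D^(L-1)`. -/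
def ch (q : P2) (D L : ℕ) (Q : List P2) : List P2 := kmap (fun p => hc q D (padP L p)) Q

/-- Bound of the lengths. -/
def len1 (L : ℕ) (Q : List P2) : Bool := kall (fun p => Nat.ble (klen p) L) Q

theorem len1_spec {L : ℕ} {Q : List P2} (h : len1 L Q = true) : ∀ p ∈ Q, p.length ≤ L := by
  intro p hp
  have := mem_of_kall h p hp
  rw [klen_eq] at this
  exact Nat.le_of_ble_eq_true this

theorem e3_ch (q : P2) {D L : ℕ} (hD : (D : ℝ) ≠ 0) {Q : List P2} (hL : ∀ p ∈ Q, p.length ≤ L)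
    (a u v : ℝ) : (D : ℝ) * e3 a u v (ch q D L Q) = (D : ℝ) ^ L * e3 a (e2 u v q / D) v Q := by
  unfold e3 ch
  rw [ev_kmap]
  induction Q with
  | nil => simp
  | cons p Q ih =>
    have h1 := ih fun r hr => hL r (by simp [hr])
    have h2 := ev_hc q hD u v (padP L p)
    rw [length_padP (hL p (by simp)), ev_padP] at h2
    rw [ev_cons, ev_cons]
    linear_combination h2 + a * h1

theorem ch_pos {q : P2} {D L : ℕ} {Q : List P2} (hL : len1 L Q = true) (hD : 0 < D)
    {a u v x : ℝ} (hx : e2 u v q = D * x) (h : 0 < e3 a u v (ch q D L Q)) : 0 < e3 a x v Q := by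
  have hD' : (0 : ℝ) < D := by exact_mod_cast hD
  have h1 := e3_ch q hD'.ne' (len1_spec hL) a u v
  rw [hx, mul_div_cancel_left₀ _ hD'.ne'] at h1
  have h2 := mul_pos hD' h
  rw [h1] at h2
  exact pos_of_mul_pos_right h2 (by positivity)

/-! ### Transposition -/

/-- Exchange of the variables. -/
def tr (M : ℕ) (p : P2) : P2 :=
  List.rec (motive := fun _ => P2) (krep [] M) (fun r _ ih => consColsZ ih r) p

theorem length_tr (M : ℕ) (p : P2) : (tr M p).length = M := by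
  induction p with
  | nil => simp [tr, krep_eq]
  | cons r p ih =>
    change (consColsZ (tr M p) r).length = M
    rw [length_consColsZ, ih]

theorem ev_tr {M : ℕ} (w y : ℝ) (p : P2) (h : ∀ r ∈ p, r.length ≤ M) :
    e2 w y (tr M p) = e2 y w p := by
  induction p with
  | nil =>
    have := ev_replicate (e := ev evz y) (z := []) rfl M w []
    simpa [e2, tr, krep_eq] using this
  | cons r p ih =>
    change e2 w y (consColsZ (tr M p) r) = _
    rw [ev_consColsZ w y _ r (by rw [length_tr]; exact h r (by simp)),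
      ih fun r' hr' => h r' (by simp [hr'])]
    rfl

/-- Bound of the inner lengths. -/
def len2 (M : ℕ) (Q : List P2) : Bool := kall (fun p => kall (fun r => Nat.ble (klen r) M) p) Q

theorem len2_spec {M : ℕ} {Q : List P2} (h : len2 M Q = true) :
    ∀ p ∈ Q, ∀ r ∈ p, r.length ≤ M := by
  intro p hp r hr
  have := mem_of_kall (mem_of_kall h p hp) r hr
  rw [klen_eq] at this
  exact Nat.le_of_ble_eq_true this

/-- Exchange of the inner variables. -/
def tr3 (M : ℕ) (Q : List P2) : List P2 := kmap (tr M) Q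

theorem e3_tr3 {M : ℕ} {Q : List P2} (h : len2 M Q = true) (a w y : ℝ) :
    e3 a w y (tr3 M Q) = e3 a y w Q := by
  have h1 := len2_spec h
  clear h
  unfold e3 tr3
  rw [ev_kmap]
  induction Q with
  | nil => rfl
  | cons p Q ih =>
    rw [ev_cons, ev_cons, ih fun r hr => h1 r (by simp [hr]), ev_tr w y p (h1 p (by simp))]

theorem tr3_len (M : ℕ) (Q : List P2) : ∀ p ∈ tr3 M Q, p.length ≤ M := by
  intro p hp
  rw [tr3, kmap_eq, List.mem_map] at hp
  obtain ⟨r, _, rfl⟩ := hp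
  exact (length_tr M r).le

/-! ### Intervals for the third variable -/

/-- `D^(n-1) Q((i + j a)/D)`, `n` the length. -/
def ka (i j : ℤ) (D : ℕ) (Q : List P2) : List P2 :=
  List.rec (motive := fun _ => List P2) [] (fun a p ih =>
    kadd add2 [smul2 (Int.ofNat (Nat.pow D (klen p))) a]
      (kadd add2 (kmap (smul2 i) ih) ([] :: kmap (smul2 j) ih))) Q

theorem e3_add (a x T : ℝ) (P Q : List P2) :
    e3 a x T (kadd add2 P Q) = e3 a x T P + e3 a x T Q := ev_kadd (e2_add x T) a P Q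

theorem e3_kmap_smul (a x T : ℝ) (c : ℤ) (P : List P2) :
    e3 a x T (kmap (smul2 c) P) = c * e3 a x T P := by
  unfold e3
  rw [ev_kmap]
  simp only [e2_smul]
  exact ev_mul_left _ _ _ _

theorem e3_ka (i j : ℤ) {D : ℕ} (hD : (D : ℝ) ≠ 0) (a x T : ℝ) (Q : List P2) :
    (D : ℝ) * e3 a x T (ka i j D Q) = (D : ℝ) ^ Q.length * e3 ((i + j * a) / D) x T Q := by
  induction Q with
  | nil => simp [ka, e3]
  | cons p Q ih =>
    change (D : ℝ) * e3 a x T (kadd add2 [smul2 (Int.ofNat (Nat.pow D (klen Q))) p]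
      (kadd add2 (kmap (smul2 i) (ka i j D Q)) ([] :: kmap (smul2 j) (ka i j D Q)))) = _
    have h1 : e3 a x T ([] :: kmap (smul2 j) (ka i j D Q)) =
        a * (j * e3 a x T (ka i j D Q)) := by
      rw [← e3_kmap_smul]
      simp [e3, e2]
    have h2 : e3 a x T [smul2 (Int.ofNat (Nat.pow D (klen Q))) p] =
        (D : ℝ) ^ Q.length * e2 x T p := by
      have h3 : ((Int.ofNat (Nat.pow D Q.length) : ℤ) : ℝ) = (D : ℝ) ^ Q.length := by
        simp
      unfold e3
      rw [ev_cons, ev_nil, mul_zero, add_zero, e2_smul, klen_eq, h3]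
    have h4 : e3 ((i + j * a) / D) x T (p :: Q) =
        e2 x T p + (i + j * a) / D * e3 ((i + j * a) / D) x T Q := rfl
    rw [e3_add, e3_add, h1, h2, h4, e3_kmap_smul, List.length_cons, pow_succ]
    have h5 : (D : ℝ) * (i * e3 a x T (ka i j D Q) + a * (j * e3 a x T (ka i j D Q))) =
        (i + j * a) * ((D : ℝ) ^ Q.length * e3 ((i + j * a) / D) x T Q) := by rw [← ih]; ring
    rw [mul_add, h5]
    field_simp

theorem ka_pos {i j : ℤ} {D : ℕ} {Q : List P2} (hD : 0 < D) {a b x T : ℝ}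
    (hb : (i : ℝ) + j * a = D * b) (h : 0 < e3 a x T (ka i j D Q)) : 0 < e3 b x T Q := by
  have hD' : (0 : ℝ) < D := by exact_mod_cast hD
  have h1 := e3_ka i j hD'.ne' a x T Q
  rw [hb, mul_div_cancel_left₀ _ hD'.ne'] at h1
  have h2 := mul_pos hD' h
  rw [h1] at h2
  exact pos_of_mul_pos_right h2 (by positivity)

/-! ### Tests -/

def mpow (p : P2) (n : ℕ) : P2 :=
  Nat.rec (motive := fun _ => P2) [[.ofNat 1]] (fun _ ih => mul2 ih p) n

theorem v_mpow (x T : ℝ) (p : P2) (n : ℕ) : e2 x T (mpow p n) = e2 x T p ^ n := by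
  induction n with
  | zero => simp [e2, mpow, evz]
  | succ n ih => rw [pow_succ, ← ih]; exact e2_mul x T _ _

/-- `u^i (1-u)^j v^k (1-v)^l`. -/
def mon (i j k l : ℕ) : P2 :=
  mul2 (mul2 (mpow [[], [.ofNat 1]] i) (mpow [[.ofNat 1], [.negSucc 0]] j))
    (mul2 (mpow [[.ofNat 0, .ofNat 1]] k) (mpow [[.ofNat 1, .negSucc 0]] l))

theorem v_mon (u v : ℝ) (i j k l : ℕ) :
    e2 u v (mon i j k l) = u ^ i * (1 - u) ^ j * (v ^ k * (1 - v) ^ l) := by
  have h1 : e2 u v [[], [.ofNat 1]] = u := by simp [e2, evz]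
  have h2 : e2 u v [[.ofNat 1], [.negSucc 0]] = 1 - u := by simp [e2, evz]; ring
  have h3 : e2 u v [[.ofNat 0, .ofNat 1]] = v := by simp [e2, evz]
  have h4 : e2 u v [[.ofNat 1, .negSucc 0]] = 1 - v := by simp [e2, evz]; ring
  rw [mon, e2_mul, e2_mul, e2_mul, v_mpow, v_mpow, v_mpow, v_mpow, h1, h2, h3, h4]

/-- Test of positivity on the unit cube. -/
def ok (L i j k l : ℕ) (Q : List P2) : Bool :=
  t3 (chk2 L) (kadd add2 Q [smul2 (-1) (mon i j k l)])

theorem ok_pos {L i j k l : ℕ} {Q : List P2} (h : ok L i j k l Q = true) {a u v : ℝ}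
    (ha : a ∈ Icc (0 : ℝ) 1) (hu : u ∈ Icc (0 : ℝ) 1) (hv : v ∈ Icc (0 : ℝ) 1)
    (hm : 0 < u ^ i * (1 - u) ^ j * (v ^ k * (1 - v) ^ l)) : 0 < e3 a u v Q := by
  have h1 := t3_nonneg (fun p q hpq => chk2_le hpq hu hv) h ha
  rw [e3_add] at h1
  have h2 : e3 a u v [smul2 (-1) (mon i j k l)] =
      -(u ^ i * (1 - u) ^ j * (v ^ k * (1 - v) ^ l)) := by
    unfold e3
    rw [ev_cons, ev_nil, mul_zero, add_zero, e2_smul, v_mon]
    push_cast
    ring
  rw [h2] at h1
  linarith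

/-- Test after the substitution of `q/D`. -/
def okC (q : P2) (D N L i j k l : ℕ) (Q : List P2) : Bool :=
  and (len1 N Q) (ok L i j k l (ch q D N Q))

theorem okC_pos {q : P2} {D N L i j k l : ℕ} {Q : List P2} (h : okC q D N L i j k l Q = true)
    (hD : 0 < D) {a u v x : ℝ} (hx : e2 u v q = D * x)
    (ha : a ∈ Icc (0 : ℝ) 1) (hu : u ∈ Icc (0 : ℝ) 1) (hv : v ∈ Icc (0 : ℝ) 1)
    (hm : 0 < u ^ i * (1 - u) ^ j * (v ^ k * (1 - v) ^ l)) : 0 < e3 a x v Q := by
  rw [okC, Bool.and_eq_true] at h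
  exact ch_pos h.1 hD hx (ok_pos h.2 ha hu hv hm)

/-- Test on `e = k ρ`. -/
def okT (M L i j k l : ℕ) (Q : List P2) : Bool :=
  and (len2 M Q) (ok L i j k l (ch [[], [.ofNat 0, .ofNat 1]] 1 M (tr3 M Q)))

theorem len1_tr3 (M : ℕ) (Q : List P2) : len1 M (tr3 M Q) = true := by
  have h := tr3_len M Q
  unfold len1
  generalize tr3 M Q = R at h
  induction R with
  | nil => rfl
  | cons p R ih =>
    change and (Nat.ble (klen p) M) (kall (fun p => Nat.ble (klen p) M) R) = true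
    rw [Bool.and_eq_true]
    refine ⟨?_, ih fun r hr => h r (by simp [hr])⟩
    rw [klen_eq]
    exact Nat.ble_eq_true_of_le (h p (by simp))

theorem v_uv (u v : ℝ) : e2 u v [[], [.ofNat 0, .ofNat 1]] = ((1 : ℕ) : ℝ) * (u * v) := by
  simp [e2, evz]

theorem okT_pos {M L i j k l : ℕ} {Q : List P2} (h : okT M L i j k l Q = true) {a x y : ℝ}
    (ha : a ∈ Icc (0 : ℝ) 1) (hx : x ∈ Icc (0 : ℝ) 1) (hy : y ∈ Icc (0 : ℝ) 1)
    (hm : 0 < y ^ i * (1 - y) ^ j * (x ^ k * (1 - x) ^ l)) : 0 < e3 a x (y * x) Q := by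
  rw [okT, Bool.and_eq_true] at h
  rw [← e3_tr3 h.1]
  exact ch_pos (len1_tr3 M Q) one_pos (v_uv y x) (ok_pos h.2 ha hy hx hm)

/-- Test on `e = k ρ`, `D ρ = α + β u`. -/
def okTB (α β : ℤ) (D M N L i j k l : ℕ) (Q : List P2) : Bool :=
  and (and (len2 M Q) (len2 N (ch [[], [.ofNat 0, .ofNat 1]] 1 M (tr3 M Q))))
    (ok L i j k l (ch [[α], [β]] D N (tr3 N (ch [[], [.ofNat 0, .ofNat 1]] 1 M (tr3 M Q)))))

theorem okTB_pos {α β : ℤ} {D M N L i j k l : ℕ} {Q : List P2}
    (h : okTB α β D M N L i j k l Q = true) (hD : 0 < D) {a u x y : ℝ}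
    (hx : (α : ℝ) + β * u = D * x) (ha : a ∈ Icc (0 : ℝ) 1) (hu : u ∈ Icc (0 : ℝ) 1)
    (hy : y ∈ Icc (0 : ℝ) 1) (hm : 0 < u ^ i * (1 - u) ^ j * (y ^ k * (1 - y) ^ l)) :
    0 < e3 a x (y * x) Q := by
  rw [okTB, Bool.and_eq_true, Bool.and_eq_true] at h
  have h0 := ok_pos h.2 ha hu hy hm
  have hq : e2 u y [[α], [β]] = D * x := by
    rw [← hx]; simp [e2, evz]; ring
  have h1 := ch_pos (len1_tr3 _ _) hD hq h0
  rw [e3_tr3 h.1.2] at h1
  have h2 := ch_pos (len1_tr3 M Q) one_pos (v_uv y x) h1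
  rwa [e3_tr3 h.1.1] at h2

/-- Equality of lists of polynomials. -/
def eqv3 (P Q : List P2) : Bool := kall isz2 (kadd add2 P (kmap (smul2 (-1)) Q))

theorem e3_eqv {P Q : List P2} (h : eqv3 P Q = true) (a x T : ℝ) : e3 a x T P = e3 a x T Q := by
  have h1 : e3 a x T (kadd add2 P (kmap (smul2 (-1)) Q)) = 0 :=
    ev_kall (fun p hp => e2_isz2 x T hp) a _ h
  rw [e3_add, e3_kmap_smul] at h1
  push_cast at h1
  linarith

theorem e3_kmap_mul (a x T : ℝ) (c : P2) (P : List P2) :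
    e3 a x T (kmap (mul2 c) P) = e2 x T c * e3 a x T P := by
  unfold e3
  rw [ev_kmap]
  simp only [e2_mul]
  exact ev_mul_left _ _ _ _

/-- Multiplication. -/
def mul3 : List P2 → List P2 → List P2 := kmul add2 mul2 []
/-- Addition. -/
def add3 : List P2 → List P2 → List P2 := kadd add2

theorem e3_mul3 (a x T : ℝ) (P Q : List P2) :
    e3 a x T (mul3 P Q) = e3 a x T P * e3 a x T Q :=
  ev_kmul (e2_add x T) (e2_mul x T) rfl a P Q

theorem e3_add3 (a x T : ℝ) (P Q : List P2) :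
    e3 a x T (add3 P Q) = e3 a x T P + e3 a x T Q := e3_add a x T P Q

end Vale.Agent.P219.D4
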