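import Vale.Agent.P219.D4.Ident
import Vale.Agent.P219.D4.Tools

/-! # The certificate in dimension 4: the polynomials to be checked (generated) -/

namespace Vale.Agent.P219.D4

open Vale.Agent.P219.C5

def pk2 : P2 := smul2 2 (mul2 pL (mul2 (mul2 pY pY) bN))
def pu1 : P2 := add2 (mul2 pY (add2 (smul2 2 (mul2 pL uN)) bN)) (smul2 (-1) (mul2 pT bN))
def pZ : P2 := smul2 24 (mul2 (mul2 ps (mul2 pr2 pr2)) (mul2 (mul2 (mul2 pL pL) pL) (mul2 pL2 pL2)))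
def pW : P2 := mul2 (mul2 pr2 pL) (add2 (smul2 2 (mul2 pL uN)) bN)
def pMH : P2 := smul2 3 (mul2 pL bN)
def pu3 : List P2 := [[], p1]
def pw3 : List P2 := [p1, smul2 (-1) p1]
def pi3 : List P2 := [p1, p1]
def py : P2 := smul2 2 pY
def ph : P2 := add2 py (smul2 (-1) pG)
def pEE : P2 := smul2 4 (mul2 (mul2 pr2 pL) (mul2 (mul2 pY pY) bN))
def pBB : P2 := smul2 2 (mul2 (mul2 pv pY) (mul2 pL1 fN))
def pc20 : P2 := mul2 (add2 kcc (add2 (smul2 2 kcp) (add2 (smul2 5 kccp) (smul2 4 kpp)))) pr2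
def pc30 : P2 := mul2 kccp pr2
def pc01 : P2 := mul2 (smul2 4 (add2 kp (add2 kcp (add2 kccp (smul2 2 kpp))))) pr2
def pc11 : P2 := mul2 (add2 (smul2 2 kcp) (add2 (smul2 4 kccp) (smul2 8 kpp))) pr2
def pc02 : P2 := mul2 (smul2 4 kpp) pr2

def S1 : List P2 := [add2 pk2 (smul2 (-1) kpp)]

def S2 : List P2 := [add2 k1 (smul2 (-1) pk2)]

def S3 : List P2 := [add2 kc (smul2 2 k1)]

def S4 : List P2 := [add2 (smul2 3 k1) (add2 kc (add2 kccp kpp))]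

def S5 : List P2 := [add2 (smul2 4 k1) (add2 (smul2 2 kc) kcc)]

def S6b : List P2 := [bN]

def S6u : List P2 := [uN]

def S9 : List P2 := [add2 (mul2 pY (add2 (smul2 4 k1) kc)) (mul2 pT (add2 kc kcc))]

def S10 : List P2 := [smul2 (-1) (smul2 2 kc), smul2 (-1) (add2 (smul2 2 kcc) (smul2 4 kp)),
    smul2 (-1) (smul2 2 kcp), smul2 (-1) kccp]

def S11 : List P2 := [pu1]

def S12a : List P2 := [add2 (smul2 3 pV) (mul2 pC pMW)]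

def S12b : List P2 := [add2 (smul2 6 (mul2 pY pV)) (add2 (smul2 6 (mul2 pT cN)) (mul2 pC (add2
    (smul2 2 (mul2 pY pMW)) (smul2 (-1) (mul2 pT pMB)))))]

def S13 : List P2 := [add2 (smul2 3 pu1) (smul2 (-1) (mul2 pr2 (mul2 pY (add2 (smul2 2 (mul2 pL
    uN)) bN))))]

def S14 : List P2 := [add2 (smul2 2 (mul2 pY (add2 (smul2 4 k1) (add2 (smul2 2 kc) kcc)))) (mul2
    (add2 kc kcc) pG)]

def T1 : List P2 := [add2 (mul2 pY (add2 (smul2 3 k1) kc)) (add2 (mul2 pT (add2 kccp kpp)) (smul2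
    (-1) (mul2 pk2 pG)))]

def T2 : List P2 := [fN]

def T3 : List P2 := [smul2 (-1) ((opD fN 4 2 5 1))]

def T4 : List P2 := [add2 gN (mul2 (mul2 pL2 pL0) uN)]

def T5 : List P2 := [add2 (smul2 2 (mul2 pY pg1)) (add2 (smul2 (-1) (mul2 pG pf1)) (smul2 2 (mul2
    (mul2 (mul2 pr2 pL) pL0) pu1)))]

def J1 : List P2 := [smul2 (-1) ((opD fN 6 2 5 1))]

def J2 : List P2 := [add2 (smul2 2 (mul2 (mul2 pv pL1) gN)) pu1]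

def V0 : List P2 := [add2 (smul2 4 (mul2 (mul2 pR pY) pY)) (add2 (smul2 4 (mul2 (mul2 pT pY) pV))
    (smul2 (-1) (smul2 2 (mul2 (mul2 pY (add2 pT pY)) pMW)))), add2 (smul2 (-1) (smul2 4 (mul2
    (mul2 pT pY) pV))) (add2 (smul2 4 (mul2 (mul2 pT pT) cN)) (add2 (smul2 4 (mul2 (mul2 (mul2 pT
    pY) pC) pMW)) (add2 (smul2 (-1) (smul2 2 (mul2 (mul2 pY (add2 pT pY)) pMW))) (add2 (mul2
    (mul2 pT (add2 pT pY)) pMB) (add2 (smul2 (-1) (smul2 4 (mul2 (mul2 pT pT) pB))) (smul2 (-1)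
    (smul2 4 (mul2 (mul2 pT pY) pZ)))))))), add2 (smul2 (-1) (smul2 4 (mul2 (mul2 pT pT) cN)))
    (add2 (smul2 (-1) (smul2 2 (mul2 (mul2 (mul2 pT pT) pC) pMB))) (add2 (mul2 (mul2 pT (add2 pT
    pY)) pMB) (smul2 4 (mul2 (mul2 pT pT) pB))))]

def V1 : List P2 := [add2 (smul2 4 (mul2 (mul2 pR pY) pY)) (add2 (smul2 2 (mul2 (mul2 pT pY) pV))
    (add2 (smul2 2 (mul2 (mul2 pT pT) cN)) (add2 (smul2 2 (mul2 (mul2 (mul2 pT pY) pC) pMW))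
    (smul2 (-1) (smul2 2 (mul2 (mul2 pY (add2 pT pY)) pMW)))))), add2 (smul2 (-1) (smul2 2 (mul2
    (mul2 pY (add2 pT pY)) pMW))) (add2 (mul2 (mul2 pT (add2 pT pY)) pMB) (add2 (smul2 (-1)
    (smul2 2 (mul2 (mul2 pT pT) pB))) (smul2 (-1) (smul2 4 (mul2 (mul2 pT pY) pZ))))), add2
    (smul2 (-1) (smul2 2 (mul2 (mul2 pT pY) pV))) (add2 (smul2 (-1) (smul2 2 (mul2 (mul2 pT pT)
    cN))) (add2 (smul2 2 (mul2 (mul2 (mul2 pT pY) pC) pMW)) (add2 (smul2 (-1) (smul2 2 (mul2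
    (mul2 (mul2 pT pT) pC) pMB))) (mul2 (mul2 pT (add2 pT pY)) pMB)))), smul2 2 (mul2 (mul2 pT
    pT) pB)]

def M0 : List P2 := add3 (add3 (add3 (add3 (add3 (add3 (add3 (add3 ([smul2 4 (mul2 (mul2 pR pY)
    pY)]) (mul3 ([smul2 2 (mul2 (mul2 pT pY) pV)]) (add3 ([smul2 2 p1]) (mul3 [smul2 (-1) p1]
    ([[], smul2 2 p1]))))) (mul3 ([smul2 2 (mul2 (mul2 pT pT) cN)]) (add3 ([[], smul2 2 p1])
    (mul3 [smul2 (-1) p1] (mul3 ([smul2 2 p1]) (mul3 pu3 pu3)))))) (mul3 ([smul2 2 (mul2 (mul2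
    (mul2 pT pY) pC) pMW)]) ([[], smul2 2 p1]))) (mul3 [smul2 (-1) p1] (mul3 ([smul2 4 (mul2
    (mul2 (mul2 pT pT) pC) pMH)]) (mul3 pu3 pu3)))) (mul3 [smul2 (-1) p1] (mul3 ([mul2 pY pMW])
    (mul3 ([smul2 2 (add2 pT pY)]) pi3)))) (mul3 (mul3 ([mul2 pT pMH]) pu3) (mul3 ([smul2 2 (add2
    pT pY)]) pi3))) (mul3 [smul2 (-1) p1] (mul3 (mul3 ([smul2 2 (mul2 (mul2 pT pT) pB)]) pu3)
    ([smul2 2 p1, smul2 (-2) p1])))) (add3 (mul3 ([smul2 4 (mul2 (mul2 pY pY) pW)]) pu3) (mul3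
    [smul2 (-1) p1] (mul3 (mul3 ([smul2 2 (mul2 (mul2 pT pY) pB)]) pu3) pu3)))

def M1 : List P2 := add3 (add3 (add3 (add3 (add3 (add3 (add3 (add3 ([smul2 4 (mul2 (mul2 pR pY)
    pY)]) (mul3 ([smul2 2 (mul2 (mul2 pT pY) pV)]) (add3 ([smul2 2 p1]) (mul3 [smul2 (-1) p1]
    ([p1, [], p1]))))) (mul3 ([smul2 2 (mul2 (mul2 pT pT) cN)]) (add3 ([p1, [], p1]) (mul3 [smul2
    (-1) p1] (mul3 ([smul2 2 p1]) (mul3 pu3 pu3)))))) (mul3 ([smul2 2 (mul2 (mul2 (mul2 pT pY)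
    pC) pMW)]) ([p1, [], p1]))) (mul3 [smul2 (-1) p1] (mul3 ([smul2 4 (mul2 (mul2 (mul2 pT pT)
    pC) pMH)]) (mul3 pu3 pu3)))) (mul3 [smul2 (-1) p1] (mul3 ([mul2 pY pMW]) (mul3 ([smul2 2
    (add2 pT pY)]) pi3)))) (mul3 (mul3 ([mul2 pT pMH]) pu3) (mul3 ([smul2 2 (add2 pT pY)]) pi3)))
    (mul3 [smul2 (-1) p1] (mul3 (mul3 ([smul2 2 (mul2 (mul2 pT pT) pB)]) pu3) pw3))) (add3 (mul3
    ([smul2 4 (mul2 (mul2 pY pY) pW)]) pu3) (mul3 [smul2 (-1) p1] (mul3 ([smul2 2 (mul2 (mul2 pT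
    pY) pB)]) pu3)))

def N0 : List P2 := add3 (add3 (add3 (add3 (add3 (add3 (add3 (add3 ([smul2 4 (mul2 (mul2 pR pY)
    pY)]) (mul3 ([smul2 2 (mul2 (mul2 pT pY) pV)]) (add3 ([smul2 2 p1]) (mul3 [smul2 (-1) p1]
    ([[], smul2 2 p1]))))) (mul3 ([smul2 2 (mul2 (mul2 pT pT) cN)]) (add3 ([[], smul2 2 p1])
    (mul3 [smul2 (-1) p1] (mul3 ([smul2 2 p1]) (mul3 pu3 pu3)))))) (mul3 ([smul2 2 (mul2 (mul2
    (mul2 pT pY) pC) pMW)]) ([[], smul2 2 p1]))) (mul3 [smul2 (-1) p1] (mul3 ([smul2 4 (mul2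
    (mul2 (mul2 pT pT) pC) pMH)]) (mul3 pu3 pu3)))) (mul3 [smul2 (-1) p1] (mul3 ([mul2 pY pMW])
    (add3 ([smul2 4 pY]) (mul3 ([smul2 4 pT]) pu3))))) (mul3 (mul3 ([mul2 pT pMH]) pu3) (add3
    ([smul2 4 pY]) (mul3 ([smul2 4 pT]) pu3)))) (mul3 [smul2 (-1) p1] (mul3 (mul3 ([smul2 2 (mul2
    (mul2 pT pT) pB)]) pu3) ([smul2 2 p1, smul2 (-2) p1])))) (add3 (mul3 ([smul2 4 (mul2 (mul2 pY
    pY) pW)]) pu3) (mul3 [smul2 (-1) p1] (mul3 (mul3 ([smul2 2 (mul2 (mul2 pT pY) pB)]) pu3)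
    pu3)))

def N1 : List P2 := add3 (add3 (add3 (add3 (add3 (add3 (add3 (add3 ([smul2 4 (mul2 (mul2 pR pY)
    pY)]) (mul3 ([smul2 2 (mul2 (mul2 pT pY) pV)]) (add3 ([smul2 2 p1]) (mul3 [smul2 (-1) p1]
    ([p1, [], p1]))))) (mul3 ([smul2 2 (mul2 (mul2 pT pT) cN)]) (add3 ([p1, [], p1]) (mul3 [smul2
    (-1) p1] (mul3 ([smul2 2 p1]) (mul3 pu3 pu3)))))) (mul3 ([smul2 2 (mul2 (mul2 (mul2 pT pY)
    pC) pMW)]) ([p1, [], p1]))) (mul3 [smul2 (-1) p1] (mul3 ([smul2 4 (mul2 (mul2 (mul2 pT pT)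
    pC) pMH)]) (mul3 pu3 pu3)))) (mul3 [smul2 (-1) p1] (mul3 ([mul2 pY pMW]) (add3 ([smul2 4 pY])
    (mul3 (mul3 ([pT]) pi3) pi3))))) (mul3 (mul3 ([mul2 pT pMH]) pu3) (add3 ([smul2 4 pY]) (mul3
    (mul3 ([pT]) pi3) pi3)))) (mul3 [smul2 (-1) p1] (mul3 (mul3 ([smul2 2 (mul2 (mul2 pT pT)
    pB)]) pu3) pw3))) (add3 (mul3 ([smul2 4 (mul2 (mul2 pY pY) pW)]) pu3) (mul3 [smul2 (-1) p1]
    (mul3 ([smul2 2 (mul2 (mul2 pT pY) pB)]) pu3)))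

def O1a : List P2 := add3 (add3 (add3 (mul3 (mul3 pw3 pw3) (add3 ([mul2 (mul2 pc20 (mul2 py py))
    (mul2 py py)]) (mul3 pw3 ([mul2 (mul2 (mul2 pc30 (mul2 py py)) py) pG])))) (mul3 [smul2 (-1)
    p1] (mul3 pu3 (add3 (add3 ([mul2 (mul2 pc01 (mul2 py py)) (mul2 py py)]) (mul3 pw3 ([mul2
    (mul2 (mul2 pc11 (mul2 py py)) py) pG]))) (mul3 (mul3 pw3 pw3) ([mul2 (mul2 (mul2 pc30 (mul2
    py py)) pG) pG])))))) (mul3 (mul3 pu3 pu3) ([mul2 (mul2 (mul2 pc02 (mul2 py py)) pG) pG])))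
    (mul3 (mul3 (mul3 pu3 (add3 ([py]) (mul3 [smul2 (-1) p1] (mul3 ([pG]) pu3)))) (add3 ([smul2 2
    py]) (mul3 [smul2 (-1) p1] (mul3 ([pG]) pu3)))) ([mul2 (add2 py pG) (add2 (mul2 (add2 (smul2
    2 py) pG) pEE) (mul2 py pBB))]))

def O1b : List P2 := add3 (add3 (add3 (mul3 (mul3 (mul3 ([ph]) pu3) (mul3 ([ph]) pu3)) (add3
    ([mul2 (mul2 pc20 (mul2 py py)) (mul2 py py)]) (mul3 [smul2 (-1) p1] (mul3 (mul3 ([ph]) pu3)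
    ([mul2 (mul2 pc30 (mul2 py py)) py]))))) (mul3 [smul2 (-1) p1] (mul3 (mul3 ([mul2 (mul2 py
    py) pG]) (add3 ([pG]) (mul3 ([ph]) pu3))) (add3 (add3 ([mul2 pc01 (mul2 py py)]) (mul3 [smul2
    (-1) p1] (mul3 (mul3 ([ph]) pu3) ([mul2 pc11 py])))) (mul3 (mul3 (mul3 ([ph]) pu3) (mul3
    ([ph]) pu3)) ([pc30])))))) (mul3 (mul3 ([mul2 (mul2 (mul2 (mul2 py py) pc02) pG) pG]) (add3
    ([pG]) (mul3 ([ph]) pu3))) (add3 ([pG]) (mul3 ([ph]) pu3)))) (mul3 (mul3 (mul3 ([mul2 (mul2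
    (mul2 pG ph) (add2 py pG)) (add2 (mul2 (add2 (smul2 2 py) pG) pEE) (mul2 py pBB))]) (add3
    ([pG]) (mul3 ([ph]) pu3))) pw3) (add3 ([add2 (smul2 2 py) (smul2 (-1) pG)]) (mul3 [smul2 (-1)
    p1] (mul3 ([ph]) pu3))))

def O2 : List P2 := add3 (add3 (mul3 ([smul2 4 k1, smul2 2 kc, kcc]) ([smul2 30 pY])) (mul3
    ([smul2 2 kc, add2 (smul2 2 kcc) (smul2 4 kp), smul2 2 kcp, kccp]) ([add2 (smul2 25 pY)
    (smul2 9 pT)]))) (mul3 ([kcc, add2 (smul2 2 kcp) kccp, add2 (smul2 2 kccp) (smul2 4 kpp)])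
    ([smul2 30 pT]))

end Vale.Agent.P219.D4
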