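import Vale.Agent.P219.D4.Lists

/-! # The certificate in dimension 4: reduced polynomials (generated) -/

namespace Vale.Agent.P219.D4

open Vale.Agent.P219.C5

def S1l : List P2 :=
  [[[.ofNat 0, .ofNat 0, .ofNat 0, .ofNat 0, .ofNat 0, .ofNat 0, .ofNat 0, .ofNat 960, .ofNat
      35424, .ofNat 42336, .ofNat 31936, .ofNat 22464], [.ofNat 0, .ofNat 0, .ofNat 0, .ofNat 0,
      .ofNat 0, .ofNat 0, .ofNat 23580, .ofNat 462342, .ofNat 567486, .ofNat 284000, .ofNat
      204784, .ofNat 41808], [.ofNat 0, .ofNat 0, .ofNat 0, .ofNat 0, .ofNat 0, .ofNat 129510,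
      .ofNat 2432151, .ofNat 3490023, .ofNat 1591476, .ofNat 795136, .ofNat 228888, .negSucc
      623], [.ofNat 0, .ofNat 0, .ofNat 0, .ofNat 0, .ofNat 221550, .ofNat 7295859, .ofNat
      13591845, .ofNat 7032648, .ofNat 1845950, .ofNat 227852, .negSucc 148759, .negSucc 34943],
      [.ofNat 0, .ofNat 0, .ofNat 0, .ofNat 136800, .ofNat 13294830, .ofNat 31719078, .ofNat
      21359217, .ofNat 5936853, .negSucc 1287289, .negSucc 1697663, .negSucc 53071, .negSucc
      1871], [.ofNat 0, .ofNat 0, .ofNat 21600, .ofNat 14852466, .ofNat 44973192, .ofNat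
      40394133, .ofNat 15563643, .negSucc 5595161, .negSucc 6503575, .ofNat 589680, .ofNat 28536,
      .ofNat 7488], [.ofNat 0, .ofNat 0, .ofNat 9958248, .ofNat 39575178, .ofNat 47144283, .ofNat
      22566435, .negSucc 13580897, .negSucc 15152657, .ofNat 2742844, .ofNat 626280, .negSucc
      11231], [.ofNat 0, .ofNat 3693600, .ofNat 21211578, .ofNat 33874677, .ofNat 16513563,
      .negSucc 23402627, .negSucc 24942209, .ofNat 4758420, .ofNat 2442824, .negSucc 109823],
      [.ofNat 583200, .ofNat 6315084, .ofNat 14327172, .ofNat 3329676, .negSucc 27324686,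
      .negSucc 28827650, .ofNat 3393330, .ofNat 4582716, .negSucc 219959], [.ofNat 801900, .ofNat
      3085128, .negSucc 3355397, .negSucc 20567366, .negSucc 22657916, .negSucc 247751, .ofNat
      5048130, .negSucc 230723], [.ofNat 218700, .negSucc 2306555, .negSucc 9428507, .negSucc
      11572451, .negSucc 2002559, .ofNat 3356088, .negSucc 146951], [.negSucc 437399, .negSucc
      2312387, .negSucc 3455243, .negSucc 1245959, .ofNat 1240344, .negSucc 53351], [.negSucc
      218699, .negSucc 463643, .negSucc 259415, .ofNat 198504, .negSucc 8423]]]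

def S2l : List P2 :=
  [[[.ofNat 0, .ofNat 0, .ofNat 0, .ofNat 0, .ofNat 0, .ofNat 0, .ofNat 0, .ofNat 480, .ofNat
      17712, .ofNat 73968, .ofNat 268544, .ofNat 118656, .negSucc 31935, .negSucc 22463], [.ofNat
      0, .ofNat 0, .ofNat 0, .ofNat 0, .ofNat 0, .ofNat 0, .ofNat 7740, .ofNat 204150, .ofNat
      796698, .ofNat 2813398, .ofNat 1464174, .negSucc 135695, .negSucc 210831, .negSucc 20591],
      [.ofNat 0, .ofNat 0, .ofNat 0, .ofNat 0, .ofNat 0, .ofNat 51390, .ofNat 1043703, .ofNat
      3818355, .ofNat 13024425, .ofNat 7958521, .ofNat 298694, .negSucc 830039, .negSucc 107271,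
      .ofNat 31824], [.ofNat 0, .ofNat 0, .ofNat 0, .ofNat 0, .ofNat 180030, .ofNat 2976525,
      .ofNat 10629060, .ofNat 35374020, .ofNat 25172878, .ofNat 2963571, .negSucc 1872471,
      .negSucc 14435, .ofNat 329144, .ofNat 28080], [.ofNat 0, .ofNat 0, .ofNat 0, .ofNat 243360,
      .ofNat 5410416, .ofNat 20471661, .ofNat 63639669, .ofNat 50857389, .ofNat 7663087, .negSucc
      2897711, .ofNat 730082, .ofNat 1303416, .ofNat 223856, .negSucc 8423], [.ofNat 0, .ofNat 0,
      .ofNat 108000, .ofNat 6413778, .ofNat 27262212, .ofNat 80997984, .ofNat 74829456, .ofNat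
      13141554, .negSucc 5590059, .negSucc 56699, .ofNat 2507768, .ofNat 517068, .negSucc 159435,
      .negSucc 8423], [.ofNat 0, .ofNat 0, .ofNat 4677696, .ofNat 23550012, .ofNat 74953029,
      .ofNat 86153115, .ofNat 21118191, .negSucc 7549022, .negSucc 5189865, .ofNat 435858,
      .negSucc 554681, .negSucc 838421, .negSucc 65987], [.ofNat 0, .ofNat 1846800, .ofNat
      12560562, .ofNat 49783797, .ofNat 75272646, .ofNat 27687921, .negSucc 5573150, .negSucc
      13226882, .negSucc 5487099, .negSucc 3321564, .negSucc 2629680, .negSucc 161729, .ofNat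
      22464], [.ofNat 291600, .ofNat 3850092, .ofNat 22444398, .ofNat 47195901, .ofNat 22011534,
      .negSucc 9700658, .negSucc 22531379, .negSucc 10236893, .negSucc 4242348, .negSucc 4379043,
      .ofNat 182337, .ofNat 41184], [.ofNat 510300, .ofNat 6160536, .ofNat 19981836, .ofNat
      6571044, .negSucc 21091556, .negSucc 29889824, .negSucc 11980517, .negSucc 363125, .negSucc
      3468796, .ofNat 878151, .negSucc 10763], [.ofNat 801900, .ofNat 4931928, .negSucc 3061799,
      .negSucc 23841413, .negSucc 27439391, .negSucc 8564603, .ofNat 7375896, .negSucc 248573,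
      .ofNat 119626, .negSucc 29405], [.ofNat 510300, .negSucc 2842613, .negSucc 14365457,
      .negSucc 14787881, .ofNat 387642, .ofNat 14268216, .ofNat 2872530, .negSucc 2488559, .ofNat
      81666], [.negSucc 619649, .negSucc 4314707, .negSucc 3285791, .ofNat 6554826, .ofNat
      14843436, .ofNat 4297860, .negSucc 4175483, .ofNat 175032], [.negSucc 473849, .ofNat
      380538, .ofNat 5411394, .ofNat 9256698, .ofNat 3390108, .negSucc 3210935, .ofNat 138528],
      [.ofNat 218700, .ofNat 1848744, .ofNat 3195828, .ofNat 1444464, .negSucc 1248767, .ofNat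
      53352], [.ofNat 218700, .ofNat 463644, .ofNat 259416, .negSucc 198503, .ofNat 8424]]]

def S3l : List P2 :=
  [[[.ofNat 0, .ofNat 0, .ofNat 0, .ofNat 0, .ofNat 0, .ofNat 0, .ofNat 0, .ofNat 240, .ofNat
      8856, .ofNat 23064, .ofNat 44560, .ofNat 720, .negSucc 31935, .negSucc 22463], [.ofNat 0,
      .ofNat 0, .ofNat 0, .ofNat 0, .ofNat 0, .ofNat 0, .ofNat 2520, .ofNat 93228, .ofNat 242928,
      .ofNat 437862, .ofNat 20854, .negSucc 253007, .negSucc 210831, .negSucc 20591], [.ofNat 0,
      .ofNat 0, .ofNat 0, .ofNat 0, .ofNat 0, .ofNat 21240, .ofNat 468324, .ofNat 1127094, .ofNat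
      1799187, .ofNat 91029, .negSucc 776113, .negSucc 755471, .negSucc 107271, .ofNat 31824],
      [.ofNat 0, .ofNat 0, .ofNat 0, .ofNat 0, .ofNat 113100, .ofNat 1286046, .ofNat 2770296,
      .ofNat 4119585, .ofNat 22214, .negSucc 1254584, .negSucc 1065483, .ofNat 55764, .ofNat
      329144, .ofNat 28080], [.ofNat 0, .ofNat 0, .ofNat 0, .ofNat 180000, .ofNat 2329800, .ofNat
      5482836, .ofNat 6720963, .negSucc 1712057, .negSucc 1699908, .ofNat 1149858, .ofNat
      1729670, .ofNat 1366128, .ofNat 223856, .negSucc 8423], [.ofNat 0, .ofNat 0, .ofNat 86400,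
      .ofNat 2892204, .ofNat 8281428, .ofNat 9904218, .negSucc 1204766, .ofNat 124464, .ofNat
      7176335, .ofNat 6078042, .ofNat 3314780, .ofNat 576036, .negSucc 159435, .negSucc 8423],
      [.ofNat 0, .ofNat 0, .ofNat 2241972, .ofNat 7723098, .ofNat 12794175, .ofNat 7318875,
      .ofNat 9705936, .ofNat 21129297, .ofNat 16647743, .ofNat 5075568, .negSucc 237997, .negSucc
      862757, .negSucc 65987], [.ofNat 0, .ofNat 923400, .ofNat 4142880, .ofNat 11687274, .ofNat
      15227253, .ofNat 23611422, .ofNat 43881969, .ofNat 37952547, .ofNat 9503933, .negSucc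
      3237626, .negSucc 2807848, .negSucc 173585, .ofNat 22464], [.ofNat 145800, .ofNat 1232496,
      .ofNat 6462180, .ofNat 13420026, .ofNat 28170873, .ofNat 57950400, .ofNat 61147002, .ofNat
      20003568, .negSucc 7367961, .negSucc 5105495, .ofNat 164857, .ofNat 46176], [.ofNat 145800,
      .ofNat 1925046, .ofNat 6581736, .ofNat 19616067, .ofNat 50393730, .ofNat 66604455, .ofNat
      27354837, .negSucc 11204510, .negSucc 5372966, .ofNat 1253163, .negSucc 3275], [.ofNat
      255150, .ofNat 1695168, .ofNat 8409420, .ofNat 30529719, .ofNat 48806679, .ofNat 22633776,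
      .negSucc 12196013, .negSucc 3704699, .ofNat 2004720, .negSucc 71837], [.ofNat 182250,
      .ofNat 2233170, .ofNat 12735252, .ofNat 23472216, .ofNat 11506854, .negSucc 8675507,
      .negSucc 1876997, .ofNat 1555842, .negSucc 67157], [.ofNat 291600, .ofNat 3388392, .ofNat
      6856758, .ofNat 3294306, .negSucc 3571271, .negSucc 645011, .ofNat 624384, .negSucc 26675],
      [.ofNat 437400, .ofNat 927288, .ofNat 409482, .negSucc 628829, .negSucc 112859, .ofNat
      99252, .negSucc 4211]]]

def S4l : List P2 :=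
  [[[.ofNat 0, .ofNat 0, .ofNat 0, .ofNat 0, .ofNat 0, .ofNat 0, .ofNat 0, .ofNat 960, .ofNat
      35424, .ofNat 120096, .ofNat 357664, .ofNat 120096, .negSucc 95807, .negSucc 67391],
      [.ofNat 0, .ofNat 0, .ofNat 0, .ofNat 0, .ofNat 0, .ofNat 0, .ofNat 10080, .ofNat 372912,
      .ofNat 1272132, .ofNat 3716322, .ofNat 1524874, .negSucc 641087, .negSucc 632495, .negSucc
      61775], [.ofNat 0, .ofNat 0, .ofNat 0, .ofNat 0, .ofNat 0, .ofNat 84960, .ofNat 1873296,
      .ofNat 5949426, .ofNat 16757169, .ofNat 8290323, .negSucc 1199973, .negSucc 2327255,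
      .negSucc 321815, .ofNat 95472], [.ofNat 0, .ofNat 0, .ofNat 0, .ofNat 0, .ofNat 452400,
      .ofNat 5144184, .ofNat 15132114, .ofNat 43755303, .ofNat 25885214, .ofNat 792677, .negSucc
      3926239, .ofNat 107076, .ofNat 987432, .ofNat 84240], [.ofNat 0, .ofNat 0, .ofNat 0, .ofNat
      720000, .ofNat 9319200, .ofNat 29323404, .ofNat 77642946, .ofNat 48733353, .ofNat 5304707,
      .negSucc 257655, .ofNat 4005214, .ofNat 3998856, .ofNat 671568, .negSucc 25271], [.ofNat 0,
      .ofNat 0, .ofNat 345600, .ofNat 11568816, .ofNat 42459312, .ofNat 103954434, .ofNat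
      76794954, .ofNat 17644962, .ofNat 9178918, .ofNat 10196588, .ofNat 8974504, .ofNat 1649172,
      .negSucc 478307, .negSucc 25271], [.ofNat 0, .ofNat 0, .ofNat 8967888, .ofNat 39253392,
      .ofNat 107312640, .ofNat 111932166, .ofNat 51878628, .ofNat 35460408, .ofNat 21453580,
      .ofNat 9975446, .negSucc 860261, .negSucc 2533361, .negSucc 197963], [.ofNat 0, .ofNat
      3693600, .ofNat 21663720, .ofNat 80217180, .ofNat 120257574, .ofNat 90030519, .ofNat
      80041989, .ofNat 46477038, .ofNat 12449344, .negSucc 7523394, .negSucc 8189978, .negSucc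
      499541, .ofNat 67392], [.ofNat 583200, .ofNat 6776784, .ofNat 39212316, .ofNat 84915342,
      .ofNat 87034689, .ofNat 92406462, .ofNat 69223959, .ofNat 27614730, .negSucc 10839256,
      .negSucc 14578395, .ofNat 472283, .ofNat 126048], [.ofNat 874800, .ofNat 11088576, .ofNat
      38125944, .ofNat 44889228, .ofNat 54753393, .ofNat 63496227, .ofNat 39602880, .negSucc
      6136433, .negSucc 14437062, .ofNat 2648373, .negSucc 6083], [.ofNat 1458000, .ofNat
      9554760, .ofNat 9788688, .ofNat 14080968, .ofNat 37314291, .ofNat 37767621, .ofNat 6914754,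
      .negSucc 7660985, .ofNat 1466282, .negSucc 63257], [.ofNat 1020600, .negSucc 375677,
      .negSucc 1249883, .ofNat 16711551, .ofNat 31873272, .ofNat 22286163, .ofNat 911862,
      .negSucc 4190315, .ofNat 167310], [.negSucc 400949, .negSucc 1080863, .ofNat 7550442,
      .ofNat 23582817, .ofNat 27107481, .ofNat 6665028, .negSucc 8121797, .ofNat 352404],
      [.negSucc 36449, .ofNat 2692926, .ofNat 12463038, .ofNat 18127026, .ofNat 6415716, .negSucc
      6421871, .ofNat 277056], [.ofNat 437400, .ofNat 3697488, .ofNat 6391656, .ofNat 2888928,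
      .negSucc 2497535, .ofNat 106704], [.ofNat 437400, .ofNat 927288, .ofNat 518832, .negSucc
      397007, .ofNat 16848]]]

def S5l : List P2 :=
  [[[.ofNat 0, .ofNat 0, .ofNat 0, .ofNat 0, .ofNat 0, .ofNat 0, .ofNat 0, .ofNat 0, .ofNat
      52800, .ofNat 252576, .ofNat 107424, .negSucc 31935, .negSucc 22463], [.ofNat 0, .ofNat 0,
      .ofNat 0, .ofNat 0, .ofNat 0, .ofNat 0, .ofNat 0, .ofNat 493500, .ofNat 2399190, .ofNat
      1241838, .negSucc 114367, .negSucc 188367, .negSucc 20591], [.ofNat 0, .ofNat 0, .ofNat 0,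
      .ofNat 0, .ofNat 0, .ofNat 0, .ofNat 1995690, .ofNat 9911685, .ofNat 6229779, .ofNat
      284670, .negSucc 659767, .negSucc 86679, .ofNat 31824], [.ofNat 0, .ofNat 0, .ofNat 0,
      .ofNat 0, .ofNat 0, .ofNat 4611180, .ofNat 23486700, .ofNat 17748651, .ofNat 2056809,
      .negSucc 1381735, .ofNat 55396, .ofNat 297320, .ofNat 28080], [.ofNat 0, .ofNat 0, .ofNat
      0, .ofNat 0, .ofNat 6824220, .ofNat 35480784, .ofNat 31456074, .ofNat 3816708, .negSucc
      2375991, .ofNat 641782, .ofNat 1021072, .ofNat 195776, .negSucc 8423], [.ofNat 0, .ofNat 0,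
      .ofNat 0, .ofNat 6624360, .ofNat 36659868, .ofNat 39490500, .ofNat 4526124, .negSucc
      5181161, .negSucc 320625, .ofNat 1503064, .ofNat 326908, .negSucc 151011, .negSucc 8423],
      [.ofNat 0, .ofNat 0, .ofNat 4120200, .ofNat 27426132, .ofNat 38943852, .ofNat 8837094,
      .negSucc 4937825, .negSucc 2665505, .negSucc 615165, .negSucc 803725, .negSucc 678049,
      .negSucc 57563], [.ofNat 0, .ofNat 1555200, .ofNat 14934348, .ofNat 29801214, .ofNat
      16738443, .ofNat 4999329, .ofNat 483780, .negSucc 1422401, .negSucc 1375914, .negSucc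
      1454614, .negSucc 82325, .ofNat 22464], [.ofNat 291600, .ofNat 5283792, .ofNat 15924492,
      .ofNat 17809254, .ofNat 15133671, .ofNat 10370415, .ofNat 7285878, .ofNat 5556096, .ofNat
      393347, .ofNat 556063, .ofNat 23712], [.ofNat 874800, .ofNat 4964976, .ofNat 9851868,
      .ofNat 14249628, .ofNat 16566678, .ofNat 20797038, .ofNat 21127872, .ofNat 7825344, .ofNat
      1805552, .negSucc 71915], [.ofNat 583200, .ofNat 2597184, .ofNat 6696270, .ofNat 13215933,
      .ofNat 26215383, .ofNat 33536616, .ofNat 16281510, .ofNat 1657602, .negSucc 139697],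
      [.ofNat 255150, .ofNat 1512918, .ofNat 6358500, .ofNat 19930437, .ofNat 31163061, .ofNat
      17525796, .negSucc 530945, .negSucc 54755], [.ofNat 182250, .ofNat 1941570, .ofNat 9674910,
      .ofNat 17894124, .ofNat 10939926, .negSucc 2150723, .ofNat 55224], [.ofNat 291600, .ofNat
      2950992, .ofNat 6038820, .ofNat 3699846, .negSucc 1576349, .ofNat 60372], [.ofNat 437400,
      .ofNat 927288, .ofNat 518832, .negSucc 397007, .ofNat 16848]]]

def S6bl : List P2 :=
  [[[.ofNat 0, .ofNat 0, .ofNat 0, .ofNat 0, .ofNat 0, .ofNat 120, .ofNat 4428, .ofNat 5292,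
      .ofNat 3992, .ofNat 2808], [.ofNat 0, .ofNat 0, .ofNat 0, .ofNat 0, .ofNat 2310, .ofNat
      44511, .ofNat 56403, .ofNat 28920, .ofNat 20952, .ofNat 5304], [.ofNat 0, .ofNat 0, .ofNat
      0, .ofNat 9120, .ofNat 172380, .ofNat 269706, .ofNat 136140, .ofNat 64918, .ofNat 24420,
      .ofNat 1716], [.ofNat 0, .ofNat 0, .ofNat 7200, .ofNat 362598, .ofNat 796362, .ofNat
      493302, .ofNat 134700, .ofNat 27278, .negSucc 1791, .negSucc 1247], [.ofNat 0, .ofNat 0,
      .ofNat 408708, .ofNat 1252398, .ofNat 1145475, .ofNat 453051, .negSucc 21080, .negSucc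
      81238, .ofNat 1248], [.ofNat 0, .ofNat 226800, .ofNat 1043082, .ofNat 1471551, .ofNat
      940665, .ofNat 4824, .negSucc 228281, .ofNat 9360], [.ofNat 48600, .ofNat 443232, .ofNat
      995472, .ofNat 942798, .ofNat 127194, .negSucc 268109, .ofNat 11934], [.ofNat 72900, .ofNat
      324648, .ofNat 447084, .ofNat 135600, .negSucc 151583, .ofNat 6552], [.ofNat 36450, .ofNat
      77274, .ofNat 43236, .negSucc 33083, .ofNat 1404]]]

def S6ul : List P2 :=
  [[[.ofNat 0, .ofNat 0, .ofNat 0, .ofNat 0, .ofNat 0, .ofNat 1680, .ofNat 9000, .ofNat 4680],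
      [.ofNat 0, .ofNat 0, .ofNat 0, .ofNat 0, .ofNat 9240, .ofNat 51180, .ofNat 34740, .ofNat
      4680], [.ofNat 0, .ofNat 0, .ofNat 0, .ofNat 20130, .ofNat 116133, .ofNat 105177, .ofNat
      29242, .ofNat 1638], [.ofNat 0, .ofNat 0, .ofNat 23100, .ofNat 137868, .ofNat 168321,
      .ofNat 81738, .ofNat 17259, .ofNat 1794], [.ofNat 0, .ofNat 16200, .ofNat 94326, .ofNat
      155610, .ofNat 140191, .ofNat 61022, .ofNat 2243, .negSucc 311], [.ofNat 5400, .ofNat
      39798, .ofNat 108558, .ofNat 160507, .ofNat 86196, .negSucc 12294, .ofNat 156], [.ofNat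
      9450, .ofNat 56484, .ofNat 102324, .ofNat 56833, .negSucc 22908, .ofNat 858], [.ofNat
      12150, .ofNat 25758, .ofNat 14412, .negSucc 11027, .ofNat 468]]]

def S9l : List P2 :=
  [[[.ofNat 0, .ofNat 0, .ofNat 0, .ofNat 0, .ofNat 0, .ofNat 0, .ofNat 0, .ofNat 0, .ofNat
      54000, .ofNat 296856, .ofNat 172824, .ofNat 44560, .ofNat 720, .negSucc 31935, .negSucc
      22463], [.ofNat 0, .ofNat 0, .ofNat 0, .ofNat 0, .ofNat 0, .ofNat 0, .ofNat 0, .ofNat
      513000, .ofNat 2928132, .ofNat 2227440, .ofNat 715886, .ofNat 64694, .negSucc 220351,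
      .negSucc 220303, .negSucc 43055], [.ofNat 0, .ofNat 0, .ofNat 0, .ofNat 0, .ofNat 0, .ofNat
      0, .ofNat 2107920, .ofNat 12568248, .ofNat 12258546, .ofNat 4582101, .ofNat 583045,
      .negSucc 398459, .negSucc 729423, .negSucc 306983, .negSucc 11231], [.ofNat 0, .ofNat 0,
      .ofNat 0, .ofNat 0, .ofNat 0, .ofNat 4905240, .ofNat 30575364, .ofNat 37747152, .ofNat
      16344726, .ofNat 2243492, .ofNat 391374, .negSucc 367599, .negSucc 532691, .negSucc 9663,
      .ofNat 16848], [.ofNat 0, .ofNat 0, .ofNat 0, .ofNat 0, .ofNat 6947310, .ofNat 46643943,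
      .ofNat 73753101, .ofNat 37369587, .ofNat 3665059, .ofNat 1573162, .ofNat 3953680, .ofNat
      1557466, .ofNat 493996, .ofNat 186112, .ofNat 8424], [.ofNat 0, .ofNat 0, .ofNat 0, .ofNat
      6311880, .ofNat 46054860, .ofNat 92981304, .ofNat 59299011, .ofNat 8701377, .ofNat 1218755,
      .ofNat 10226559, .ofNat 8953232, .ofNat 3396330, .ofNat 837752, .ofNat 35100], [.ofNat 0,
      .ofNat 0, .ofNat 3882600, .ofNat 29179998, .ofNat 73991142, .ofNat 64063170, .ofNat
      19959342, .ofNat 6036894, .ofNat 17814066, .ofNat 21235328, .ofNat 9917802, .ofNat 2296804,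
      .ofNat 109158, .negSucc 22463], [.ofNat 0, .ofNat 1555200, .ofNat 11642832, .ofNat
      36542880, .ofNat 44023986, .ofNat 23999034, .ofNat 17831103, .ofNat 29220291, .ofNat
      37831492, .ofNat 22434730, .ofNat 4520159, .negSucc 93834, .negSucc 23711], [.ofNat 291600,
      .ofNat 2950992, .ofNat 11215098, .ofNat 18865467, .ofNat 17668341, .ofNat 20935299, .ofNat
      32350689, .ofNat 51517272, .ofNat 39707726, .ofNat 8485602, .negSucc 373633, .ofNat 26988],
      [.ofNat 437400, .ofNat 2093688, .ofNat 5961762, .ofNat 10711278, .ofNat 14109777, .ofNat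
      22742655, .ofNat 45883743, .ofNat 45486837, .ofNat 13511622, .ofNat 90372, .negSucc 2573],
      [.ofNat 218700, .ofNat 1630044, .ofNat 5208624, .ofNat 8277336, .ofNat 12343794, .ofNat
      25071693, .ofNat 31584807, .ofNat 13750128, .ofNat 341070, .negSucc 64115], [.ofNat 218700,
      .ofNat 1630044, .ofNat 3979854, .ofNat 5608836, .ofNat 8928984, .ofNat 13096644, .ofNat
      7900962, .negSucc 272363, .negSucc 25739], [.ofNat 218700, .ofNat 1046844, .ofNat 1787400,
      .ofNat 2277864, .ofNat 3045132, .ofNat 2338758, .negSucc 517661, .ofNat 15444], [.ofNat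
      109350, .ofNat 231822, .ofNat 348408, .ofNat 364392, .ofNat 263628, .negSucc 198503, .ofNat
      8424]]]

def S10l : List P2 :=
  [[[.ofNat 0, .ofNat 0, .ofNat 0, .ofNat 0, .ofNat 0, .ofNat 0, .ofNat 720, .ofNat 26568, .ofNat
      72072, .ofNat 239952, .ofNat 129168], [.ofNat 0, .ofNat 0, .ofNat 0, .ofNat 0, .ofNat 0,
      .ofNat 14940, .ofNat 306198, .ofNat 742518, .ofNat 2270016, .ofNat 1410072, .ofNat 127296],
      [.ofNat 0, .ofNat 0, .ofNat 0, .ofNat 0, .ofNat 75510, .ofNat 1419939, .ofNat 3400065,
      .ofNat 9498978, .ofNat 6745524, .ofNat 954408, .negSucc 111383], [.ofNat 0, .ofNat 0,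
      .ofNat 0, .ofNat 125280, .ofNat 3651498, .ofNat 9497547, .ofNat 23145291, .ofNat 18339480,
      .ofNat 2893980, .negSucc 1028171, .negSucc 102023], [.ofNat 0, .ofNat 0, .ofNat 64800,
      .ofNat 5590350, .ofNat 16520868, .ofNat 35582733, .ofNat 31366467, .ofNat 4349652, .negSucc
      4376825, .negSucc 976739, .negSucc 17783], [.ofNat 0, .ofNat 0, .ofNat 4974372, .ofNat
      17371584, .ofNat 34458435, .ofNat 33328350, .ofNat 1645680, .negSucc 11111954, .negSucc
      4446749, .negSucc 404363, .negSucc 25271], [.ofNat 0, .ofNat 2332800, .ofNat 10750158,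
      .ofNat 19473723, .ofNat 18861192, .negSucc 5975174, .negSucc 20010098, .negSucc 12969152,
      .negSucc 2511905, .negSucc 217619], [.ofNat 437400, .ofNat 3648888, .ofNat 4900986, .ofNat
      2249343, .negSucc 12038867, .negSucc 27012170, .negSucc 25179236, .negSucc 8029478,
      .negSucc 717245, .ofNat 22464], [.ofNat 510300, .negSucc 278963, .negSucc 3089177, .negSucc
      10718972, .negSucc 25779581, .negSucc 32246762, .negSucc 14742410, .negSucc 906044, .ofNat
      71136], [.negSucc 255149, .negSucc 1512917, .negSucc 5202629, .negSucc 16638884, .negSucc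
      27122282, .negSucc 15790757, .ofNat 82068, .ofNat 59436], [.negSucc 182249, .negSucc
      1358369, .negSucc 7336655, .negSucc 14642855, .negSucc 9665351, .ofNat 1219266, .negSucc
      14741], [.negSucc 182249, .negSucc 2135969, .negSucc 4672727, .negSucc 3107321, .ofNat
      1051218, .negSucc 37907], [.negSucc 328049, .negSucc 695465, .negSucc 389123, .ofNat
      297756, .negSucc 12635], [], []],
    [[.ofNat 0, .ofNat 0, .ofNat 0, .ofNat 0, .ofNat 0, .ofNat 0, .ofNat 0, .ofNat 0, .ofNat
      24960, .ofNat 73152, .negSucc 9791, .negSucc 63871, .negSucc 44927], [.ofNat 0, .ofNat 0,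
      .ofNat 0, .ofNat 0, .ofNat 0, .ofNat 0, .ofNat 0, .ofNat 220920, .ofNat 613740, .negSucc
      82403, .negSucc 453375, .negSucc 376735, .negSucc 41183], [.ofNat 0, .ofNat 0, .ofNat 0,
      .ofNat 0, .ofNat 0, .ofNat 0, .ofNat 827220, .ofNat 2136714, .negSucc 372185, .negSucc
      1280803, .negSucc 1166031, .negSucc 173359, .ofNat 63648], [.ofNat 0, .ofNat 0, .ofNat 0,
      .ofNat 0, .ofNat 0, .ofNat 1728720, .ofNat 3984708, .negSucc 1445741, .negSucc 2188733,
      .negSucc 1211167, .ofNat 258056, .ofNat 594640, .ofNat 56160], [.ofNat 0, .ofNat 0, .ofNat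
      0, .ofNat 0, .ofNat 2314620, .ofNat 4223682, .negSucc 4931117, .negSucc 4042091, .ofNat
      2310528, .ofNat 3352588, .ofNat 2189408, .ofNat 391552, .negSucc 16847], [.ofNat 0, .ofNat
      0, .ofNat 0, .ofNat 1800360, .ofNat 3579408, .negSucc 5736329, .negSucc 4762181, .ofNat
      9658740, .ofNat 11084148, .ofNat 4619344, .ofNat 786104, .negSucc 302023, .negSucc 16847],
      [.ofNat 0, .ofNat 0, .ofNat 583200, .ofNat 4370652, .ofNat 1514016, .ofNat 5070516, .ofNat
      29279052, .ofNat 31067112, .ofNat 6595380, .negSucc 1354651, .negSucc 1444707, .negSucc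
      115127], [.ofNat 0, .ofNat 0, .ofNat 4521744, .ofNat 7882488, .ofNat 24920190, .ofNat
      66268338, .ofNat 72084312, .ofNat 16933440, .negSucc 6252101, .negSucc 3729373, .negSucc
      219563, .ofNat 44928], [.ofNat 0, .ofNat 2332800, .ofNat 6607980, .ofNat 35276310, .ofNat
      93259800, .ofNat 114133932, .ofNat 41329578, .negSucc 8200307, .negSucc 3175481, .ofNat
      880446, .ofNat 59904], [.ofNat 437400, .ofNat 2482488, .ofNat 25959852, .ofNat 82945026,
      .ofNat 115724754, .ofNat 56569806, .negSucc 3797333, .ofNat 4339368, .ofNat 3845448,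
      .negSucc 115127], [.ofNat 291600, .ofNat 10338192, .ofNat 46038780, .ofNat 71970282, .ofNat
      43210098, .ofNat 2763012, .ofNat 12609672, .ofNat 6170304, .negSucc 320579], [.ofNat
      1822500, .ofNat 14361300, .ofNat 24781464, .ofNat 17089866, .ofNat 4948470, .ofNat
      12777780, .ofNat 5370036, .negSucc 309815], [.ofNat 1968300, .ofNat 3395196, .ofNat
      2109888, .ofNat 2716146, .ofNat 6442866, .ofNat 2567628, .negSucc 148823], [.negSucc
      145799, .negSucc 309095, .ofNat 574452, .ofNat 1329750, .ofNat 524178, .negSucc 29483], []],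
    [[.ofNat 0, .ofNat 0, .ofNat 0, .ofNat 0, .ofNat 0, .ofNat 0, .negSucc 719, .negSucc 26567,
      .negSucc 44231, .negSucc 60527, .negSucc 11951, .ofNat 31936, .ofNat 22464], [.ofNat 0,
      .ofNat 0, .ofNat 0, .ofNat 0, .ofNat 0, .negSucc 14939, .negSucc 306197, .negSucc 469937,
      .negSucc 484565, .negSucc 85829, .ofNat 211712, .ofNat 188368, .ofNat 20592], [.ofNat 0,
      .ofNat 0, .ofNat 0, .ofNat 0, .negSucc 75509, .negSucc 1419938, .negSucc 2231594, .negSucc
      1724006, .negSucc 143558, .ofNat 611066, .ofNat 617648, .ofNat 86680, .negSucc 31823],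
      [.ofNat 0, .ofNat 0, .ofNat 0, .negSucc 125279, .negSucc 3651497, .negSucc 6615086,
      .negSucc 3643298, .ofNat 854913, .ofNat 1351563, .ofNat 857604, .negSucc 100635, .negSucc
      297319, .negSucc 28079], [.ofNat 0, .ofNat 0, .negSucc 64799, .negSucc 5590349, .negSucc
      12011267, .negSucc 4325630, .ofNat 5020725, .ofNat 3509148, .negSucc 309693, .negSucc
      1734065, .negSucc 1150551, .negSucc 195775, .ofNat 8424], [.ofNat 0, .ofNat 0, .negSucc
      4974371, .negSucc 12547583, .negSucc 1377974, .ofNat 11898480, .ofNat 7642626, .negSucc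
      3727946, .negSucc 6958023, .negSucc 2711915, .negSucc 433923, .ofNat 151012, .ofNat 8424],
      [.ofNat 0, .negSucc 2332799, .negSucc 7213157, .ofNat 3581757, .ofNat 18568644, .ofNat
      9741753, .negSucc 14206778, .negSucc 20763464, .negSucc 4698639, .ofNat 768546, .ofNat
      766658, .ofNat 57564], [.negSucc 437399, .negSucc 2093687, .ofNat 5511618, .ofNat 19669383,
      .ofNat 3857121, .negSucc 34256837, .negSucc 46421294, .negSucc 10326362, .ofNat 5593433,
      .ofNat 2252295, .ofNat 137238, .negSucc 22463], [.negSucc 218699, .ofNat 3229956, .ofNat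
      12405690, .negSucc 6748082, .negSucc 52346546, .negSucc 71516753, .negSucc 19301288, .ofNat
      14662449, .ofNat 3497693, .negSucc 324382, .negSucc 36191], [.ofNat 692550, .ofNat 3995406,
      .negSucc 10905353, .negSucc 52056512, .negSucc 72035792, .negSucc 19982009, .ofNat
      24843138, .ofNat 3426540, .negSucc 2039895, .ofNat 43212], [.ofNat 473850, .negSucc
      6382637, .negSucc 32005853, .negSucc 44111492, .negSucc 7329362, .ofNat 29554338, .ofNat
      3686580, .negSucc 4512701, .ofNat 180882], [.negSucc 1385099, .negSucc 10712411, .negSucc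
      13750235, .ofNat 5947893, .ofNat 25163373, .ofNat 4785924, .negSucc 5900981, .ofNat
      255060], [.negSucc 1457999, .negSucc 758159, .ofNat 7954146, .ofNat 14880222, .ofNat
      4509696, .negSucc 4718351, .ofNat 204048], [.ofNat 437400, .ofNat 3260088, .ofNat 5464368,
      .ofNat 2370096, .negSucc 2100527, .ofNat 89856], [.ofNat 437400, .ofNat 927288, .ofNat
      518832, .negSucc 397007, .ofNat 16848]],
    [[], [], [.ofNat 0, .ofNat 0, .ofNat 0, .ofNat 0, .ofNat 0, .ofNat 0, .negSucc 239, .negSucc
      8855, .negSucc 10583, .negSucc 7983, .negSucc 5615], [.ofNat 0, .ofNat 0, .ofNat 0, .ofNat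
      0, .ofNat 0, .negSucc 4979, .negSucc 102065, .negSucc 119825, .negSucc 59231, .negSucc
      42343, .negSucc 4991], [.ofNat 0, .ofNat 0, .ofNat 0, .ofNat 0, .negSucc 25169, .negSucc
      473312, .negSucc 606074, .negSucc 221501, .negSucc 112291, .negSucc 6439, .ofNat 12792],
      [.ofNat 0, .ofNat 0, .ofNat 0, .negSucc 41759, .negSucc 1217165, .negSucc 1918568, .negSucc
      584336, .ofNat 14712, .ofNat 124108, .ofNat 105532, .ofNat 10920], [.ofNat 0, .ofNat 0,
      .negSucc 21599, .negSucc 1863449, .negSucc 3626375, .negSucc 895700, .ofNat 691137, .ofNat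
      654840, .ofNat 418546, .ofNat 17236, .negSucc 9671], [.ofNat 0, .ofNat 0, .negSucc 1658123,
      .negSucc 3896387, .negSucc 268478, .ofNat 2453922, .ofNat 2050200, .ofNat 845067, .negSucc
      255193, .negSucc 64435, .negSucc 5927], [.ofNat 0, .negSucc 777599, .negSucc 2314385,
      .ofNat 1301211, .ofNat 5323482, .ofNat 4340637, .ofNat 1082649, .negSucc 1176710, .negSucc
      273205, .negSucc 2811, .ofNat 2496], [.negSucc 145799, .negSucc 697895, .ofNat 2038122,
      .ofNat 6621183, .ofNat 5540454, .ofNat 845985, .negSucc 2633768, .negSucc 688004, .ofNat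
      190318, .ofNat 1248], [.negSucc 72899, .ofNat 1206252, .ofNat 4475898, .ofNat 3791529,
      .negSucc 498233, .negSucc 4101584, .negSucc 1118564, .ofNat 752229, .negSucc 22463],
      [.ofNat 255150, .ofNat 1512918, .ofNat 986094, .negSucc 2090510, .negSucc 4579940, .negSucc
      1353893, .ofNat 1269972, .negSucc 51947], [.ofNat 182250, .negSucc 196829, .negSucc
      2010203, .negSucc 3328541, .negSucc 1169489, .ofNat 1129962, .negSucc 48905], [.negSucc
      109349, .negSucc 815021, .negSucc 1366091, .negSucc 592523, .ofNat 525132, .negSucc 22463],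
      [.negSucc 109349, .negSucc 231821, .negSucc 129707, .ofNat 99252, .negSucc 4211]]]

def S11l : List P2 :=
  [[[.ofNat 0, .ofNat 0, .ofNat 0, .ofNat 0, .ofNat 0, .ofNat 0, .ofNat 6840, .ofNat 40428,
      .ofNat 24012, .ofNat 3992, .ofNat 2808], [.ofNat 0, .ofNat 0, .ofNat 0, .ofNat 0, .ofNat 0,
      .ofNat 49230, .ofNat 305523, .ofNat 254151, .ofNat 62368, .ofNat 18144, .ofNat 5304],
      [.ofNat 0, .ofNat 0, .ofNat 0, .ofNat 0, .ofNat 142770, .ofNat 946521, .ofNat 1101171,
      .ofNat 419308, .ofNat 69238, .ofNat 19116, .ofNat 1716], [.ofNat 0, .ofNat 0, .ofNat 0,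
      .ofNat 211260, .ofNat 1574448, .ofNat 2602614, .ofNat 1488714, .ofNat 293694, .ofNat 16586,
      .negSucc 3507, .negSucc 1247], [.ofNat 0, .ofNat 0, .ofNat 196200, .ofNat 1463802, .ofNat
      3336672, .ofNat 3007711, .ofNat 1168397, .ofNat 50241, .negSucc 73518, .ofNat 2496],
      [.ofNat 0, .ofNat 118800, .ofNat 746640, .ofNat 2363088, .ofNat 3441616, .ofNat 2249722,
      .ofNat 337825, .negSucc 128554, .ofNat 6864], [.ofNat 32400, .ofNat 217188, .ofNat 1002582,
      .ofNat 2264151, .ofNat 2229815, .ofNat 667880, .negSucc 71181, .ofNat 1326], [.ofNat 40500,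
      .ofNat 293760, .ofNat 923436, .ofNat 1275270, .ofNat 571348, .negSucc 41859, .negSucc
      1013], [.ofNat 56700, .ofNat 253854, .ofNat 433638, .ofNat 240114, .negSucc 60257, .ofNat
      1872], [.ofNat 36450, .ofNat 77274, .ofNat 43236, .negSucc 33083, .ofNat 1404]]]

def S12al : List P2 :=
  [[[.ofNat 0, .ofNat 0, .ofNat 0, .ofNat 0, .ofNat 0, .ofNat 0, .ofNat 0, .ofNat 1440, .ofNat
      53136, .ofNat 144144, .ofNat 479904, .ofNat 258336], [.ofNat 0, .ofNat 0, .ofNat 0, .ofNat
      0, .ofNat 0, .ofNat 0, .ofNat 28620, .ofNat 647838, .ofNat 1618758, .ofNat 5047136, .ofNat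
      3097472, .ofNat 255216], [.ofNat 0, .ofNat 0, .ofNat 0, .ofNat 0, .ofNat 0, .ofNat 171990,
      .ofNat 3345219, .ofNat 8143329, .ofNat 23617494, .ofNat 16508600, .ofNat 2480872, .negSucc
      63023], [.ofNat 0, .ofNat 0, .ofNat 0, .ofNat 0, .ofNat 447750, .ofNat 9738441, .ofNat
      24585426, .ofNat 64995105, .ofNat 51377322, .ofNat 10608908, .negSucc 575767, .negSucc
      53663], [.ofNat 0, .ofNat 0, .ofNat 0, .ofNat 496800, .ofNat 17732880, .ofNat 49247091,
      .ofNat 116748030, .ofNat 103547619, .ofNat 26568740, .negSucc 2200695, .negSucc 502479,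
      .ofNat 2496], [.ofNat 0, .ofNat 0, .ofNat 194400, .ofNat 20500074, .ofNat 64986978, .ofNat
      141786903, .ofNat 142105992, .ofNat 43978341, .negSucc 4425851, .negSucc 2038547, .ofNat
      11232], [.ofNat 0, .ofNat 0, .ofNat 14420592, .ofNat 54656028, .ofNat 115310865, .ofNat
      131727720, .ofNat 49622535, .negSucc 4094825, .negSucc 4717325, .negSucc 140531, .negSucc
      14975], [.ofNat 0, .ofNat 5540400, .ofNat 28162890, .ofNat 59526963, .ofNat 77732298,
      .ofNat 37408615, .negSucc 1678443, .negSucc 8095391, .negSucc 794397, .negSucc 138035,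
      .negSucc 14975], [.ofNat 874800, .ofNat 8164476, .ofNat 17184474, .ofNat 26441019, .ofNat
      18194022, .negSucc 1360990, .negSucc 10749381, .negSucc 2639807, .negSucc 705953, .negSucc
      14975], [.ofNat 996300, .ofNat 1958256, .ofNat 4388958, .ofNat 5709231, .negSucc 1453715,
      .negSucc 9771184, .negSucc 4914501, .negSucc 1527821, .ofNat 46800], [.negSucc 24299,
      .ofNat 256284, .ofNat 1450818, .negSucc 272186, .negSucc 5481410, .negSucc 4736677,
      .negSucc 1570941, .ofNat 86736], [.ofNat 48600, .ofNat 410832, .ofNat 234792, .negSucc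
      1688597, .negSucc 2256539, .negSucc 799013, .ofNat 49608], [.ofNat 48600, .ofNat 103032,
      .negSucc 191483, .negSucc 443249, .negSucc 174725, .ofNat 9828]]]

def S12bl : List P2 :=
  [[[.ofNat 0, .ofNat 0, .ofNat 0, .ofNat 0, .ofNat 0, .ofNat 0, .ofNat 0, .ofNat 0, .ofNat
      82080, .ofNat 485136, .ofNat 288144, .ofNat 47904, .ofNat 33696], [.ofNat 0, .ofNat 0,
      .ofNat 0, .ofNat 0, .ofNat 0, .ofNat 0, .ofNat 0, .ofNat 793260, .ofNat 4779342, .ofNat
      3274614, .ofNat 607232, .ofNat 273056, .ofNat 30576], [.ofNat 0, .ofNat 0, .ofNat 0, .ofNat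
      0, .ofNat 0, .ofNat 0, .ofNat 3287850, .ofNat 20293749, .ofNat 16305963, .ofNat 3577238,
      .ofNat 844248, .ofNat 155448, .negSucc 18095], [.ofNat 0, .ofNat 0, .ofNat 0, .ofNat 0,
      .ofNat 0, .ofNat 7598640, .ofNat 48610662, .ofNat 46942221, .ofNat 12636409, .ofNat
      1066888, .ofNat 29636, .negSucc 192983, .negSucc 14351], [.ofNat 0, .ofNat 0, .ofNat 0,
      .ofNat 0, .ofNat 10766130, .ofNat 72039747, .ofNat 85356159, .ofNat 28791910, .ofNat
      522488, .negSucc 1486465, .negSucc 968727, .negSucc 60375, .ofNat 2496], [.ofNat 0, .ofNat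
      0, .ofNat 0, .ofNat 10016640, .ofNat 67399170, .ofNat 97477587, .ofNat 42223175, .ofNat
      2498594, .negSucc 4754685, .negSucc 2822327, .ofNat 74296, .ofNat 23712], [.ofNat 0, .ofNat
      0, .ofNat 6377400, .ofNat 38614122, .ofNat 67628772, .ofNat 39718351, .ofNat 5259481,
      .negSucc 9670869, .negSucc 4312715, .ofNat 1018132, .ofNat 1248], [.ofNat 0, .ofNat
      2592000, .ofNat 12516552, .ofNat 28176174, .ofNat 24492786, .ofNat 2128261, .negSucc
      14565718, .negSucc 4349337, .ofNat 2119196, .negSucc 93911], [.ofNat 486000, .ofNat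
      2067120, .ofNat 7870338, .ofNat 10652949, .negSucc 1625276, .negSucc 14064427, .negSucc
      4500769, .ofNat 1579504, .negSucc 93755], [.ofNat 194400, .ofNat 1837728, .ofNat 3602070,
      .negSucc 848942, .negSucc 7766744, .negSucc 4063507, .ofNat 103610, .ofNat 2028], [.ofNat
      267300, .ofNat 825876, .ofNat 172476, .negSucc 2159261, .negSucc 2064281, .negSucc 425783,
      .ofNat 31356], [.ofNat 48600, .ofNat 103032, .negSucc 191483, .negSucc 443249, .negSucc
      174725, .ofNat 9828]]]

def S13l : List P2 :=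
  [[[.ofNat 0, .ofNat 0, .ofNat 0, .ofNat 0, .ofNat 0, .ofNat 0, .ofNat 0, .ofNat 20520, .ofNat
      121284, .ofNat 72036, .ofNat 11976, .ofNat 8424], [.ofNat 0, .ofNat 0, .ofNat 0, .ofNat 0,
      .ofNat 0, .ofNat 0, .ofNat 168210, .ofNat 1037853, .ofNat 834489, .ofNat 199080, .ofNat
      62856, .ofNat 15912], [.ofNat 0, .ofNat 0, .ofNat 0, .ofNat 0, .ofNat 0, .ofNat 575880,
      .ofNat 3751704, .ofNat 4053954, .ofNat 1405036, .ofNat 240618, .ofNat 73260, .ofNat 5148],
      [.ofNat 0, .ofNat 0, .ofNat 0, .ofNat 0, .ofNat 1059780, .ofNat 7518396, .ofNat 11001192,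
      .ofNat 5393706, .ofNat 846084, .ofNat 64362, .negSucc 5375, .negSucc 3743], [.ofNat 0,
      .ofNat 0, .ofNat 0, .ofNat 1213260, .ofNat 8942370, .ofNat 17365272, .ofNat 12273471,
      .ofNat 3235739, .negSucc 169474, .negSucc 255260, .ofNat 3744], [.ofNat 0, .ofNat 0, .ofNat
      937800, .ofNat 6268728, .ofNat 15956088, .ofNat 16696308, .ofNat 7212234, .negSucc 277799,
      .negSucc 832661, .ofNat 20904], [.ofNat 0, .ofNat 453600, .ofNat 2482776, .ofNat 8437152,
      .ofNat 13342284, .ofNat 8298672, .negSucc 312753, .negSucc 1527011, .negSucc 64585,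
      .negSucc 4211], [.ofNat 97200, .ofNat 546264, .ofNat 2530944, .ofNat 6107568, .ofNat
      4917912, .negSucc 1264915, .negSucc 2588297, .negSucc 391665, .negSucc 26207], [.ofNat
      72900, .ofNat 456948, .ofNat 1621170, .ofNat 1261488, .negSucc 2403102, .negSucc 3574982,
      .negSucc 887870, .negSucc 68372, .ofNat 3744], [.ofNat 64800, .ofNat 288576, .negSucc
      137789, .negSucc 2148488, .negSucc 3186442, .negSucc 1100351, .negSucc 38541, .ofNat 6240],
      [.ofNat 32400, .negSucc 195911, .negSucc 1054367, .negSucc 1697801, .negSucc 765417, .ofNat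
      69034, .ofNat 546], [.negSucc 56699, .negSucc 290303, .negSucc 510911, .negSucc 283349,
      .ofNat 93342, .negSucc 3275], [.negSucc 36449, .negSucc 77273, .negSucc 43235, .ofNat
      33084, .negSucc 1403]]]

def S14l : List P2 :=
  [[[.ofNat 0, .ofNat 0, .ofNat 0, .ofNat 0, .ofNat 0, .ofNat 0, .ofNat 0, .ofNat 0, .ofNat
      106800, .ofNat 549432, .ofNat 280248, .ofNat 12624, .negSucc 21743, .negSucc 31935,
      .negSucc 22463], [.ofNat 0, .ofNat 0, .ofNat 0, .ofNat 0, .ofNat 0, .ofNat 0, .ofNat 0,
      .ofNat 1006500, .ofNat 5380122, .ofNat 3721854, .ofNat 708942, .negSucc 155609, .negSucc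
      263407, .negSucc 220303, .negSucc 43055], [.ofNat 0, .ofNat 0, .ofNat 0, .ofNat 0, .ofNat
      0, .ofNat 0, .ofNat 4103610, .ofNat 22973433, .ofNat 20887515, .ofNat 6108609, .negSucc
      191090, .negSucc 673507, .negSucc 718191, .negSucc 306983, .negSucc 11231], [.ofNat 0,
      .ofNat 0, .ofNat 0, .ofNat 0, .ofNat 0, .ofNat 9516420, .ofNat 56057754, .ofNat 65407488,
      .ofNat 24631314, .ofNat 1146426, .negSucc 212997, .negSucc 156959, .negSucc 472787,
      .negSucc 9663, .ofNat 16848], [.ofNat 0, .ofNat 0, .ofNat 0, .ofNat 0, .ofNat 13771530,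
      .ofNat 86735907, .ofNat 128695875, .ofNat 58934946, .ofNat 3345876, .ofNat 833208, .ofNat
      5030148, .ofNat 2050562, .ofNat 513652, .ofNat 186112, .ofNat 8424], [.ofNat 0, .ofNat 0,
      .ofNat 0, .ofNat 12936240, .ofNat 89538948, .ofNat 167952588, .ofNat 95281209, .ofNat
      7336923, .negSucc 1477862, .ofNat 12371405, .ofNat 10301212, .ofNat 3441094, .ofNat 820904,
      .ofNat 35100], [.ofNat 0, .ofNat 0, .ofNat 8002800, .ofNat 63230490, .ofNat 149594862,
      .ofNat 112390764, .ofNat 19547640, .negSucc 1809773, .ofNat 16878274, .ofNat 21934666,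
      .ofNat 9566660, .ofNat 2088228, .ofNat 100734, .negSucc 22463], [.ofNat 0, .ofNat 3110400,
      .ofNat 30697380, .ofNat 93770226, .ofNat 99706281, .ofNat 37835457, .ofNat 13377057, .ofNat
      25132383, .ofNat 35840411, .ofNat 20176389, .ofNat 3759783, .negSucc 128934, .negSucc
      23711], [.ofNat 583200, .ofNat 9789984, .ofNat 42073938, .ofNat 66475935, .ofNat 49540455,
      .ofNat 36305043, .ofNat 40120347, .ofNat 55650966, .ofNat 38725158, .ofNat 7587050,
      .negSucc 432247, .ofNat 49452], [.ofNat 1603800, .ofNat 12342456, .ofNat 31738122, .ofNat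
      42770160, .ofNat 45810126, .ofNat 53910108, .ofNat 74297493, .ofNat 58868277, .ofNat
      15710521, .ofNat 574519, .ofNat 21138], [.ofNat 1676700, .ofNat 9192204, .ofNat 21756762,
      .ofNat 35742897, .ofNat 55125855, .ofNat 79405347, .ofNat 68994189, .ofNat 23233074, .ofNat
      2006924, .negSucc 136031], [.ofNat 1057050, .ofNat 5740146, .ofNat 17034624, .ofNat
      38755206, .ofNat 66307428, .ofNat 64159056, .ofNat 23651526, .ofNat 1330482, .negSucc
      165437], [.ofNat 656100, .ofNat 4501332, .ofNat 17820810, .ofNat 40102425, .ofNat 45148119,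
      .ofNat 17713830, .negSucc 993383, .negSucc 39311], [.ofNat 583200, .ofNat 5124384, .ofNat
      16062138, .ofNat 21958362, .ofNat 9627204, .negSucc 2288855, .ofNat 63648], [.ofNat 729000,
      .ofNat 3878280, .ofNat 6557652, .ofNat 3302838, .negSucc 1559501, .ofNat 60372], [.ofNat
      437400, .ofNat 927288, .ofNat 518832, .negSucc 397007, .ofNat 16848]]]

def T1l : List P2 :=
  [[[.ofNat 0, .ofNat 0, .ofNat 0, .ofNat 0, .ofNat 0, .ofNat 0, .ofNat 0, .ofNat 960, .ofNat
      35424, .ofNat 121056, .ofNat 393088, .ofNat 162432, .negSucc 63871, .negSucc 44927],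
      [.ofNat 0, .ofNat 0, .ofNat 0, .ofNat 0, .ofNat 0, .ofNat 0, .ofNat 10080, .ofNat 372912,
      .ofNat 1295712, .ofNat 4177704, .ofNat 2056936, .negSucc 399423, .negSucc 459647, .negSucc
      42431], [.ofNat 0, .ofNat 0, .ofNat 0, .ofNat 0, .ofNat 0, .ofNat 84960, .ofNat 1873296,
      .ofNat 6077976, .ofNat 19130316, .ofNat 11274708, .negSucc 243343, .negSucc 1880919,
      .negSucc 329647, .ofNat 30576], [.ofNat 0, .ofNat 0, .ofNat 0, .ofNat 0, .ofNat 452400,
      .ofNat 5144184, .ofNat 15330084, .ofNat 50460270, .ofNat 36491966, .ofNat 3649950, .negSucc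
      4366253, .negSucc 748415, .ofNat 417944, .ofNat 29952], [.ofNat 0, .ofNat 0, .ofNat 0,
      .ofNat 720000, .ofNat 9319200, .ofNat 29330694, .ofNat 88307655, .ofNat 70009251, .ofNat
      9781997, .negSucc 4726814, .negSucc 278553, .ofNat 1477356, .ofNat 689592, .ofNat 36504],
      [.ofNat 0, .ofNat 0, .ofNat 345600, .ofNat 11568816, .ofNat 42259362, .ofNat 111503751,
      .ofNat 97066782, .ofNat 16459164, .negSucc 6468945, .negSucc 4166322, .ofNat 3415746,
      .ofNat 4192612, .negSucc 115243, .ofNat 7800], [.ofNat 0, .ofNat 0, .ofNat 8967888, .ofNat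
      39116592, .ofNat 104176008, .ofNat 112098819, .ofNat 36261399, .negSucc 667310, .negSucc
      11621028, .ofNat 2923178, .ofNat 10325566, .negSucc 1123105, .negSucc 202771, .negSucc
      17471], [.ofNat 0, .ofNat 3693600, .ofNat 21642120, .ofNat 69195114, .ofNat 100013862,
      .ofNat 68330583, .ofNat 34967523, .ofNat 4288398, .ofNat 9677058, .ofNat 17051647, .negSucc
      4710570, .negSucc 2018741, .ofNat 63648], [.ofNat 583200, .ofNat 6776784, .ofNat 29858868,
      .ofNat 63067554, .ofNat 80558760, .ofNat 76893003, .ofNat 54560382, .ofNat 40637607, .ofNat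
      23634111, .negSucc 8596435, .negSucc 5955880, .ofNat 338208], [.ofNat 874800, .ofNat
      7394976, .ofNat 27177714, .ofNat 57752469, .ofNat 85924791, .ofNat 96257919, .ofNat
      70590066, .ofNat 23484999, .negSucc 6449418, .negSucc 8767742, .ofNat 515268], [.ofNat
      874800, .ofNat 6933276, .ofNat 25249590, .ofNat 61247637, .ofNat 86505567, .ofNat 62670111,
      .ofNat 11029287, .negSucc 1310897, .negSucc 6895563, .ofNat 376194], [.ofNat 801900, .ofNat
      6547878, .ofNat 27620514, .ofNat 43483734, .ofNat 27579618, .negSucc 5691443, .negSucc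
      610445, .negSucc 1317887, .ofNat 82134], [.ofNat 765450, .ofNat 7394004, .ofNat 11045052,
      .ofNat 842346, .negSucc 13096787, .negSucc 2805659, .ofNat 2926716, .negSucc 121679],
      [.ofNat 911250, .ofNat 546750, .negSucc 4673861, .negSucc 9190061, .negSucc 3113843, .ofNat
      3012432, .negSucc 130103], [.negSucc 218699, .negSucc 1848743, .negSucc 3195827, .negSucc
      1444463, .ofNat 1248768, .negSucc 53351], [.negSucc 218699, .negSucc 463643, .negSucc
      259415, .ofNat 198504, .negSucc 8423]]]

def T2l : List P2 :=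
  [[[.ofNat 0, .ofNat 0, .ofNat 0, .ofNat 0, .ofNat 0, .ofNat 0, .ofNat 0, .ofNat 0, .ofNat
      12480, .ofNat 36576, .negSucc 4895, .negSucc 31935, .negSucc 22463], [.ofNat 0, .ofNat 0,
      .ofNat 0, .ofNat 0, .ofNat 0, .ofNat 0, .ofNat 0, .ofNat 110460, .ofNat 306870, .negSucc
      41201, .negSucc 226687, .negSucc 188367, .negSucc 20591], [.ofNat 0, .ofNat 0, .ofNat 0,
      .ofNat 0, .ofNat 0, .ofNat 0, .ofNat 413370, .ofNat 1059501, .negSucc 193316, .negSucc
      630385, .negSucc 579271, .negSucc 86679, .ofNat 31824], [.ofNat 0, .ofNat 0, .ofNat 0,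
      .ofNat 0, .ofNat 0, .ofNat 859380, .ofNat 1890288, .negSucc 810776, .negSucc 979238,
      .negSucc 541007, .ofNat 133396, .ofNat 297320, .ofNat 28080], [.ofNat 0, .ofNat 0, .ofNat
      0, .ofNat 0, .ofNat 1132140, .ofNat 1638528, .negSucc 2947313, .negSucc 1544627, .ofNat
      1565332, .ofNat 1785774, .ofNat 1121536, .ofNat 195776, .negSucc 8423], [.ofNat 0, .ofNat
      0, .ofNat 0, .ofNat 858420, .ofNat 572538, .negSucc 4536713, .negSucc 1492025, .ofNat
      6263148, .ofNat 6192442, .ofNat 2518608, .ofNat 416140, .negSucc 151011, .negSucc 8423],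
      [.ofNat 0, .ofNat 0, .ofNat 270000, .ofNat 321876, .negSucc 2598197, .ofNat 3280158, .ofNat
      17454726, .ofNat 17233332, .ofNat 3879022, .negSucc 776981, .negSucc 759169, .negSucc
      57563], [.ofNat 0, .ofNat 0, .ofNat 602748, .ofNat 194166, .ofNat 12764241, .ofNat
      36794793, .ofNat 38519988, .ofNat 8262348, .negSucc 5022478, .negSucc 2248550, .negSucc
      137237, .ofNat 22464], [.ofNat 0, .ofNat 388800, .ofNat 1022004, .ofNat 18122670, .ofNat
      50851845, .ofNat 59211999, .ofNat 15945594, .negSucc 12405761, .negSucc 3565084, .ofNat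
      324383, .ofNat 36192], [.ofNat 72900, .ofNat 543348, .ofNat 13863636, .ofNat 45784980,
      .ofNat 58295970, .ofNat 15920328, .negSucc 21033221, .negSucc 3582383, .ofNat 2039896,
      .negSucc 43211], [.ofNat 72900, .ofNat 5792148, .ofNat 25975242, .ofNat 34125867, .ofNat
      3820893, .negSucc 26164451, .negSucc 3833297, .ofNat 4512702, .negSucc 180881], [.ofNat
      1057050, .ofNat 8267346, .ofNat 9651960, .negSucc 7725464, .negSucc 23587976, .negSucc
      4853315, .ofNat 5900982, .negSucc 255059], [.ofNat 1129950, .ofNat 62694, .negSucc 8343269,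
      .negSucc 14582465, .negSucc 4522331, .ofNat 4718352, .negSucc 204047], [.negSucc 437399,
      .negSucc 3260087, .negSucc 5464367, .negSucc 2370095, .ofNat 2100528, .negSucc 89855],
      [.negSucc 437399, .negSucc 927287, .negSucc 518831, .ofNat 397008, .negSucc 16847]]]

def T3l : List P2 :=
  [[[.ofNat 0, .ofNat 0, .ofNat 0, .ofNat 0, .ofNat 0, .ofNat 0, .ofNat 0, .ofNat 0, .ofNat 0,
      .ofNat 0, .ofNat 99840, .ofNat 292608, .negSucc 39167, .negSucc 255487, .negSucc 179711],
      [.ofNat 0, .ofNat 0, .ofNat 0, .ofNat 0, .ofNat 0, .ofNat 0, .ofNat 0, .ofNat 0, .ofNat 0,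
      .ofNat 1149480, .ofNat 3392484, .negSucc 72395, .negSucc 2654591, .negSucc 2325663,
      .negSucc 348191], [.ofNat 0, .ofNat 0, .ofNat 0, .ofNat 0, .ofNat 0, .ofNat 0, .ofNat 0,
      .ofNat 0, .ofNat 5820960, .ofNat 17311392, .ofNat 1728600, .negSucc 11827863, .negSucc
      12681599, .negSucc 3542207, .negSucc 37439], [.ofNat 0, .ofNat 0, .ofNat 0, .ofNat 0,
      .ofNat 0, .ofNat 0, .ofNat 0, .ofNat 17020290, .ofNat 50949645, .ofNat 11177865, .negSucc
      29983347, .negSucc 37304787, .negSucc 14495375, .ofNat 194368, .ofNat 247104], [.ofNat 0,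
      .ofNat 0, .ofNat 0, .ofNat 0, .ofNat 0, .ofNat 0, .ofNat 31786110, .ofNat 95110719, .ofNat
      29032689, .negSucc 51697709, .negSucc 61455319, .negSucc 27214279, .ofNat 4901856, .ofNat
      2945216, .ofNat 112320], [.ofNat 0, .ofNat 0, .ofNat 0, .ofNat 0, .ofNat 0, .ofNat
      40418940, .ofNat 114941268, .ofNat 23496252, .negSucc 85072286, .negSucc 46167946, .negSucc
      5190401, .ofNat 28247280, .ofNat 15381456, .ofNat 1347840], [.ofNat 0, .ofNat 0, .ofNat 0,
      .ofNat 0, .ofNat 34712820, .ofNat 91511736, .negSucc 24652349, .negSucc 159072698, .negSucc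
      12773384, .ofNat 78222866, .ofNat 89756948, .ofNat 47989688, .ofNat 6202392, .negSucc
      89855], [.ofNat 0, .ofNat 0, .ofNat 0, .ofNat 17881560, .ofNat 52527420, .negSucc 56650487,
      .negSucc 225657197, .negSucc 22919441, .ofNat 157102344, .ofNat 156720364, .ofNat 97644928,
      .ofNat 18099808, .negSucc 1399343, .negSucc 179711], [.ofNat 0, .ofNat 0, .ofNat 4050000,
      .ofNat 25935552, .negSucc 32253767, .negSucc 177144455, .negSucc 34281995, .ofNat
      167597040, .ofNat 180897948, .ofNat 141649134, .ofNat 26090034, .negSucc 8812903, .negSucc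
      633527, .negSucc 89855], [.ofNat 0, .ofNat 0, .ofNat 10975176, .ofNat 4760208, .negSucc
      54740231, .negSucc 1979135, .ofNat 160295292, .ofNat 225607176, .ofNat 210978198, .ofNat
      27652898, .negSucc 34881707, .negSucc 3552095, .negSucc 14975], [.ofNat 0, .ofNat 3061800,
      .ofNat 15076368, .ofNat 13070160, .ofNat 24299028, .ofNat 162671202, .ofNat 350417718,
      .ofNat 388875870, .ofNat 78713658, .negSucc 82801885, .negSucc 14324621, .ofNat 827424],
      [.ofNat 437400, .ofNat 7050888, .ofNat 15661188, .ofNat 18926298, .ofNat 143948583, .ofNat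
      472638003, .ofNat 629059188, .ofNat 222426996, .negSucc 120879749, .negSucc 37973049,
      .ofNat 2286336], [.ofNat 874800, .ofNat 4916376, .ofNat 4904226, .ofNat 103948353, .ofNat
      472647447, .ofNat 745296906, .ofNat 389253912, .negSucc 107373113, .negSucc 72725849,
      .ofNat 3757104], [.ofNat 437400, .negSucc 603611, .ofNat 55647972, .ofNat 331596180, .ofNat
      629301663, .ofNat 444266259, .negSucc 43195559, .negSucc 97989101, .ofNat 4577040],
      [.negSucc 218699, .ofNat 17907156, .ofNat 153491274, .ofNat 366844059, .ofNat 335551545,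
      .ofNat 19009956, .negSucc 88113773, .ofNat 3937284], [.ofNat 2624400, .ofNat 42305328,
      .ofNat 137867184, .ofNat 161747280, .ofNat 34200576, .negSucc 50195807, .ofNat 2190240],
      [.ofNat 5248800, .ofNat 29498256, .ofNat 45172080, .ofNat 17026848, .negSucc 16472159,
      .ofNat 707616], [.ofNat 2624400, .ofNat 5563728, .ofNat 3112992, .negSucc 2382047, .ofNat
      101088]]]

def T4l : List P2 :=
  [[[.ofNat 0, .ofNat 0, .ofNat 0, .ofNat 0, .ofNat 0, .ofNat 1800, .ofNat 13428, .ofNat 9972,
      .ofNat 3992, .ofNat 2808], [.ofNat 0, .ofNat 0, .ofNat 0, .ofNat 0, .ofNat 12150, .ofNat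
      91215, .ofNat 78471, .ofNat 20324, .ofNat 11344, .ofNat 2496], [.ofNat 0, .ofNat 0, .ofNat
      0, .ofNat 32400, .ofNat 246510, .ofNat 256203, .ofNat 44049, .negSucc 5409, .negSucc 1523,
      .negSucc 3587], [.ofNat 0, .ofNat 0, .ofNat 40500, .ofNat 355752, .ofNat 498744, .ofNat
      81192, .negSucc 110267, .negSucc 51439, .negSucc 19035, .negSucc 2963], [.ofNat 0, .ofNat
      43200, .ofNat 248076, .ofNat 359118, .ofNat 82187, .negSucc 54778, .negSucc 55700, .negSucc
      53596, .ofNat 8968, .ofNat 1248], [.ofNat 16200, .ofNat 77544, .ofNat 158598, .ofNat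
      156999, .ofNat 133160, .ofNat 139795, .ofNat 40641, .ofNat 85767, .negSucc 3743], [.ofNat
      16200, .ofNat 55944, .ofNat 281610, .ofNat 628977, .ofNat 726619, .ofNat 239240, .ofNat
      83586, .negSucc 5615], [.ofNat 8100, .ofNat 265572, .ofNat 837540, .ofNat 1129380, .ofNat
      453196, .negSucc 84861, .ofNat 1794], [.ofNat 93150, .ofNat 489078, .ofNat 811728, .ofNat
      394386, .negSucc 202217, .ofNat 7956], [.ofNat 109350, .ofNat 231822, .ofNat 129708,
      .negSucc 99251, .ofNat 4212]]]

def T5l : List P2 :=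
  [[[.ofNat 0, .ofNat 0, .ofNat 0, .ofNat 0, .ofNat 0, .ofNat 0, .ofNat 0, .ofNat 0, .ofNat
      12480, .ofNat 36576, .negSucc 4895, .negSucc 31935, .negSucc 22463], [.ofNat 0, .ofNat 0,
      .ofNat 0, .ofNat 0, .ofNat 0, .ofNat 0, .ofNat 0, .ofNat 85500, .ofNat 233718, .negSucc
      31409, .negSucc 162815, .negSucc 143439, .negSucc 20591], [.ofNat 0, .ofNat 0, .ofNat 0,
      .ofNat 0, .ofNat 0, .ofNat 0, .ofNat 224850, .ofNat 581481, .negSucc 70232, .negSucc
      216929, .negSucc 230615, .negSucc 45495, .ofNat 31824], [.ofNat 0, .ofNat 0, .ofNat 0,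
      .ofNat 0, .ofNat 0, .ofNat 292500, .ofNat 841656, .negSucc 24380, .ofNat 40541, .ofNat
      379064, .ofNat 280548, .ofNat 233672, .ofNat 28080], [.ofNat 0, .ofNat 0, .ofNat 0, .ofNat
      0, .ofNat 262350, .ofNat 1256589, .ofNat 236247, .negSucc 93983, .ofNat 1865984, .ofNat
      1376174, .ofNat 552168, .ofNat 139616, .negSucc 8423], [.ofNat 0, .ofNat 0, .ofNat 0,
      .ofNat 39420, .ofNat 2856672, .ofNat 4448079, .ofNat 897483, .ofNat 1864116, .ofNat
      2572706, .ofNat 566684, .ofNat 47988, .negSucc 134163, .negSucc 8423], [.ofNat 0, .ofNat 0,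
      .ofNat 124200, .ofNat 3567834, .ofNat 6897474, .ofNat 3612269, .ofNat 5427427, .ofNat
      6787716, .negSucc 54207, .negSucc 1260057, .negSucc 444977, .negSucc 40715], [.ofNat 0,
      .ofNat 324000, .ofNat 1433160, .ofNat 2824038, .ofNat 2746212, .ofNat 6445265, .ofNat
      11909908, .ofNat 3950499, .negSucc 2092020, .negSucc 880110, .negSucc 21173, .ofNat 22464],
      [.ofNat 97200, .negSucc 198935, .negSucc 385937, .negSucc 1796804, .ofNat 299931, .ofNat
      9056924, .ofNat 5891209, .negSucc 2377574, .ofNat 146207, .ofNat 473447, .negSucc 16223],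
      [.negSucc 121499, .negSucc 905579, .negSucc 3304205, .negSucc 3443642, .negSucc 487307,
      .negSucc 554022, .negSucc 3475342, .ofNat 667467, .ofNat 633972, .negSucc 59435], [.negSucc
      194399, .negSucc 1546127, .negSucc 4079699, .negSucc 6222995, .negSucc 6175082, .negSucc
      5314266, .negSucc 1513540, .ofNat 31101, .negSucc 2105], [.negSucc 340199, .negSucc
      1855223, .negSucc 4445009, .negSucc 7036019, .negSucc 7181741, .negSucc 3613005, .negSucc
      171577, .ofNat 28860], [.negSucc 340199, .negSucc 1490723, .negSucc 4104269, .negSucc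
      6170399, .negSucc 3695501, .ofNat 284934, .ofNat 3042], [.negSucc 230849, .negSucc 1582901,
      .negSucc 3090311, .negSucc 1885823, .ofNat 630432, .negSucc 22463], [.negSucc 328049,
      .negSucc 695465, .negSucc 389123, .ofNat 297756, .negSucc 12635]]]

def J1l : List P2 :=
  [[[.ofNat 0, .ofNat 0, .ofNat 0, .ofNat 0, .ofNat 0, .ofNat 0, .ofNat 0, .ofNat 0, .ofNat 0,
      .ofNat 0, .ofNat 149760, .ofNat 438912, .negSucc 58751, .negSucc 383231, .negSucc 269567],
      [.ofNat 0, .ofNat 0, .ofNat 0, .ofNat 0, .ofNat 0, .ofNat 0, .ofNat 0, .ofNat 0, .ofNat 0,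
      .ofNat 1716120, .ofNat 5035644, .negSucc 139859, .negSucc 3900287, .negSucc 3431519,
      .negSucc 520415], [.ofNat 0, .ofNat 0, .ofNat 0, .ofNat 0, .ofNat 0, .ofNat 0, .ofNat 0,
      .ofNat 0, .ofNat 8653920, .ofNat 25404192, .ofNat 2107176, .negSucc 17021671, .negSucc
      18243263, .negSucc 5072959, .ofNat 7488], [.ofNat 0, .ofNat 0, .ofNat 0, .ofNat 0, .ofNat
      0, .ofNat 0, .ofNat 0, .ofNat 25254270, .ofNat 73779987, .ofNat 13280535, .negSucc
      42778955, .negSucc 51371787, .negSucc 19287695, .ofNat 1149248, .ofNat 486720], [.ofNat 0,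
      .ofNat 0, .ofNat 0, .ofNat 0, .ofNat 0, .ofNat 0, .ofNat 47388690, .ofNat 135158697, .ofNat
      27973143, .negSucc 76874417, .negSucc 75660647, .negSucc 28344263, .ofNat 12095376, .ofNat
      5516640, .ofNat 190944], [.ofNat 0, .ofNat 0, .ofNat 0, .ofNat 0, .ofNat 0, .ofNat
      60330300, .ofNat 160561008, .ofNat 2825592, .negSucc 133419032, .negSucc 28461300, .ofNat
      35613098, .ofNat 59277968, .ofNat 26822544, .ofNat 1723456, .negSucc 67391], [.ofNat 0,
      .ofNat 0, .ofNat 0, .ofNat 0, .ofNat 51169860, .ofNat 128267148, .negSucc 68079005,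
      .negSucc 222624752, .ofNat 101779173, .ofNat 257255122, .ofNat 180616216, .ofNat 73291528,
      .ofNat 5395848, .negSucc 1092639, .negSucc 33695], [.ofNat 0, .ofNat 0, .ofNat 0, .ofNat
      25732080, .ofNat 78049440, .negSucc 92232035, .negSucc 224194625, .ofNat 325318482, .ofNat
      662512644, .ofNat 385244016, .ofNat 119713416, .ofNat 2835960, .negSucc 7171823, .negSucc
      404351], [.ofNat 0, .ofNat 0, .ofNat 5670000, .ofNat 43300008, .negSucc 32748299, .negSucc
      9756017, .ofNat 716708058, .ofNat 1252350228, .ofNat 714145860, .ofNat 124090664, .negSucc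
      40573731, .negSucc 26725111, .negSucc 1439255], [.ofNat 0, .ofNat 0, .ofNat 20391264,
      .ofNat 27832572, .ofNat 248966946, .ofNat 1130262030, .ofNat 1892802756, .ofNat 1223766384,
      .ofNat 142332804, .negSucc 140328523, .negSucc 65602591, .negSucc 3648471, .ofNat 354432],
      [.ofNat 0, .ofNat 6123600, .ofNat 34729560, .ofNat 297169560, .ofNat 1204427556, .ofNat
      2149833492, .ofNat 1677001932, .ofNat 272162610, .negSucc 232159265, .negSucc 105877511,
      .negSucc 4683131, .ofNat 1151280], [.ofNat 874800, .ofNat 14101776, .ofNat 172849788,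
      .ofNat 856998954, .ofNat 1740452751, .ofNat 1650202203, .ofNat 417023844, .negSucc
      246238151, .negSucc 112456967, .negSucc 665315, .ofNat 1347840], [.ofNat 1749600, .ofNat
      54228852, .ofNat 393280434, .ofNat 973005615, .ofNat 1114587405, .ofNat 396929598, .negSucc
      182564123, .negSucc 81654221, .ofNat 3792390, .ofNat 668772], [.ofNat 7217100, .ofNat
      105623352, .ofNat 355481784, .ofNat 490295916, .ofNat 232389297, .negSucc 90753686,
      .negSucc 41826311, .ofNat 3040074, .ofNat 124956], [.ofNat 12903300, .ofNat 74812896,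
      .ofNat 125870274, .ofNat 78170589, .negSucc 26568728, .negSucc 13910219, .ofNat 687510,
      .ofNat 7020], [.ofNat 6779700, .ofNat 14372964, .ofNat 11397996, .negSucc 3509243, .negSucc
      2136455]]]

def J2l : List P2 :=
  [[[.ofNat 0, .ofNat 0, .ofNat 0, .ofNat 0, .ofNat 0, .ofNat 0, .ofNat 3720, .ofNat 31284,
      .ofNat 25236, .ofNat 11976, .ofNat 8424], [.ofNat 0, .ofNat 0, .ofNat 0, .ofNat 0, .ofNat
      0, .ofNat 30090, .ofNat 249249, .ofNat 223569, .ofNat 68268, .ofNat 42456, .ofNat 7488],
      [.ofNat 0, .ofNat 0, .ofNat 0, .ofNat 0, .ofNat 95910, .ofNat 801129, .ofNat 842568, .ofNat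
      184855, .ofNat 30906, .ofNat 2916, .negSucc 10763], [.ofNat 0, .ofNat 0, .ofNat 0, .ofNat
      143880, .ofNat 1387932, .ofNat 1908681, .ofNat 394341, .negSucc 268793, .negSucc 147035,
      .negSucc 67871, .negSucc 8891], [.ofNat 0, .ofNat 0, .ofNat 160200, .ofNat 1255686, .ofNat
      1981542, .ofNat 452275, .negSucc 368904, .negSucc 332422, .negSucc 227570, .ofNat 18012,
      .ofNat 3744], [.ofNat 0, .ofNat 118800, .ofNat 476532, .ofNat 780006, .ofNat 348412,
      .negSucc 7796, .negSucc 124257, .negSucc 124595, .ofNat 277029, .negSucc 7487], [.ofNat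
      32400, .ofNat 9288, .ofNat 11142, .ofNat 610455, .ofNat 1200331, .ofNat 1367584, .ofNat
      494029, .ofNat 488323, .negSucc 26831], [.negSucc 16199, .negSucc 64043, .ofNat 1023390,
      .ofNat 2913399, .ofNat 3718271, .ofNat 1379028, .ofNat 31894, .negSucc 10217], [.negSucc
      8099, .ofNat 799578, .ofNat 2954250, .ofNat 4285566, .ofNat 1805258, .negSucc 695833,
      .ofNat 24882], [.ofNat 222750, .ofNat 1407780, .ofNat 2413674, .ofNat 1173636, .negSucc
      722843, .ofNat 29484], [.ofNat 255150, .ofNat 540918, .ofNat 302652, .negSucc 231587,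
      .ofNat 9828]]]

def V0l : List P2 :=
  [[[.ofNat 0, .ofNat 0, .ofNat 0, .ofNat 0, .ofNat 0, .ofNat 0, .ofNat 0, .ofNat 480, .ofNat
      17712, .ofNat 46848, .ofNat 115688, .ofNat 73512, .ofNat 176080, .ofNat 84240], [.ofNat 0,
      .ofNat 0, .ofNat 0, .ofNat 0, .ofNat 0, .ofNat 0, .ofNat 5040, .ofNat 186456, .ofNat
      501516, .ofNat 1208490, .ofNat 856298, .ofNat 2003952, .ofNat 1117576, .ofNat 86112],
      [.ofNat 0, .ofNat 0, .ofNat 0, .ofNat 0, .ofNat 0, .ofNat 42480, .ofNat 936648, .ofNat
      2343438, .ofNat 5280231, .ofNat 4206441, .ofNat 9887694, .ofNat 6514044, .ofNat 931032,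
      .negSucc 2807], [.ofNat 0, .ofNat 0, .ofNat 0, .ofNat 0, .ofNat 226200, .ofNat 2572092,
      .ofNat 5720682, .ofNat 12791385, .ofNat 11641594, .ofNat 26749407, .ofNat 21373088, .ofNat
      4338636, .negSucc 59603, .negSucc 4679], [.ofNat 0, .ofNat 0, .ofNat 0, .ofNat 360000,
      .ofNat 4659600, .ofNat 11022822, .ofNat 20020989, .ofNat 16197528, .ofNat 39960838, .ofNat
      43668009, .ofNat 11173496, .negSucc 1050413, .negSucc 416507, .negSucc 98279], [.ofNat 0,
      .ofNat 0, .ofNat 172800, .ofNat 5784408, .ofNat 16200666, .ofNat 22729629, .ofNat 13044714,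
      .ofNat 29406657, .ofNat 53918055, .ofNat 16812198, .negSucc 5588696, .negSucc 4280921,
      .negSucc 1399307, .negSucc 98279], [.ofNat 0, .ofNat 0, .ofNat 4483944, .ofNat 14896116,
      .ofNat 18994074, .ofNat 5775405, .ofNat 1174080, .ofNat 48166305, .ofNat 25122177, .negSucc
      17865635, .negSucc 20272474, .negSucc 7356257, .negSucc 822579, .ofNat 16848], [.ofNat 0,
      .ofNat 1846800, .ofNat 8048160, .ofNat 9795618, .negSucc 5601755, .negSucc 18252050, .ofNat
      46589190, .ofNat 51646791, .negSucc 26878292, .negSucc 51356237, .negSucc 22364494,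
      .negSucc 2408837, .ofNat 386264, .ofNat 16848], [.ofNat 291600, .ofNat 2464992, .ofNat
      1570644, .negSucc 12568697, .negSucc 18556739, .ofNat 48233673, .ofNat 84453786, .negSucc
      23921156, .negSucc 88041506, .negSucc 40217747, .negSucc 574688, .ofNat 1911468, .ofNat
      131976], [.ofNat 291600, .negSucc 766907, .negSucc 9011033, .negSucc 9051236, .ofNat
      44620323, .ofNat 88078506, .negSucc 28450460, .negSucc 119534771, .negSucc 49745583, .ofNat
      9092469, .ofNat 5717254, .ofNat 347172, .negSucc 44927], [.negSucc 218699, .negSucc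
      3233843, .negSucc 982691, .ofNat 33364053, .ofNat 57468453, .negSucc 41817035, .negSucc
      131025170, .negSucc 50100755, .ofNat 21669989, .ofNat 10018410, .negSucc 329713, .negSucc
      92351], [.negSucc 437399, .ofNat 1150362, .ofNat 16726878, .ofNat 22093281, .negSucc
      44827910, .negSucc 110506463, .negSucc 40703174, .ofNat 28615167, .ofNat 10428396, .negSucc
      2506325, .ofNat 6552], [.ofNat 328050, .ofNat 5081616, .ofNat 3273426, .negSucc 32959304,
      .negSucc 68358956, .negSucc 24597911, .ofNat 25688436, .ofNat 7260810, .negSucc 4009439,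
      .ofNat 143676], [.ofNat 692550, .negSucc 1071143, .negSucc 15506963, .negSucc 29581973,
      .negSucc 10855877, .ofNat 15576792, .ofNat 3785586, .negSucc 3111683, .ofNat 134316],
      [.negSucc 400949, .negSucc 4312763, .negSucc 8345321, .negSucc 3092165, .ofNat 5793570,
      .ofNat 1340568, .negSucc 1248767, .ofNat 53352], [.negSucc 546749, .negSucc 1159109,
      .negSucc 429839, .ofNat 959904, .ofNat 238356, .negSucc 198503, .ofNat 8424]],
    [[.ofNat 0, .ofNat 0, .ofNat 0, .ofNat 0, .ofNat 0, .ofNat 0, .ofNat 0, .negSucc 959,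
      .negSucc 35423, .negSucc 67775, .negSucc 122799, .negSucc 48479, .negSucc 68375, .negSucc
      56663, .negSucc 39919, .negSucc 28079], [.ofNat 0, .ofNat 0, .ofNat 0, .ofNat 0, .ofNat 0,
      .ofNat 0, .negSucc 10079, .negSucc 372911, .negSucc 747071, .negSucc 1357175, .negSucc
      639939, .negSucc 819509, .negSucc 694613, .negSucc 394223, .negSucc 277783, .negSucc
      26207], [.ofNat 0, .ofNat 0, .ofNat 0, .ofNat 0, .ofNat 0, .negSucc 84959, .negSucc
      1873295, .negSucc 3555215, .negSucc 5989847, .negSucc 3512369, .negSucc 4856552, .negSucc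
      4021430, .negSucc 1402385, .negSucc 920963, .negSucc 188231, .ofNat 19656], [.ofNat 0,
      .ofNat 0, .ofNat 0, .ofNat 0, .negSucc 452399, .negSucc 5144183, .negSucc 8453543, .negSucc
      14911919, .negSucc 12777853, .negSucc 15892164, .negSucc 12592311, .negSucc 2377662,
      .negSucc 653605, .negSucc 184515, .ofNat 255356, .ofNat 18408], [.ofNat 0, .ofNat 0, .ofNat
      0, .negSucc 719999, .negSucc 9319199, .negSucc 17427563, .negSucc 25538441, .negSucc
      19548029, .negSucc 24961705, .negSucc 28822230, .negSucc 2898034, .ofNat 7296128, .ofNat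
      2815650, .ofNat 987938, .ofNat 343828, .ofNat 19344], [.ofNat 0, .ofNat 0, .negSucc 345599,
      .negSucc 11568815, .negSucc 28527011, .negSucc 34612493, .negSucc 18565235, .negSucc
      17508791, .negSucc 35115287, .ofNat 3023059, .ofNat 32448987, .ofNat 19020319, .ofNat
      4433043, .ofNat 1949470, .negSucc 26183, .ofNat 6864], [.ofNat 0, .ofNat 0, .negSucc
      8967887, .negSucc 28255391, .negSucc 36550631, .negSucc 21252215, .negSucc 13058882,
      .negSucc 44741330, .ofNat 1340598, .ofNat 98967367, .ofNat 87637860, .ofNat 19903924,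
      .ofNat 4579661, .negSucc 393667, .negSucc 97015, .negSucc 9983], [.ofNat 0, .negSucc
      3693599, .negSucc 15901919, .negSucc 25617203, .negSucc 18452753, .negSucc 44952374,
      .negSucc 131378807, .negSucc 73319993, .ofNat 196078957, .ofNat 253707126, .ofNat 77425413,
      .ofNat 6145485, .negSucc 3028089, .negSucc 1164587, .ofNat 29952], [.negSucc 583199,
      .negSucc 4929983, .negSucc 9542879, .negSucc 6825491, .negSucc 93737363, .negSucc
      275511506, .negSucc 239299262, .ofNat 231060861, .ofNat 467720539, .ofNat 185656998,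
      .negSucc 4500847, .negSucc 11204441, .negSucc 4058233, .ofNat 177216], [.negSucc 583199,
      .negSucc 1236383, .negSucc 57347, .negSucc 105317783, .negSucc 346056971, .negSucc
      372954092, .ofNat 162565293, .ofNat 578923017, .ofNat 267349369, .negSucc 44919023,
      .negSucc 28716843, .negSucc 7799381, .ofNat 380952], [.ofNat 0, .ofNat 923400, .negSucc
      69620687, .negSucc 274055579, .negSucc 342817937, .ofNat 65509719, .ofNat 493596774, .ofNat
      240033876, .negSucc 102118738, .negSucc 54019271, .negSucc 8507163, .ofNat 539292], [.ofNat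
      145800, .negSucc 26007803, .negSucc 134137025, .negSucc 190873718, .ofNat 17249109, .ofNat
      291208440, .ofNat 130801461, .negSucc 129739616, .negSucc 68897759, .negSucc 2650319,
      .ofNat 405756], [.negSucc 4155299, .negSucc 37434635, .negSucc 59297345, .ofNat 13208445,
      .ofNat 119360967, .ofNat 35970222, .negSucc 104350145, .negSucc 56814209, .ofNat 5363340,
      .negSucc 935], [.negSucc 4519799, .negSucc 7042625, .ofNat 11307654, .ofNat 35045532,
      .ofNat 768678, .negSucc 53645063, .negSucc 29075729, .ofNat 7454148, .negSucc 231191],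
      [.ofNat 400950, .ofNat 4312764, .ofNat 7980822, .negSucc 1835873, .negSucc 16529957,
      .negSucc 8333459, .ofNat 3946716, .negSucc 154439], [.ofNat 546750, .ofNat 1159110,
      .negSucc 226259, .negSucc 2350835, .negSucc 1016603, .ofNat 794016, .negSucc 33695]],
    [[.ofNat 0, .ofNat 0, .ofNat 0, .ofNat 0, .ofNat 0, .ofNat 0, .ofNat 0, .ofNat 480, .ofNat
      17712, .ofNat 20928, .ofNat 7112, .ofNat 408, .negSucc 16839, .negSucc 16199, .negSucc
      7983, .negSucc 5615], [.ofNat 0, .ofNat 0, .ofNat 0, .ofNat 0, .ofNat 0, .ofNat 0, .ofNat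
      5040, .ofNat 186456, .ofNat 245556, .ofNat 148686, .ofNat 34562, .negSucc 311093, .negSucc
      275181, .negSucc 20303, .negSucc 9975, .negSucc 3743], [.ofNat 0, .ofNat 0, .ofNat 0,
      .ofNat 0, .ofNat 0, .ofNat 42480, .ofNat 936648, .ofNat 1211778, .ofNat 709617, .ofNat
      357669, .negSucc 1506902, .negSucc 1769810, .negSucc 259001, .ofNat 100788, .ofNat 119640,
      .ofNat 57096], [.ofNat 0, .ofNat 0, .ofNat 0, .ofNat 0, .ofNat 226200, .ofNat 2572092,
      .ofNat 2732862, .ofNat 2120535, .ofNat 3531760, .negSucc 3771127, .negSucc 7999827,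
      .negSucc 1957414, .ofNat 1054418, .ofNat 988804, .ofNat 454588, .ofNat 47112], [.ofNat 0,
      .ofNat 0, .ofNat 0, .ofNat 360000, .ofNat 4659600, .ofNat 6404742, .ofNat 5517453, .ofNat
      6056082, .negSucc 9669253, .negSucc 17631349, .negSucc 4766492, .ofNat 2762260, .ofNat
      4433586, .ofNat 2125642, .negSucc 174891, .negSucc 77375], [.ofNat 0, .ofNat 0, .ofNat
      172800, .ofNat 5784408, .ofNat 12326346, .ofNat 11882865, .ofNat 5431062, .negSucc
      20963690, .negSucc 35030114, .negSucc 13666782, .ofNat 12808596, .ofNat 20402507, .ofNat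
      4709775, .negSucc 3396873, .negSucc 418463, .negSucc 42431], [.ofNat 0, .ofNat 0, .ofNat
      4483944, .ofNat 13359276, .ofNat 17556558, .ofNat 11121171, .negSucc 27365672, .negSucc
      66959015, .negSucc 40394366, .ofNat 35990159, .ofNat 59642777, .ofNat 8163026, .negSucc
      13967814, .negSucc 1699575, .ofNat 44576, .ofNat 24960], [.ofNat 0, .ofNat 1846800, .ofNat
      7853760, .ofNat 15821586, .ofNat 18630750, .negSucc 19902905, .negSucc 90950789, .negSucc
      73325642, .ofNat 60831536, .ofNat 110039742, .ofNat 7679360, .negSucc 36701810, .negSucc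
      4037127, .ofNat 2222232, .negSucc 7487], [.ofNat 291600, .ofNat 2464992, .ofNat 7972236,
      .ofNat 16517070, .negSucc 9231599, .negSucc 88260833, .negSucc 80918738, .ofNat 82523826,
      .ofNat 145367840, .negSucc 5501651, .negSucc 72577092, .negSucc 7438889, .ofNat 9095756,
      .negSucc 304511], [.ofNat 291600, .ofNat 2003292, .ofNat 8485182, .negSucc 6368282,
      .negSucc 66943682, .negSucc 59625674, .ofNat 90716778, .ofNat 149319615, .negSucc 19079702,
      .negSucc 103044632, .negSucc 12732605, .ofNat 17715684, .negSucc 737567], [.ofNat 218700,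
      .ofNat 2310444, .negSucc 5844419, .negSucc 39741488, .negSucc 34451474, .ofNat 69743787,
      .ofNat 118943715, .negSucc 15280391, .negSucc 98856419, .negSucc 16167485, .ofNat 19989900,
      .negSucc 864863], [.ofNat 291600, .negSucc 2844557, .negSucc 17328491, .negSucc 17648189,
      .ofNat 33416958, .ofNat 67306470, .negSucc 3165143, .negSucc 60252977, .negSucc 12635537,
      .ofNat 13439256, .negSucc 579383], [.negSucc 546749, .negSucc 4621859, .negSucc 6568019,
      .ofNat 8405676, .ofNat 23020002, .ofNat 1860660, .negSucc 20900303, .negSucc 5431067,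
      .ofNat 4995072, .negSucc 213407], [.negSucc 546749, .negSucc 1159109, .ofNat 773010, .ofNat
      3509946, .ofNat 790344, .negSucc 3144851, .negSucc 982907, .ofNat 794016, .negSucc 33695],
      [], []]]

def V1l : List P2 :=
  [[[.ofNat 0, .ofNat 0, .ofNat 0, .ofNat 0, .ofNat 0, .ofNat 0, .ofNat 0, .ofNat 0, .ofNat
      54000, .ofNat 296856, .ofNat 172824, .ofNat 44560, .ofNat 720, .negSucc 31935, .negSucc
      22463], [.ofNat 0, .ofNat 0, .ofNat 0, .ofNat 0, .ofNat 0, .ofNat 0, .ofNat 0, .ofNat
      513000, .ofNat 2874132, .ofNat 1930584, .ofNat 543062, .ofNat 20134, .negSucc 221071,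
      .negSucc 188367, .negSucc 20591], [.ofNat 0, .ofNat 0, .ofNat 0, .ofNat 0, .ofNat 0, .ofNat
      0, .ofNat 2107920, .ofNat 12055248, .ofNat 9330414, .ofNat 2354661, .negSucc 132840,
      .negSucc 463153, .negSucc 509071, .negSucc 86679, .ofNat 31824], [.ofNat 0, .ofNat 0,
      .ofNat 0, .ofNat 0, .ofNat 0, .ofNat 4905240, .ofNat 28467444, .ofNat 25178904, .ofNat
      4086180, .negSucc 2338608, .negSucc 191670, .ofNat 30860, .ofNat 196732, .ofNat 297320,
      .ofNat 28080], [.ofNat 0, .ofNat 0, .ofNat 0, .ofNat 0, .ofNat 6947310, .ofNat 41738703,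
      .ofNat 43177737, .negSucc 377564, .negSucc 12679666, .negSucc 670329, .ofNat 3562306,
      .ofNat 1925066, .ofNat 1026688, .ofNat 195776, .negSucc 8423], [.ofNat 0, .ofNat 0, .ofNat
      0, .ofNat 6311880, .ofNat 39107550, .ofNat 46337361, .negSucc 14454089, .negSucc 28668209,
      .negSucc 2446303, .ofNat 8653397, .ofNat 4999552, .ofNat 1838864, .ofNat 343756, .negSucc
      151011, .negSucc 8423], [.ofNat 0, .ofNat 0, .ofNat 3882600, .ofNat 22868118, .ofNat
      27936282, .negSucc 28918133, .negSucc 39339668, .negSucc 2664482, .ofNat 16595311, .ofNat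
      11008769, .ofNat 964570, .negSucc 1099525, .negSucc 728593, .negSucc 57563], [.ofNat 0,
      .ofNat 1555200, .ofNat 7760232, .ofNat 7362882, .negSucc 29967155, .negSucc 40064135,
      .negSucc 2128238, .ofNat 23183397, .ofNat 20017426, .ofNat 1199402, .negSucc 5397642,
      .negSucc 2390638, .negSucc 132869, .ofNat 22464], [.ofNat 291600, .ofNat 1395792, .negSucc
      427733, .negSucc 17677412, .negSucc 26355644, .negSucc 3063734, .ofNat 14519586, .ofNat
      22296981, .ofNat 1876234, .negSucc 13949127, .negSucc 4893792, .ofNat 120823, .ofNat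
      23712], [.ofNat 145800, .negSucc 857303, .negSucc 5253335, .negSucc 8154188, .negSucc
      3558563, .ofNat 1807356, .ofNat 13533054, .negSucc 6030434, .negSucc 26196103, .negSucc
      8395229, .ofNat 371060, .negSucc 26987], [.negSucc 218699, .negSucc 463643, .negSucc
      753137, .negSucc 2433941, .negSucc 1765982, .ofNat 2329038, .negSucc 14298935, .negSucc
      31736708, .negSucc 13170551, .negSucc 154487, .ofNat 2574], [.ofNat 0, .ofNat 0, .negSucc
      1228769, .negSucc 2668499, .negSucc 3414809, .negSucc 11975048, .negSucc 23683844, .negSucc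
      14022491, .negSucc 366809, .ofNat 64116], [.ofNat 0, .negSucc 583199, .negSucc 2192453,
      .negSucc 3330971, .negSucc 5883851, .negSucc 10757885, .negSucc 8418623, .ofNat 287808,
      .ofNat 25740], [.negSucc 109349, .negSucc 815021, .negSucc 1438991, .negSucc 1913471,
      .negSucc 2781503, .negSucc 2537261, .ofNat 526086, .negSucc 15443], [.negSucc 109349,
      .negSucc 231821, .negSucc 348407, .negSucc 364391, .negSucc 263627, .ofNat 198504, .negSucc
      8423]],
    [[.ofNat 0, .ofNat 0, .ofNat 0, .ofNat 0, .ofNat 0, .ofNat 0, .ofNat 0, .ofNat 0, .negSucc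
      82079, .negSucc 485135, .negSucc 247103, .ofNat 194664, .ofNat 110376, .ofNat 23952, .ofNat
      16848], [.ofNat 0, .ofNat 0, .ofNat 0, .ofNat 0, .ofNat 0, .ofNat 0, .ofNat 0, .negSucc
      795959, .negSucc 4797035, .negSucc 2887055, .ofNat 1818486, .ofNat 1388454, .ofNat 260064,
      .ofNat 127032, .ofNat 14976], [.ofNat 0, .ofNat 0, .ofNat 0, .ofNat 0, .ofNat 0, .ofNat 0,
      .negSucc 3313739, .negSucc 20473397, .negSucc 14714219, .ofNat 7285447, .ofNat 7812993,
      .ofNat 1553842, .ofNat 339972, .ofNat 27304, .negSucc 32759], [.ofNat 0, .ofNat 0, .ofNat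
      0, .ofNat 0, .ofNat 0, .negSucc 7714319, .negSucc 49679291, .negSucc 43559141, .ofNat
      17130264, .ofNat 26868491, .ofNat 6018381, .negSucc 87381, .negSucc 326819, .negSucc
      274251, .negSucc 27767], [.ofNat 0, .ofNat 0, .ofNat 0, .ofNat 0, .negSucc 11312399,
      .negSucc 75078707, .negSucc 78975431, .ofNat 28690140, .ofNat 59168024, .ofNat 15185808,
      .negSucc 1126599, .negSucc 1432625, .negSucc 1223241, .negSucc 37283, .ofNat 21840],
      [.ofNat 0, .ofNat 0, .ofNat 0, .negSucc 11197799, .negSucc 72386075, .negSucc 87738563,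
      .ofNat 37349298, .ofNat 86718936, .ofNat 27307925, .ofNat 1973827, .ofNat 65339, .negSucc
      2135998, .ofNat 633938, .ofNat 130120, .ofNat 11856], [.ofNat 0, .ofNat 0, .negSucc
      7527599, .negSucc 43966511, .negSucc 59613377, .ofNat 30472797, .ofNat 78755025, .ofNat
      31459449, .ofNat 21116158, .ofNat 21061715, .ofNat 3201547, .ofNat 2868347, .ofNat 541420,
      .ofNat 5624, .negSucc 4991], [.ofNat 0, .negSucc 3110399, .negSucc 16273007, .negSucc
      25548227, .negSucc 2535671, .ofNat 10306191, .ofNat 147537, .ofNat 57217719, .ofNat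
      81117991, .ofNat 28086522, .ofNat 7127218, .ofNat 1355262, .negSucc 380635, .negSucc 2495],
      [.negSucc 583199, .negSucc 3569183, .negSucc 7736687, .negSucc 38673161, .negSucc 86011943,
      .negSucc 72146207, .ofNat 68137518, .ofNat 149213262, .ofNat 74166354, .ofNat 13475070,
      .ofNat 2102112, .negSucc 1504457, .ofNat 44928], [.negSucc 437399, .negSucc 1704887,
      .negSucc 42214715, .negSucc 122630183, .negSucc 124341302, .ofNat 23272959, .ofNat
      151494753, .ofNat 103316799, .ofNat 17939640, .ofNat 2403588, .negSucc 2539943, .ofNat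
      103896], [.negSucc 145799, .negSucc 20137895, .negSucc 79611713, .negSucc 102596714,
      .negSucc 25746797, .ofNat 80646459, .ofNat 77526945, .ofNat 14979291, .ofNat 2048820,
      .negSucc 2259923, .ofNat 97812], [.negSucc 3717899, .negSucc 25766747, .negSucc 43803773,
      .negSucc 29357864, .ofNat 12336309, .ofNat 25428432, .ofNat 7541394, .ofNat 1049328,
      .negSucc 1050263, .ofNat 44928], [.negSucc 3353399, .negSucc 8081207, .negSucc 11377367,
      .negSucc 8779967, .negSucc 1949399, .ofNat 2675430, .ofNat 202554, .negSucc 198503, .ofNat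
      8424], [.negSucc 182249, .negSucc 2135969, .negSucc 4672727, .negSucc 3107321, .ofNat
      1051218, .negSucc 37907], [.negSucc 328049, .negSucc 695465, .negSucc 389123, .ofNat
      297756, .negSucc 12635]],
    [[.ofNat 0, .ofNat 0, .ofNat 0, .ofNat 0, .ofNat 0, .ofNat 0, .ofNat 0, .ofNat 0, .ofNat
      28080, .ofNat 188280, .ofNat 99720, .negSucc 148359, .negSucc 99719, .negSucc 39919,
      .negSucc 28079], [.ofNat 0, .ofNat 0, .ofNat 0, .ofNat 0, .ofNat 0, .ofNat 0, .ofNat 0,
      .ofNat 282960, .ofNat 1922904, .ofNat 1181952, .negSucc 1579063, .negSucc 1272183, .negSucc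
      319503, .negSucc 192727, .negSucc 24335], [.ofNat 0, .ofNat 0, .ofNat 0, .ofNat 0, .ofNat
      0, .ofNat 0, .ofNat 1205340, .ofNat 8400438, .ofNat 6189858, .negSucc 6878897, .negSucc
      7063129, .negSucc 1526307, .negSucc 398523, .ofNat 4768, .ofNat 66456], [.ofNat 0, .ofNat
      0, .ofNat 0, .ofNat 0, .ofNat 0, .ofNat 2799120, .ofNat 21007716, .ofNat 19729746, .negSucc
      16582283, .negSucc 23950675, .negSucc 5350495, .ofNat 896374, .ofNat 869840, .ofNat 525436,
      .ofNat 55224], [.ofNat 0, .ofNat 0, .ofNat 0, .ofNat 0, .ofNat 4314750, .ofNat 32393379,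
      .ofNat 35822085, .negSucc 25894520, .negSucc 47339310, .negSucc 11513953, .ofNat 4955366,
      .ofNat 5099020, .ofNat 2304206, .negSucc 83923, .negSucc 57095], [.ofNat 0, .ofNat 0,
      .ofNat 0, .ofNat 4802400, .ofNat 30844194, .ofNat 36495345, .negSucc 29450693, .negSucc
      63897503, .negSucc 21307680, .ofNat 17643550, .ofNat 22462079, .ofNat 5195557, .negSucc
      2520753, .negSucc 239347, .negSucc 27143], [.ofNat 0, .ofNat 0, .ofNat 3601800, .ofNat
      17371494, .ofNat 21330564, .negSucc 26038022, .negSucc 74969543, .negSucc 43241345, .ofNat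
      40758341, .ofNat 61359922, .ofNat 10165145, .negSucc 9492738, .negSucc 901281, .ofNat
      40692, .ofNat 14976], [.ofNat 0, .ofNat 1555200, .ofNat 5196528, .ofNat 8015130, .negSucc
      17744165, .negSucc 78882308, .negSucc 70619717, .ofNat 55592352, .ofNat 104587361, .ofNat
      16203502, .negSucc 22644238, .negSucc 2468898, .ofNat 1224234, .negSucc 14975], [.ofNat
      291600, .ofNat 618192, .ofNat 2909250, .negSucc 9281006, .negSucc 65029670, .negSucc
      75962924, .ofNat 53470302, .ofNat 124491309, .ofNat 15222938, .negSucc 43822879, .negSucc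
      6705922, .ofNat 3957311, .negSucc 158495], [.ofNat 0, .ofNat 1166400, .negSucc 4308551,
      .negSucc 39353228, .negSucc 52493498, .ofNat 45223899, .ofNat 115163889, .ofNat 8655642,
      .negSucc 64176117, .negSucc 15452939, .ofNat 5814280, .negSucc 239771], [.ofNat 218700,
      .negSucc 1869155, .negSucc 17201483, .negSucc 23334938, .ofNat 34911777, .ofNat 86029161,
      .ofNat 5130075, .negSucc 65947235, .negSucc 22905329, .ofNat 5122170, .negSucc 153737],
      [.negSucc 437399, .negSucc 5204087, .negSucc 5991731, .ofNat 22032441, .ofNat 49466577,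
      .ofNat 4109379, .negSucc 46719182, .negSucc 20857703, .ofNat 3681738, .negSucc 80027],
      [.negSucc 801899, .negSucc 144827, .ofNat 9965538, .ofNat 20323152, .ofNat 2516628,
      .negSucc 22924559, .negSucc 11599769, .ofNat 2746236, .negSucc 80495], [.ofNat 291600,
      .ofNat 2950992, .ofNat 5747220, .ofNat 748854, .negSucc 7615169, .negSucc 3639473, .ofNat
      1576350, .negSucc 60371], [.ofNat 437400, .ofNat 927288, .ofNat 81432, .negSucc 1324295,
      .negSucc 501983, .ofNat 397008, .negSucc 16847]],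
    [[], [], [.ofNat 0, .ofNat 0, .ofNat 0, .ofNat 0, .ofNat 0, .ofNat 0, .ofNat 480, .ofNat
      17712, .ofNat 20208, .negSucc 19455, .negSucc 30623, .negSucc 14223, .negSucc 1295, .ofNat
      15968, .ofNat 11232], [.ofNat 0, .ofNat 0, .ofNat 0, .ofNat 0, .ofNat 0, .ofNat 9960,
      .ofNat 204132, .ofNat 219732, .negSucc 289799, .negSucc 384655, .negSucc 22811, .ofNat
      70276, .ofNat 98496, .ofNat 84688, .ofNat 9984], [.ofNat 0, .ofNat 0, .ofNat 0, .ofNat 0,
      .ofNat 50340, .ofNat 946626, .ofNat 1111950, .negSucc 1432535, .negSucc 2129167, .ofNat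
      54042, .ofNat 706774, .ofNat 403020, .ofNat 274456, .ofNat 28848, .negSucc 14351], [.ofNat
      0, .ofNat 0, .ofNat 0, .ofNat 83520, .ofNat 2434332, .ofNat 3680058, .negSucc 3495857,
      .negSucc 7400447, .negSucc 441031, .ofNat 3300266, .ofNat 1620454, .ofNat 462980, .negSucc
      106039, .negSucc 126375, .negSucc 11855], [.ofNat 0, .ofNat 0, .ofNat 43200, .ofNat
      3726900, .ofNat 7216692, .negSucc 4715771, .negSucc 14732627, .negSucc 2598119, .ofNat
      7051040, .ofNat 4430332, .ofNat 1018028, .negSucc 837715, .negSucc 601323, .negSucc 5623,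
      .ofNat 4992], [.ofNat 0, .ofNat 0, .ofNat 3316248, .ofNat 7876296, .negSucc 3661205,
      .negSucc 16813337, .negSucc 5353925, .ofNat 8517882, .ofNat 8807114, .ofNat 1901562,
      .negSucc 3488865, .negSucc 1484897, .ofNat 380636, .ofNat 2496], [.ofNat 0, .ofNat 1555200,
      .ofNat 4671972, .negSucc 1985921, .negSucc 12687815, .negSucc 6637001, .ofNat 9024774,
      .ofNat 14515428, .ofNat 1281084, .negSucc 8952161, .negSucc 2245085, .ofNat 1504458,
      .negSucc 44927], [.ofNat 291600, .ofNat 1395792, .negSucc 1343195, .negSucc 8157653,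
      .negSucc 6298025, .ofNat 9375216, .ofNat 17999184, .ofNat 35466, .negSucc 13189505,
      .negSucc 2544923, .ofNat 2539944, .negSucc 103895], [.ofNat 145800, .negSucc 857303,
      .negSucc 4571423, .negSucc 4743971, .ofNat 6358044, .ofNat 14319780, .ofNat 317172,
      .negSucc 10978427, .negSucc 2151779, .ofNat 2259924, .negSucc 97811], [.negSucc 218699,
      .negSucc 1630043, .negSucc 2294783, .ofNat 2075040, .ofNat 6295932, .ofNat 695124, .negSucc
      4832711, .negSucc 1095191, .ofNat 1050264, .negSucc 44927], [.negSucc 218699, .negSucc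
      463643, .ofNat 177984, .ofNat 1125792, .ofNat 291708, .negSucc 860651, .negSucc 242567,
      .ofNat 198504, .negSucc 8423], [], []]]

def M0l : List P2 :=
  [[[.ofNat 0, .ofNat 0, .ofNat 0, .ofNat 0, .ofNat 0, .ofNat 0, .ofNat 0, .ofNat 480, .ofNat
      17712, .ofNat 46848, .ofNat 115688, .ofNat 73512, .ofNat 176080, .ofNat 84240], [.ofNat 0,
      .ofNat 0, .ofNat 0, .ofNat 0, .ofNat 0, .ofNat 0, .ofNat 5040, .ofNat 186936, .ofNat
      519228, .ofNat 1255338, .ofNat 971986, .ofNat 2077464, .ofNat 1293656, .ofNat 170352],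
      [.ofNat 0, .ofNat 0, .ofNat 0, .ofNat 0, .ofNat 0, .ofNat 42480, .ofNat 941688, .ofNat
      2530374, .ofNat 5799459, .ofNat 5461779, .ofNat 10859680, .ofNat 8591508, .ofNat 2224688,
      .ofNat 167544], [.ofNat 0, .ofNat 0, .ofNat 0, .ofNat 0, .ofNat 226200, .ofNat 2614572,
      .ofNat 6662370, .ofNat 15321759, .ofNat 17441053, .ofNat 32211186, .ofNat 32232768, .ofNat
      12930144, .ofNat 2165084, .ofNat 162864], [.ofNat 0, .ofNat 0, .ofNat 0, .ofNat 360000,
      .ofNat 4885800, .ofNat 13637394, .ofNat 26683359, .ofNat 31519287, .ofNat 57401891, .ofNat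
      75879195, .ofNat 43406264, .ofNat 11879730, .ofNat 1748576, .ofNat 64584], [.ofNat 0,
      .ofNat 0, .ofNat 172800, .ofNat 6144408, .ofNat 21086466, .ofNat 36367023, .ofNat 39728073,
      .ofNat 60925944, .ofNat 111319946, .ofNat 92691393, .ofNat 37817567, .ofNat 7598808, .ofNat
      349268, .negSucc 33695], [.ofNat 0, .ofNat 0, .ofNat 4656744, .ofNat 21040524, .ofNat
      40080540, .ofNat 42142428, .ofNat 40902153, .ofNat 109092249, .ofNat 136442123, .ofNat
      74825757, .ofNat 17545092, .ofNat 242550, .negSucc 473311, .negSucc 16847], [.ofNat 0,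
      .ofNat 1846800, .ofNat 12704904, .ofNat 30836142, .ofNat 34478784, .ofNat 23890377, .ofNat
      87491343, .ofNat 160739040, .ofNat 109563830, .ofNat 23469519, .negSucc 4819402, .negSucc
      2166287, .negSucc 87047], [.ofNat 291600, .ofNat 4311792, .ofNat 14275548, .ofNat 18267444,
      .ofNat 15922044, .ofNat 72124050, .ofNat 171945129, .ofNat 136817883, .ofNat 21522323,
      .negSucc 16748228, .negSucc 5394091, .negSucc 254819, .ofNat 44928], [.ofNat 583200, .ofNat
      3544884, .ofNat 5264514, .ofNat 9216207, .ofNat 60542367, .ofNat 160202556, .ofNat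
      143494668, .ofNat 17283111, .negSucc 28223260, .negSucc 7655759, .ofNat 323162, .ofNat
      92352], [.ofNat 364500, .ofNat 311040, .ofNat 4281822, .ofNat 42580260, .ofNat 118010820,
      .ofNat 118385520, .ofNat 12469497, .negSucc 32817644, .negSucc 6553271, .ofNat 2362650,
      .negSucc 6551], [.negSucc 72899, .ofNat 1461402, .ofNat 21008700, .ofNat 64673541, .ofNat
      73182909, .ofNat 7879056, .negSucc 28233677, .negSucc 4202477, .ofNat 3875124, .negSucc
      143675], [.ofNat 255150, .ofNat 6543018, .ofNat 24282126, .ofNat 31714236, .ofNat 4823952,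
      .negSucc 16718855, .negSucc 2545241, .ofNat 3058332, .negSucc 134315], [.ofNat 947700,
      .ofNat 5471874, .ofNat 8775162, .ofNat 2132262, .negSucc 6031925, .negSucc 1142063, .ofNat
      1240344, .negSucc 53351], [.ofNat 546750, .ofNat 1159110, .ofNat 429840, .negSucc 959903,
      .negSucc 238355, .ofNat 198504, .negSucc 8423], [], []],
    [[.ofNat 0, .ofNat 0, .ofNat 0, .ofNat 0, .ofNat 0, .ofNat 0, .ofNat 0, .negSucc 959,
      .negSucc 35423, .negSucc 67775, .negSucc 122799, .negSucc 48479, .negSucc 68375, .negSucc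
      56663, .negSucc 39919, .negSucc 28079], [.ofNat 0, .ofNat 0, .ofNat 0, .ofNat 0, .ofNat 0,
      .ofNat 0, .negSucc 10079, .negSucc 373871, .negSucc 782495, .negSucc 1424951, .negSucc
      762739, .negSucc 867989, .negSucc 762989, .negSucc 450887, .negSucc 317703, .negSucc
      54287], [.ofNat 0, .ofNat 0, .ofNat 0, .ofNat 0, .ofNat 0, .negSucc 84959, .negSucc
      1883375, .negSucc 3928607, .negSucc 6754631, .negSucc 4889273, .negSucc 5459324, .negSucc
      4803308, .negSucc 2165375, .negSucc 1371851, .negSucc 505935, .negSucc 34631], [.ofNat 0,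
      .ofNat 0, .ofNat 0, .ofNat 0, .negSucc 452399, .negSucc 5229143, .negSucc 10326479,
      .negSucc 18618683, .negSucc 18989425, .negSucc 19108126, .negSucc 17025476, .negSucc
      7096107, .negSucc 2818981, .negSucc 1556367, .negSucc 250579, .negSucc 16223], [.ofNat 0,
      .ofNat 0, .ofNat 0, .negSucc 719999, .negSucc 9771599, .negSucc 22596407, .negSucc
      34714163, .negSucc 35405471, .negSucc 35546847, .negSucc 41320221, .negSucc 18786343,
      .negSucc 1181467, .negSucc 1155331, .negSucc 568429, .ofNat 93248, .ofNat 3120], [.ofNat 0,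
      .ofNat 0, .negSucc 345599, .negSucc 12288815, .negSucc 38164751, .negSucc 53827943,
      .negSucc 44691431, .negSucc 25325261, .negSucc 41084099, .negSucc 30135762, .negSucc
      368980, .ofNat 4368851, .ofNat 2125711, .ofNat 1381040, .ofNat 67064, .ofNat 9984], [.ofNat
      0, .ofNat 0, .negSucc 9313487, .negSucc 40417487, .negSucc 68554151, .negSucc 57794849,
      .ofNat 7898943, .ofNat 24970743, .negSucc 2290649, .ofNat 7225448, .ofNat 17710807, .ofNat
      12239175, .ofNat 6705372, .ofNat 987372, .negSucc 29951], [.ofNat 0, .negSucc 3693599,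
      .negSucc 25172207, .negSucc 58991543, .negSucc 64545797, .ofNat 12421929, .ofNat 91034325,
      .ofNat 64354551, .ofNat 42052397, .ofNat 52425562, .ofNat 40318492, .ofNat 18435828, .ofNat
      3677282, .negSucc 177215], [.negSucc 583199, .negSucc 8623583, .negSucc 29843639, .negSucc
      47195927, .negSucc 12389621, .ofNat 72345840, .ofNat 78131436, .ofNat 67254078, .ofNat
      108798526, .ofNat 96029712, .ofNat 36374892, .ofNat 7243242, .negSucc 380951], [.negSucc
      1166399, .negSucc 8013167, .negSucc 20344823, .negSucc 23913053, .ofNat 2247408, .ofNat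
      6214273, .ofNat 29203391, .ofNat 131827947, .ofNat 147246159, .ofNat 54103104, .ofNat
      7954456, .negSucc 539291], [.negSucc 874799, .negSucc 4316975, .negSucc 15453611, .negSucc
      36122111, .negSucc 62279915, .negSucc 40629777, .ofNat 81683215, .ofNat 138640599, .ofNat
      55655828, .ofNat 2090412, .negSucc 390779], [.negSucc 388799, .negSucc 4825655, .negSucc
      27227825, .negSucc 64397798, .negSucc 69809714, .ofNat 5844420, .ofNat 70873410, .ofNat
      33783924, .negSucc 6127293, .ofNat 63336], [.negSucc 631799, .negSucc 9188315, .negSucc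
      30878279, .negSucc 48184037, .negSucc 30596519, .ofNat 4634404, .ofNat 5674820, .negSucc
      7819229, .ofNat 318240], [.negSucc 1239299, .negSucc 7629065, .negSucc 18443645, .negSucc
      24674039, .negSucc 18811979, .negSucc 7917639, .negSucc 3080563, .ofNat 184236], [.negSucc
      789749, .negSucc 3828869, .negSucc 9667619, .negSucc 12857183, .negSucc 6599195, .ofNat
      685944, .negSucc 1403], [.negSucc 340199, .negSucc 2106323, .negSucc 3838211, .negSucc
      2132459, .ofNat 890892, .negSucc 33695], [.negSucc 218699, .negSucc 463643, .negSucc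
      259415, .ofNat 198504, .negSucc 8423]],
    [[.ofNat 0, .ofNat 0, .ofNat 0, .ofNat 0, .ofNat 0, .ofNat 0, .ofNat 0, .ofNat 480, .ofNat
      17712, .ofNat 20928, .ofNat 7112, .ofNat 408, .negSucc 16839, .negSucc 16199, .negSucc
      7983, .negSucc 5615], [.ofNat 0, .ofNat 0, .ofNat 0, .ofNat 0, .ofNat 0, .ofNat 0, .ofNat
      5040, .ofNat 186936, .ofNat 263268, .ofNat 169614, .ofNat 41674, .negSucc 310685, .negSucc
      292021, .negSucc 36503, .negSucc 17959, .negSucc 9359], [.ofNat 0, .ofNat 0, .ofNat 0,
      .ofNat 0, .ofNat 0, .ofNat 42480, .ofNat 941688, .ofNat 1398234, .ofNat 955173, .ofNat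
      506595, .negSucc 1463484, .negSucc 2070560, .negSucc 535055, .ofNat 75516, .ofNat 101680,
      .ofNat 47736], [.ofNat 0, .ofNat 0, .ofNat 0, .ofNat 0, .ofNat 226200, .ofNat 2614572,
      .ofNat 3664110, .ofNat 3296925, .ofNat 4236553, .negSucc 3177120, .negSucc 9298412,
      .negSucc 3903527, .ofNat 615282, .ofNat 1074304, .ofNat 556268, .ofNat 94848], [.ofNat 0,
      .ofNat 0, .ofNat 0, .ofNat 360000, .ofNat 4885800, .ofNat 8959014, .ofNat 8030805, .ofNat
      7961505, .negSucc 4843410, .negSucc 19665940, .negSucc 13526301, .negSucc 806411, .ofNat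
      5071732, .ofNat 3174362, .ofNat 381376, .ofNat 17472], [.ofNat 0, .ofNat 0, .ofNat 172800,
      .ofNat 6144408, .ofNat 17078286, .ofNat 17460921, .ofNat 8546439, .negSucc 11232905,
      .negSucc 35019397, .negSucc 31485709, .negSucc 285897, .ofNat 19382599, .ofNat 9544859,
      .negSucc 244351, .negSucc 37087, .negSucc 24959], [.ofNat 0, .ofNat 0, .ofNat 4656744,
      .ofNat 19376964, .ofNat 28473612, .ofNat 17618922, .negSucc 15618077, .negSucc 65690333,
      .negSucc 70895792, .ofNat 4140907, .ofNat 57855295, .ofNat 26478125, .negSucc 4479267,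
      .negSucc 1924583, .ofNat 7488], [.ofNat 0, .ofNat 1846800, .ofNat 12467304, .ofNat
      28155402, .ofNat 32102034, .ofNat 2430804, .negSucc 85233221, .negSucc 131277536, .negSucc
      13827148, .ofNat 108294653, .ofNat 62859213, .negSucc 9759625, .negSucc 8368179, .ofNat
      309504], [.ofNat 291600, .ofNat 4311792, .ofNat 15568092, .ofNat 32250924, .ofNat 29807346,
      .negSucc 57853673, .negSucc 155435750, .negSucc 60453086, .ofNat 115895207, .ofNat
      98262285, .negSucc 6871549, .negSucc 16518239, .ofNat 745056], [.ofNat 583200, .ofNat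
      4468284, .ofNat 18028710, .ofNat 34408107, .negSucc 7222442, .negSucc 104395832, .negSucc
      84751034, .ofNat 61483386, .ofNat 91035814, .ofNat 3213624, .negSucc 17674245, .ofNat
      822432], [.ofNat 510300, .ofNat 5237136, .ofNat 18964638, .ofNat 18402372, .negSucc
      29498699, .negSucc 56150705, .ofNat 2058006, .ofNat 41894352, .ofNat 7535196, .negSucc
      9383153, .ofNat 430560], [.ofNat 656100, .ofNat 5315382, .ofNat 13759578, .ofNat 7386624,
      .negSucc 13236863, .negSucc 15762533, .negSucc 874565, .ofNat 3048828, .negSucc 304247,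
      .ofNat 11700], [.ofNat 619650, .ofNat 4083858, .ofNat 8259786, .ofNat 4200534, .negSucc
      7612355, .negSucc 10747211, .negSucc 1158035, .ofNat 2462820, .negSucc 109043], [.ofNat
      437400, .ofNat 2312388, .ofNat 3017844, .negSucc 1066427, .negSucc 4695587, .negSucc
      1192607, .ofNat 1240344, .negSucc 53351], [.ofNat 218700, .ofNat 463644, .ofNat 40716,
      .negSucc 662147, .negSucc 250991, .ofNat 198504, .negSucc 8423], [], []]]

def M1l : List P2 :=
  [[[.ofNat 0, .ofNat 0, .ofNat 0, .ofNat 0, .ofNat 0, .ofNat 0, .ofNat 0, .ofNat 0, .ofNat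
      54000, .ofNat 296856, .ofNat 172824, .ofNat 44560, .ofNat 720, .negSucc 31935, .negSucc
      22463], [.ofNat 0, .ofNat 0, .ofNat 0, .ofNat 0, .ofNat 0, .ofNat 0, .ofNat 0, .ofNat
      513000, .ofNat 2928132, .ofNat 2227440, .ofNat 715886, .ofNat 64694, .negSucc 220351,
      .negSucc 220303, .negSucc 43055], [.ofNat 0, .ofNat 0, .ofNat 0, .ofNat 0, .ofNat 0, .ofNat
      0, .ofNat 2107920, .ofNat 12568248, .ofNat 12258546, .ofNat 4582101, .ofNat 583045,
      .negSucc 398459, .negSucc 729423, .negSucc 306983, .negSucc 11231], [.ofNat 0, .ofNat 0,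
      .ofNat 0, .ofNat 0, .ofNat 0, .ofNat 4905240, .ofNat 30575364, .ofNat 37747152, .ofNat
      16344726, .ofNat 2243492, .ofNat 391374, .negSucc 367599, .negSucc 532691, .negSucc 9663,
      .ofNat 16848], [.ofNat 0, .ofNat 0, .ofNat 0, .ofNat 0, .ofNat 6947310, .ofNat 46643943,
      .ofNat 73753101, .ofNat 37369587, .ofNat 3665059, .ofNat 1573162, .ofNat 3953680, .ofNat
      1557466, .ofNat 493996, .ofNat 186112, .ofNat 8424], [.ofNat 0, .ofNat 0, .ofNat 0, .ofNat
      6311880, .ofNat 46054860, .ofNat 92981304, .ofNat 59299011, .ofNat 8701377, .ofNat 1218755,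
      .ofNat 10226559, .ofNat 8953232, .ofNat 3396330, .ofNat 837752, .ofNat 35100], [.ofNat 0,
      .ofNat 0, .ofNat 3882600, .ofNat 29179998, .ofNat 73991142, .ofNat 64063170, .ofNat
      19959342, .ofNat 6036894, .ofNat 17814066, .ofNat 21235328, .ofNat 9917802, .ofNat 2296804,
      .ofNat 109158, .negSucc 22463], [.ofNat 0, .ofNat 1555200, .ofNat 11642832, .ofNat
      36542880, .ofNat 44023986, .ofNat 23999034, .ofNat 17831103, .ofNat 29220291, .ofNat
      37831492, .ofNat 22434730, .ofNat 4520159, .negSucc 93834, .negSucc 23711], [.ofNat 291600,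
      .ofNat 2950992, .ofNat 11215098, .ofNat 18865467, .ofNat 17668341, .ofNat 20935299, .ofNat
      32350689, .ofNat 51517272, .ofNat 39707726, .ofNat 8485602, .negSucc 373633, .ofNat 26988],
      [.ofNat 437400, .ofNat 2093688, .ofNat 5961762, .ofNat 10711278, .ofNat 14109777, .ofNat
      22742655, .ofNat 45883743, .ofNat 45486837, .ofNat 13511622, .ofNat 90372, .negSucc 2573],
      [.ofNat 218700, .ofNat 1630044, .ofNat 5208624, .ofNat 8277336, .ofNat 12343794, .ofNat
      25071693, .ofNat 31584807, .ofNat 13750128, .ofNat 341070, .negSucc 64115], [.ofNat 218700,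
      .ofNat 1630044, .ofNat 3979854, .ofNat 5608836, .ofNat 8928984, .ofNat 13096644, .ofNat
      7900962, .negSucc 272363, .negSucc 25739], [.ofNat 218700, .ofNat 1046844, .ofNat 1787400,
      .ofNat 2277864, .ofNat 3045132, .ofNat 2338758, .negSucc 517661, .ofNat 15444], [.ofNat
      109350, .ofNat 231822, .ofNat 348408, .ofNat 364392, .ofNat 263628, .negSucc 198503, .ofNat
      8424], [], []],
    [[.ofNat 0, .ofNat 0, .ofNat 0, .ofNat 0, .ofNat 0, .ofNat 0, .ofNat 0, .ofNat 0, .negSucc
      82079, .negSucc 485135, .negSucc 247103, .ofNat 194664, .ofNat 110376, .ofNat 23952, .ofNat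
      16848], [.ofNat 0, .ofNat 0, .ofNat 0, .ofNat 0, .ofNat 0, .ofNat 0, .ofNat 0, .negSucc
      795959, .negSucc 4879115, .negSucc 3372191, .ofNat 1571382, .ofNat 1583118, .ofNat 370440,
      .ofNat 150984, .ofNat 31824], [.ofNat 0, .ofNat 0, .ofNat 0, .ofNat 0, .ofNat 0, .ofNat 0,
      .negSucc 3313739, .negSucc 21269357, .negSucc 19565975, .ofNat 4074967, .ofNat 9480423,
      .ofNat 3152928, .ofNat 721644, .ofNat 178288, .negSucc 935], [.ofNat 0, .ofNat 0, .ofNat 0,
      .ofNat 0, .ofNat 0, .negSucc 7714319, .negSucc 52993031, .negSucc 64563179, .negSucc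
      836699, .ofNat 32038470, .ofNat 15692148, .ofNat 3150234, .ofNat 404808, .negSucc 95963,
      .negSucc 28703], [.ofNat 0, .ofNat 0, .ofNat 0, .ofNat 0, .negSucc 11312399, .negSucc
      82793027, .negSucc 130864043, .negSucc 28478477, .ofNat 64988978, .ofNat 48706706, .ofNat
      13434228, .ofNat 578488, .negSucc 844017, .negSucc 133247, .negSucc 6863], [.ofNat 0,
      .ofNat 0, .ofNat 0, .negSucc 11197799, .negSucc 83698475, .negSucc 167963471, .negSucc
      71551025, .ofNat 86014968, .ofNat 100822889, .ofNat 38212037, .ofNat 955191, .negSucc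
      2920574, .negSucc 231919, .negSucc 3127, .ofNat 4992], [.ofNat 0, .ofNat 0, .negSucc
      7527599, .negSucc 55164311, .negSucc 139557833, .negSucc 90603980, .ofNat 86968413, .ofNat
      150919255, .ofNat 72437845, .ofNat 758472, .negSucc 7581297, .negSucc 86699, .ofNat 328844,
      .ofNat 2496], [.ofNat 0, .negSucc 3110399, .negSucc 23800607, .negSucc 77007779, .negSucc
      69096257, .ofNat 75787632, .ofNat 174113354, .ofNat 102139374, .negSucc 2321891, .negSucc
      16910139, .ofNat 95620, .ofNat 1397434, .negSucc 39935], [.negSucc 583199, .negSucc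
      6679583, .negSucc 29042495, .negSucc 35847737, .ofNat 52218150, .ofNat 153756604, .ofNat
      108387762, .negSucc 9389529, .negSucc 28983967, .negSucc 581191, .ofNat 2760992, .negSucc
      101399], [.negSucc 1020599, .negSucc 7347671, .negSucc 13964291, .ofNat 24803622, .ofNat
      97667709, .ofNat 79367273, .negSucc 21107608, .negSucc 39925726, .negSucc 2909817, .ofNat
      3485454, .negSucc 142739], [.negSucc 971999, .negSucc 3486239, .ofNat 8724726, .ofNat
      42881877, .ofNat 35730771, .negSucc 32247767, .negSucc 47257533, .negSucc 7196735, .ofNat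
      3053232, .negSucc 133847], [.negSucc 267299, .ofNat 2932524, .ofNat 13476456, .ofNat
      7780122, .negSucc 31323959, .negSucc 44521159, .negSucc 11175443, .ofNat 1849094, .negSucc
      58811], [.ofNat 656100, .ofNat 3010932, .negSucc 743471, .negSucc 19152071, .negSucc
      29597111, .negSucc 10618035, .ofNat 1086724, .negSucc 5303], [.ofNat 303750, .negSucc
      1170449, .negSucc 7576415, .negSucc 12793355, .negSucc 5981111, .ofNat 986076, .negSucc
      18251], [.negSucc 340199, .negSucc 1887623, .negSucc 3374567, .negSucc 1873043, .ofNat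
      692388, .negSucc 25271], [.negSucc 218699, .negSucc 463643, .negSucc 259415, .ofNat 198504,
      .negSucc 8423]],
    [[.ofNat 0, .ofNat 0, .ofNat 0, .ofNat 0, .ofNat 0, .ofNat 0, .ofNat 0, .ofNat 0, .ofNat
      28080, .ofNat 188280, .ofNat 99720, .negSucc 148359, .negSucc 99719, .negSucc 39919,
      .negSucc 28079], [.ofNat 0, .ofNat 0, .ofNat 0, .ofNat 0, .ofNat 0, .ofNat 0, .ofNat 0,
      .ofNat 282960, .ofNat 1950984, .ofNat 1370232, .negSucc 1479343, .negSucc 1420543, .negSucc
      419223, .negSucc 232647, .negSucc 52415], [.ofNat 0, .ofNat 0, .ofNat 0, .ofNat 0, .ofNat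
      0, .ofNat 0, .ofNat 1205820, .ofNat 8701110, .ofNat 8161050, .negSucc 5528121, .negSucc
      8573097, .negSucc 2961075, .negSucc 819043, .negSucc 211911, .ofNat 25272], [.ofNat 0,
      .ofNat 0, .ofNat 0, .ofNat 0, .ofNat 0, .ofNat 2809080, .ofNat 22417668, .ofNat 28650588,
      .negSucc 8711033, .negSucc 29863453, .negSucc 13946405, .negSucc 1994425, .ofNat 149292,
      .ofNat 398212, .ofNat 90480], [.ofNat 0, .ofNat 0, .ofNat 0, .ofNat 0, .ofNat 4365090,
      .ofNat 36149085, .ofNat 59351703, .ofNat 1323531, .negSucc 58179512, .negSucc 41323365,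
      .negSucc 8284265, .ofNat 3507614, .ofNat 2727954, .ofNat 343136, .ofNat 19032], [.ofNat 0,
      .ofNat 0, .ofNat 0, .ofNat 4885920, .ofNat 37643616, .ofNat 76324488, .ofNat 26405151,
      .negSucc 69974420, .negSucc 79928225, .negSucc 20379549, .ofNat 15798267, .ofNat 9166151,
      .ofNat 101160, .negSucc 22587, .negSucc 19967], [.ofNat 0, .ofNat 0, .ofNat 3645000, .ofNat
      25984314, .ofNat 66190872, .ofNat 45570693, .negSucc 63297020, .negSucc 115813886, .negSucc
      32118844, .ofNat 45410704, .ofNat 26981440, .negSucc 1164303, .negSucc 1401445, .ofNat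
      12480], [.ofNat 0, .ofNat 1555200, .ofNat 12157776, .ofNat 41875740, .ofNat 44785500,
      .negSucc 50124953, .negSucc 139270664, .negSucc 51703652, .ofNat 81275630, .ofNat 63515768,
      .ofNat 848335, .negSucc 5118100, .ofNat 203424], [.ofNat 291600, .ofNat 3728592, .ofNat
      19738998, .ofNat 30608811, .negSucc 32931986, .negSucc 132724880, .negSucc 76775588, .ofNat
      87303084, .ofNat 97779652, .ofNat 10740726, .negSucc 8102673, .ofNat 343668], [.ofNat
      583200, .ofNat 6290784, .ofNat 14087250, .negSucc 16902071, .negSucc 91723511, .negSucc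
      78125765, .ofNat 56387484, .ofNat 95994192, .ofNat 20414028, .negSucc 7257137, .ofNat
      251550], [.ofNat 947700, .ofNat 3564324, .negSucc 7685657, .negSucc 44980982, .negSucc
      50453690, .ofNat 22223175, .ofNat 61834731, .ofNat 19068528, .negSucc 4643081, .ofNat
      124956], [.ofNat 291600, .negSucc 3269807, .negSucc 15972173, .negSucc 20873501, .ofNat
      5308818, .ofNat 27027678, .ofNat 10282836, .negSucc 2884367, .ofNat 88920], [.negSucc
      728999, .negSucc 3878279, .negSucc 5828651, .ofNat 575442, .ofNat 8117154, .ofNat 3242466,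
      .negSucc 1559501, .ofNat 60372], [.negSucc 437399, .negSucc 927287, .negSucc 81431, .ofNat
      1324296, .ofNat 501984, .negSucc 397007, .ofNat 16848], [], []]]

def N0l : List P2 :=
  [[[.ofNat 0, .ofNat 0, .ofNat 0, .ofNat 0, .ofNat 0, .ofNat 0, .ofNat 0, .ofNat 240, .ofNat
      8856, .ofNat 23064, .ofNat 44560, .ofNat 720, .negSucc 31935, .negSucc 22463], [.ofNat 0,
      .ofNat 0, .ofNat 0, .ofNat 0, .ofNat 0, .ofNat 0, .ofNat 2520, .ofNat 93468, .ofNat 251784,
      .ofNat 460926, .ofNat 65414, .negSucc 252287, .negSucc 242767, .negSucc 43055], [.ofNat 0,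
      .ofNat 0, .ofNat 0, .ofNat 0, .ofNat 0, .ofNat 21240, .ofNat 470844, .ofNat 1220322, .ofNat
      2042115, .ofNat 528891, .negSucc 755259, .negSucc 1008479, .negSucc 318103, .ofNat 11232],
      [.ofNat 0, .ofNat 0, .ofNat 0, .ofNat 0, .ofNat 113100, .ofNat 1307286, .ofNat 3238620,
      .ofNat 5246679, .ofNat 1821401, .negSucc 1163555, .negSucc 1841597, .negSucc 699707, .ofNat
      221872, .ofNat 59904], [.ofNat 0, .ofNat 0, .ofNat 0, .ofNat 180000, .ofNat 2442900, .ofNat
      6768882, .ofNat 9491259, .ofNat 2407527, .negSucc 1677694, .negSucc 104726, .ofNat 664186,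
      .ofNat 1421892, .ofNat 553000, .ofNat 19656], [.ofNat 0, .ofNat 0, .ofNat 86400, .ofNat
      3072204, .ofNat 10611228, .ofNat 15387054, .ofNat 5516196, .negSucc 1587593, .ofNat
      5476426, .ofNat 7227900, .ofNat 5044450, .ofNat 1942164, .ofNat 64420, .negSucc 16847],
      [.ofNat 0, .ofNat 0, .ofNat 2328372, .ofNat 10615302, .ofNat 21075603, .ofNat 17223093,
      .ofNat 8501169, .ofNat 21253761, .ofNat 23824078, .ofNat 11153610, .ofNat 3076782, .negSucc
      286721, .negSucc 225423, .negSucc 8423], [.ofNat 0, .ofNat 923400, .ofNat 6384852, .ofNat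
      19410372, .ofNat 28021428, .ofNat 30930297, .ofNat 53587905, .ofNat 59081844, .ofNat
      26151676, .ofNat 1837941, .negSucc 3045846, .negSucc 1036343, .negSucc 43523], [.ofNat
      145800, .ofNat 2155896, .ofNat 10605060, .ofNat 25107300, .ofNat 43398126, .ofNat 81561822,
      .ofNat 105028971, .ofNat 57956115, .ofNat 2135971, .negSucc 8343122, .negSucc 2642991,
      .negSucc 127409, .ofNat 22464], [.ofNat 291600, .ofNat 3157542, .ofNat 13043916, .ofNat
      33036093, .ofNat 78564603, .ofNat 124554855, .ofNat 88501839, .ofNat 8799057, .negSucc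
      12740928, .negSucc 3852332, .ofNat 161581, .ofNat 46176], [.ofNat 400950, .ofNat 3620214,
      .ofNat 14991156, .ofNat 50145786, .ofNat 99200409, .ofNat 89238231, .ofNat 15158823,
      .negSucc 14909210, .negSucc 3368246, .ofNat 1181325, .negSucc 3275], [.ofNat 437400, .ofNat
      3928338, .ofNat 21144672, .ofNat 54001935, .ofNat 60313533, .ofNat 13958268, .negSucc
      14073011, .negSucc 2148857, .ofNat 1937562, .negSucc 71837], [.ofNat 473850, .ofNat
      5621562, .ofNat 19592010, .ofNat 26766522, .ofNat 7935582, .negSucc 9320519, .negSucc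
      1252613, .ofNat 1529166, .negSucc 67157], [.ofNat 729000, .ofNat 4315680, .ofNat 7266240,
      .ofNat 2665476, .negSucc 3684131, .negSucc 545759, .ofNat 620172, .negSucc 26675], [.ofNat
      437400, .ofNat 927288, .ofNat 409482, .negSucc 628829, .negSucc 112859, .ofNat 99252,
      .negSucc 4211], [], []],
    [[.ofNat 0, .ofNat 0, .ofNat 0, .ofNat 0, .ofNat 0, .ofNat 0, .ofNat 0, .negSucc 479,
      .negSucc 17711, .negSucc 33167, .negSucc 34831, .ofNat 27312, .ofNat 84480, .ofNat 28800,
      .negSucc 31935, .negSucc 22463], [.ofNat 0, .ofNat 0, .ofNat 0, .ofNat 0, .ofNat 0, .ofNat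
      0, .negSucc 5039, .negSucc 186935, .negSucc 375587, .negSucc 378989, .ofNat 240278, .ofNat
      806982, .ofNat 383118, .negSucc 197999, .negSucc 242767, .negSucc 43055], [.ofNat 0, .ofNat
      0, .ofNat 0, .ofNat 0, .ofNat 0, .negSucc 42479, .negSucc 941687, .negSucc 1874573,
      .negSucc 1662086, .ofNat 952575, .ofNat 3229131, .ofNat 2018607, .negSucc 170507, .negSucc
      964343, .negSucc 366007, .negSucc 22463], [.ofNat 0, .ofNat 0, .ofNat 0, .ofNat 0, .negSucc
      226199, .negSucc 2614571, .negSucc 4978109, .negSucc 4480940, .ofNat 1768643, .ofNat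
      7815281, .ofNat 5889801, .ofNat 1375270, .negSucc 1442679, .negSucc 1033339, .negSucc
      132783, .negSucc 4367], [.ofNat 0, .ofNat 0, .ofNat 0, .negSucc 359999, .negSucc 4885799,
      .negSucc 11198573, .negSucc 9656240, .ofNat 5287197, .ofNat 15860332, .ofNat 9993586,
      .ofNat 4678430, .ofNat 1375652, .negSucc 400185, .negSucc 16995, .ofNat 52240, .ofNat
      1560], [.ofNat 0, .ofNat 0, .negSucc 172799, .negSucc 6144407, .negSucc 19218365, .negSucc
      21321056, .ofNat 3510285, .ofNat 29185956, .ofNat 24042090, .ofNat 11145700, .ofNat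
      6529388, .ofNat 4386970, .ofNat 2482766, .ofNat 654952, .ofNat 33532, .ofNat 4992], [.ofNat
      0, .ofNat 0, .negSucc 4656743, .negSucc 20398823, .negSucc 36347741, .negSucc 21109247,
      .ofNat 28363578, .ofNat 51193296, .ofNat 31894458, .ofNat 17978830, .ofNat 14596736, .ofNat
      9160170, .ofNat 3224220, .ofNat 493686, .negSucc 14975], [.ofNat 0, .negSucc 1846799,
      .negSucc 12650903, .negSucc 37480373, .negSucc 50891585, .negSucc 8945453, .ofNat 49363182,
      .ofNat 55031910, .ofNat 41646592, .ofNat 34825709, .ofNat 22986035, .ofNat 9051657, .ofNat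
      1838641, .negSucc 88607], [.negSucc 291599, .negSucc 4311791, .negSucc 21856391, .negSucc
      51818849, .negSucc 50318480, .negSucc 1174136, .ofNat 33559347, .ofNat 48613827, .ofNat
      61623707, .ofNat 47544471, .ofNat 18137955, .ofNat 3621621, .negSucc 190475], [.negSucc
      583199, .negSucc 6776783, .negSucc 28492829, .negSucc 52327088, .negSucc 49314752, .negSucc
      28466760, .ofNat 10463575, .ofNat 66093198, .ofNat 69689790, .ofNat 27187272, .ofNat
      3977228, .negSucc 269645], [.negSucc 874799, .negSucc 8164475, .negSucc 27218159, .negSucc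
      51855227, .negSucc 65999666, .negSucc 40586800, .ofNat 33341315, .ofNat 65526939, .ofNat
      28020262, .ofNat 1045206, .negSucc 195389], [.negSucc 996299, .negSucc 7344755, .negSucc
      26517617, .negSucc 53064242, .negSucc 55105244, .negSucc 6202073, .ofNat 34462620, .ofNat
      16979595, .negSucc 3063646, .ofNat 31668], [.negSucc 826199, .negSucc 7291943, .negSucc
      22920623, .negSucc 34504811, .negSucc 20633621, .ofNat 3129416, .ofNat 2823721, .negSucc
      3909614, .ofNat 159120], [.negSucc 874799, .negSucc 5394275, .negSucc 12100481, .negSucc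
      13936364, .negSucc 8737820, .negSucc 3984091, .negSucc 1540281, .ofNat 92118], [.negSucc
      558899, .negSucc 2262167, .negSucc 5028371, .negSucc 6279713, .negSucc 3305915, .ofNat
      342972, .negSucc 701], [.negSucc 170099, .negSucc 1053161, .negSucc 1919105, .negSucc
      1066229, .ofNat 445446, .negSucc 16847], [.negSucc 109349, .negSucc 231821, .negSucc
      129707, .ofNat 99252, .negSucc 4211]],
    [[.ofNat 0, .ofNat 0, .ofNat 0, .ofNat 0, .ofNat 0, .ofNat 0, .ofNat 0, .ofNat 240, .ofNat
      8856, .ofNat 10104, .negSucc 9727, .negSucc 15311, .negSucc 7111, .negSucc 647, .ofNat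
      7984, .ofNat 5616], [.ofNat 0, .ofNat 0, .ofNat 0, .ofNat 0, .ofNat 0, .ofNat 0, .ofNat
      2520, .ofNat 93468, .ofNat 123804, .negSucc 81935, .negSucc 180231, .negSucc 105299,
      .negSucc 21027, .ofNat 82536, .ofNat 74936, .ofNat 11232], [.ofNat 0, .ofNat 0, .ofNat 0,
      .ofNat 0, .ofNat 0, .ofNat 21240, .ofNat 470844, .ofNat 654252, .negSucc 380027, .negSucc
      941915, .negSucc 505435, .negSucc 151307, .ofNat 250740, .ofNat 388716, .ofNat 163880,
      .ofNat 29016], [.ofNat 0, .ofNat 0, .ofNat 0, .ofNat 0, .ofNat 113100, .ofNat 1307286,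
      .ofNat 1739490, .negSucc 765737, .negSucc 2245953, .negSucc 1688755, .negSucc 1093763,
      .ofNat 289692, .ofNat 1201500, .ofNat 813836, .ofNat 285628, .ofNat 43680], [.ofNat 0,
      .ofNat 0, .ofNat 0, .ofNat 180000, .ofNat 2442900, .ofNat 4429692, .ofNat 164982, .negSucc
      5657063, .negSucc 5676820, .negSucc 2442342, .ofNat 204193, .ofNat 2148381, .ofNat 2679674,
      .ofNat 1332598, .ofNat 185072, .ofNat 8736], [.ofNat 0, .ofNat 0, .ofNat 86400, .ofNat
      3072204, .ofNat 8607138, .ofNat 5934003, .negSucc 7234940, .negSucc 15414473, .negSucc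
      11910291, .negSucc 2838639, .ofNat 7007506, .ofNat 9345995, .ofNat 3462733, .negSucc 86607,
      .negSucc 18543, .negSucc 12479], [.ofNat 0, .ofNat 0, .ofNat 2328372, .ofNat 9783522,
      .ofNat 15272139, .ofNat 4869405, .negSucc 20273237, .negSucc 38260727, .negSucc 24090695,
      .ofNat 13963616, .ofNat 28882079, .ofNat 10606477, .negSucc 2122399, .negSucc 962291,
      .ofNat 3744], [.ofNat 0, .ofNat 923400, .ofNat 6266052, .ofNat 18070002, .ofNat 23887668,
      .negSucc 2613287, .negSucc 56304863, .negSucc 67205726, .ofNat 1096271, .ofNat 55431217,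
      .ofNat 29238963, .negSucc 4760355, .negSucc 4184089, .ofNat 154752], [.ofNat 145800, .ofNat
      2155896, .ofNat 11251332, .ofNat 28372770, .ofNat 23590239, .negSucc 37079576, .negSucc
      91267910, .negSucc 34760504, .ofNat 59348350, .ofNat 49570536, .negSucc 3440337, .negSucc
      8259119, .ofNat 372528], [.ofNat 291600, .ofNat 3619242, .ofNat 16923114, .ofNat 29146626,
      .negSucc 1466183, .negSucc 65077595, .negSucc 54991901, .ofNat 30404967, .ofNat 48080495,
      .ofNat 1495545, .negSucc 8837122, .ofNat 411216], [.ofNat 473850, .ofNat 5159862, .ofNat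
      16123428, .ofNat 14139702, .negSucc 20084639, .negSucc 37848911, .negSucc 394778, .ofNat
      23240925, .ofNat 3666861, .negSucc 4691576, .ofNat 215280], [.ofNat 656100, .ofNat 4391982,
      .ofNat 9143172, .ofNat 2893491, .negSucc 10140122, .negSucc 8775722, .ofNat 492975, .ofNat
      1484400, .negSucc 152123, .ofNat 5850], [.ofNat 473850, .ofNat 2389662, .ofNat 4160430,
      .ofNat 1603656, .negSucc 3994421, .negSucc 5224727, .negSucc 585335, .ofNat 1231410,
      .negSucc 54521], [.ofNat 218700, .ofNat 1156194, .ofNat 1508922, .negSucc 533213, .negSucc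
      2347793, .negSucc 596303, .ofNat 620172, .negSucc 26675], [.ofNat 109350, .ofNat 231822,
      .ofNat 20358, .negSucc 331073, .negSucc 125495, .ofNat 99252, .negSucc 4211], [], []]]

def N1l : List P2 :=
  [[[.ofNat 0, .ofNat 0, .ofNat 0, .ofNat 0, .ofNat 0, .ofNat 0, .negSucc 719, .negSucc 26567,
      .ofNat 35208, .ofNat 327192, .ofNat 144408, .negSucc 150831, .negSucc 127727, .negSucc
      63871, .negSucc 44927], [.ofNat 0, .ofNat 0, .ofNat 0, .ofNat 0, .ofNat 0, .negSucc 14939,
      .negSucc 306917, .ofNat 241974, .ofNat 3207258, .ofNat 2035770, .negSucc 1166779, .negSucc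
      1520635, .negSucc 697167, .negSucc 440607, .negSucc 86111], [.ofNat 0, .ofNat 0, .ofNat 0,
      .ofNat 0, .negSucc 75509, .negSucc 1434878, .ofNat 434787, .ofNat 13486689, .ofNat
      11866641, .negSucc 3228389, .negSucc 7808265, .negSucc 3401351, .negSucc 1603927, .negSucc
      613967, .negSucc 22463], [.ofNat 0, .ofNat 0, .ofNat 0, .negSucc 125279, .negSucc 3727007,
      .negSucc 1217345, .ofNat 31185282, .ofNat 37492506, .negSucc 1460237, .negSucc 22396771,
      .negSucc 10728971, .negSucc 2311459, .negSucc 1108439, .negSucc 19327, .ofNat 33696],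
      [.ofNat 0, .ofNat 0, .negSucc 64799, .negSucc 5715629, .negSucc 6267035, .ofNat 43926855,
      .ofNat 76453551, .ofNat 15802947, .negSucc 40318164, .negSucc 25201527, .ofNat 567482,
      .ofNat 2515412, .ofNat 962720, .ofNat 372224, .ofNat 16848], [.ofNat 0, .ofNat 0, .negSucc
      5039171, .negSucc 10212893, .ofNat 39818253, .ofNat 104896737, .ofNat 57731838, .negSucc
      27070907, .negSucc 36621742, .ofNat 1565241, .ofNat 14834560, .ofNat 6597504, .ofNat
      1675504, .ofNat 70200], [.ofNat 0, .negSucc 2332799, .negSucc 7894529, .ofNat 24897519,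
      .ofNat 99121203, .ofNat 104727387, .ofNat 42934341, .negSucc 4756241, .ofNat 10337232,
      .ofNat 34816072, .ofNat 19240038, .ofNat 4616072, .ofNat 218316, .negSucc 44927], [.negSucc
      437399, .negSucc 2871287, .ofNat 12236292, .ofNat 68468220, .ofNat 115241643, .ofNat
      116018643, .ofNat 79187328, .ofNat 54428292, .ofNat 67375067, .ofNat 44413163, .ofNat
      9111454, .negSucc 187669, .negSucc 47423], [.negSucc 364499, .ofNat 4864860, .ofNat
      35460018, .ofNat 83058777, .ofNat 129121497, .ofNat 140906559, .ofNat 108728295, .ofNat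
      106236756, .ofNat 80774998, .ofNat 16985712, .negSucc 747267, .ofNat 53976], [.ofNat
      1057050, .ofNat 11960946, .ofNat 40213098, .ofNat 89400888, .ofNat 130251546, .ofNat
      122926572, .ofNat 112476144, .ofNat 93848250, .ofNat 26866230, .ofNat 180744, .negSucc
      5147], [.ofNat 1822500, .ofNat 11834100, .ofNat 40047372, .ofNat 79096284, .ofNat 92162424,
      .ofNat 76514712, .ofNat 64073544, .ofNat 27343476, .ofNat 682140, .negSucc 128231], [.ofNat
      1494450, .ofNat 10944234, .ofNat 32039550, .ofNat 45724806, .ofNat 34709748, .ofNat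
      24128328, .ofNat 15818772, .negSucc 544727, .negSucc 51479], [.ofNat 1458000, .ofNat
      7756560, .ofNat 13698504, .ofNat 10174860, .ofNat 4013100, .ofNat 4753332, .negSucc
      1035323, .ofNat 30888], [.ofNat 874800, .ofNat 1854576, .ofNat 1475064, .ofNat 133272,
      .ofNat 552528, .negSucc 397007, .ofNat 16848], [], []],
    [[.ofNat 0, .ofNat 0, .ofNat 0, .ofNat 0, .ofNat 0, .ofNat 0, .ofNat 2160, .ofNat 79704,
      .ofNat 11736, .negSucc 466415, .negSucc 219743, .ofNat 362760, .ofNat 189000, .ofNat 23952,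
      .ofNat 16848], [.ofNat 0, .ofNat 0, .ofNat 0, .ofNat 0, .ofNat 0, .ofNat 44820, .ofNat
      920754, .ofNat 332298, .negSucc 4864607, .negSucc 3308291, .ofNat 3380598, .ofNat 2780190,
      .ofNat 531432, .ofNat 150984, .ofNat 31824], [.ofNat 0, .ofNat 0, .ofNat 0, .ofNat 0,
      .ofNat 226530, .ofNat 4304637, .ofNat 2909469, .negSucc 21031739, .negSucc 20660369, .ofNat
      11643503, .ofNat 16906911, .ofNat 5276640, .ofNat 898908, .ofNat 162320, .negSucc 12167],
      [.ofNat 0, .ofNat 0, .ofNat 0, .ofNat 375840, .ofNat 11181024, .ofNat 13581978, .negSucc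
      49324115, .negSucc 72924473, .ofNat 14456988, .ofNat 57198702, .ofNat 27120168, .ofNat
      5209974, .ofNat 489816, .negSucc 196619, .negSucc 49919], [.ofNat 0, .ofNat 0, .ofNat
      194400, .ofNat 17146890, .ofNat 32250558, .negSucc 66982685, .negSucc 152939471, .negSucc
      16459787, .ofNat 114922630, .ofNat 83853004, .ofNat 23833794, .ofNat 1426472, .negSucc
      1163881, .negSucc 262751, .negSucc 13727], [.ofNat 0, .ofNat 0, .ofNat 15117516, .ofNat
      40807782, .negSucc 53753780, .negSucc 202543820, .negSucc 83193842, .ofNat 150500541,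
      .ofNat 172530685, .ofNat 66715957, .ofNat 2766927, .negSucc 3730922, .negSucc 546207,
      .negSucc 6255, .ofNat 9984], [.ofNat 0, .ofNat 6998400, .ofNat 28311390, .negSucc 28852478,
      .negSucc 187587332, .negSucc 139221707, .ofNat 142999740, .ofNat 257002451, .ofNat
      125703941, .negSucc 288083, .negSucc 12557065, .negSucc 336731, .ofNat 657688, .ofNat
      4992], [.ofNat 1312200, .ofNat 10169064, .negSucc 15470135, .negSucc 134461889, .negSucc
      151225739, .ofNat 93468840, .ofNat 285686350, .ofNat 174758382, .negSucc 13516787, .negSucc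
      35089783, .ofNat 179306, .ofNat 2794868, .negSucc 79871], [.ofNat 1385100, .negSucc
      8144387, .negSucc 74068235, .negSucc 120922901, .ofNat 22429254, .ofNat 222742622, .ofNat
      168016770, .negSucc 36828451, .negSucc 65023791, .negSucc 873159, .ofNat 5521984, .negSucc
      202799], [.negSucc 2077649, .negSucc 26436617, .negSucc 65062547, .negSucc 18888623, .ofNat
      107113854, .ofNat 90944398, .negSucc 68301771, .negSucc 87891903, .negSucc 5396563, .ofNat
      6970908, .negSucc 285479], [.negSucc 4130999, .negSucc 18996119, .negSucc 15291719, .ofNat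
      26521704, .ofNat 9986592, .negSucc 90813671, .negSucc 97505935, .negSucc 14139815, .ofNat
      6106464, .negSucc 267695], [.negSucc 1919699, .negSucc 2514563, .ofNat 2811996, .negSucc
      17953667, .negSucc 79123211, .negSucc 87275115, .negSucc 22355099, .ofNat 3698188, .negSucc
      117623], [.ofNat 291600, .ofNat 358992, .negSucc 11610647, .negSucc 43923275, .negSucc
      57117059, .negSucc 21311887, .ofNat 2173448, .negSucc 10607], [.negSucc 48599, .negSucc
      3731831, .negSucc 15931079, .negSucc 24991199, .negSucc 11987495, .ofNat 1972152, .negSucc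
      36503], [.negSucc 680399, .negSucc 3775247, .negSucc 6749135, .negSucc 3746087, .ofNat
      1384776, .negSucc 50543], [.negSucc 437399, .negSucc 927287, .negSucc 518831, .ofNat
      397008, .negSucc 16847]],
    [[.ofNat 0, .ofNat 0, .ofNat 0, .ofNat 0, .ofNat 0, .ofNat 0, .negSucc 2159, .negSucc 79703,
      .negSucc 77255, .ofNat 168408, .ofNat 172152, .negSucc 8863, .negSucc 36575, .negSucc
      79839, .negSucc 56159], [.ofNat 0, .ofNat 0, .ofNat 0, .ofNat 0, .ofNat 0, .negSucc 44819,
      .negSucc 920753, .negSucc 930437, .ofNat 2061738, .ofNat 2329650, .negSucc 517815, .negSucc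
      889095, .negSucc 518335, .negSucc 465295, .negSucc 104831], [.ofNat 0, .ofNat 0, .ofNat 0,
      .ofNat 0, .negSucc 226529, .negSucc 4304636, .negSucc 5319098, .ofNat 9337689, .ofNat
      14099109, .negSucc 1632115, .negSucc 7097911, .negSucc 2977111, .negSucc 1506111, .negSucc
      423823, .ofNat 50544], [.ofNat 0, .ofNat 0, .ofNat 0, .negSucc 375839, .negSucc 11181023,
      .negSucc 19319597, .ofNat 21407778, .ofNat 51994398, .ofNat 4856922, .negSucc 30390207,
      .negSucc 15527651, .negSucc 2705175, .ofNat 263016, .ofNat 796424, .ofNat 180960], [.ofNat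
      0, .ofNat 0, .negSucc 194399, .negSucc 17146889, .negSucc 40535567, .ofNat 23174523, .ofNat
      106335327, .ofNat 37876611, .negSucc 59972288, .negSucc 51809263, .negSucc 11131721, .ofNat
      7218748, .ofNat 5460588, .ofNat 686272, .ofNat 38064], [.ofNat 0, .ofNat 0, .negSucc
      15117515, .negSucc 48124961, .ofNat 4875291, .ofNat 125670423, .ofNat 87167052, .negSucc
      69932117, .negSucc 111209648, .negSucc 26086240, .ofNat 34107462, .ofNat 18518074, .ofNat
      217296, .negSucc 45175, .negSucc 39935], [.ofNat 0, .negSucc 6998399, .negSucc 32463989,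
      .negSucc 10596230, .ofNat 99685977, .ofNat 107848287, .negSucc 78810998, .negSucc
      187721159, .negSucc 41224209, .ofNat 99786128, .ofNat 55616114, .negSucc 2343583, .negSucc
      2802891, .ofNat 24960], [.negSucc 1312199, .negSucc 11724263, .negSucc 6798491, .ofNat
      66500640, .ofNat 94829079, .negSucc 88932680, .negSucc 266663255, .negSucc 87687323, .ofNat
      178047271, .ofNat 132079831, .ofNat 1490750, .negSucc 10236201, .ofNat 406848], [.negSucc
      1676699, .ofNat 138996, .ofNat 39256218, .ofNat 69918453, .negSucc 67760282, .negSucc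
      279963428, .negSucc 156432260, .ofNat 188108316, .ofNat 202818374, .ofNat 21110328,
      .negSucc 16205347, .ofNat 687336], [.ofNat 692550, .ofNat 15853806, .ofNat 37285866,
      .negSucc 31597919, .negSucc 196819889, .negSucc 167193623, .ofNat 117789012, .ofNat
      197452014, .ofNat 40549362, .negSucc 14514275, .ofNat 503100], [.ofNat 2697300, .ofNat
      10578276, .negSucc 12260267, .negSucc 93261527, .negSucc 106907267, .ofNat 44393160, .ofNat
      125756400, .ofNat 38040180, .negSucc 9286163, .ofNat 249912], [.ofNat 911250, .negSucc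
      5844149, .negSucc 31883273, .negSucc 42740225, .ofNat 10241148, .ofNat 54353112, .ofNat
      20553036, .negSucc 5768735, .ofNat 177840], [.negSucc 1457999, .negSucc 7756559, .negSucc
      11657303, .ofNat 1150884, .ofNat 16234308, .ofNat 6484932, .negSucc 3119003, .ofNat
      120744], [.negSucc 874799, .negSucc 1854575, .negSucc 162863, .ofNat 2648592, .ofNat
      1003968, .negSucc 794015, .ofNat 33696], [], []],
    [[.ofNat 0, .ofNat 0, .ofNat 0, .ofNat 0, .ofNat 0, .ofNat 0, .ofNat 720, .ofNat 26568,
      .ofNat 30312, .negSucc 29183, .negSucc 45935, .negSucc 21335, .negSucc 1943, .ofNat 23952,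
      .ofNat 16848], [.ofNat 0, .ofNat 0, .ofNat 0, .ofNat 0, .ofNat 0, .ofNat 14940, .ofNat
      306918, .ofNat 356166, .negSucc 404387, .negSucc 606167, .negSucc 80153, .ofNat 84078,
      .ofNat 145800, .ofNat 150984, .ofNat 31824], [.ofNat 0, .ofNat 0, .ofNat 0, .ofNat 0,
      .ofNat 75510, .ofNat 1434879, .ofNat 1974843, .negSucc 1792637, .negSucc 3598139, .negSucc
      525104, .ofNat 980007, .ofNat 688608, .ofNat 557484, .ofNat 194256, .ofNat 10296], [.ofNat
      0, .ofNat 0, .ofNat 0, .ofNat 125280, .ofNat 3727008, .ofNat 6954966, .negSucc 3268943,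
      .negSucc 12893309, .negSucc 4259687, .ofNat 4425294, .ofNat 3410688, .ofNat 1383078, .ofNat
      398424, .ofNat 4692, .negSucc 7487], [.ofNat 0, .ofNat 0, .ofNat 64800, .ofNat 5715630,
      .ofNat 14552046, .negSucc 118691, .negSucc 25367885, .negSucc 16790489, .ofNat 6316872,
      .ofNat 11070792, .ofNat 4937730, .ofNat 126504, .negSucc 503561, .negSucc 3743], [.ofNat 0,
      .ofNat 0, .ofNat 5039172, .ofNat 17530074, .ofNat 9060237, .negSucc 25338698, .negSucc
      33398774, .negSucc 4013666, .ofNat 19527543, .ofNat 13923135, .negSucc 295568, .negSucc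
      2100842, .ofNat 67392], [.ofNat 0, .ofNat 2332800, .ofNat 12047130, .ofNat 14551191,
      .negSucc 9971486, .negSucc 35294201, .negSucc 19861613, .ofNat 17759475, .ofNat 21449169,
      .ofNat 494892, .negSucc 3663197, .ofNat 155844], [.ofNat 437400, .ofNat 4426488, .ofNat
      10032336, .ofNat 2314710, .negSucc 19418525, .negSucc 21231377, .ofNat 7137162, .ofNat
      17812674, .ofNat 1664910, .negSucc 3322493, .ofNat 146718], [.ofNat 656100, .ofNat 3140532,
      .ofNat 3175200, .negSucc 4801247, .negSucc 9881459, .ofNat 248292, .ofNat 7612920, .ofNat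
      1345032, .negSucc 1562759, .ofNat 67392], [.ofNat 328050, .ofNat 695466, .negSucc 266975,
      .negSucc 1688687, .negSucc 437561, .ofNat 1290978, .ofNat 363852, .negSucc 297755, .ofNat
      12636], [], [], [], [], [], []]]

def O1al : List P2 :=
  [[[], [], [.ofNat 0, .ofNat 0, .ofNat 0, .ofNat 0, .ofNat 0, .ofNat 0, .ofNat 0, .ofNat 0,
      .ofNat 0, .ofNat 422400, .ofNat 2020608, .ofNat 859392, .negSucc 255487, .negSucc 179711],
      [.ofNat 0, .ofNat 0, .ofNat 0, .ofNat 0, .ofNat 0, .ofNat 0, .ofNat 0, .ofNat 0, .ofNat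
      4370400, .ofNat 20791728, .ofNat 8773488, .negSucc 2029823, .negSucc 1431167, .ofNat
      14976], [.ofNat 0, .ofNat 0, .ofNat 0, .ofNat 0, .ofNat 0, .ofNat 0, .ofNat 0, .ofNat
      19917360, .ofNat 94258296, .ofNat 38303832, .negSucc 11395391, .negSucc 6468863, .ofNat
      1020096, .ofNat 554112], [.ofNat 0, .ofNat 0, .ofNat 0, .ofNat 0, .ofNat 0, .ofNat 0,
      .ofNat 52938480, .ofNat 249044472, .ofNat 90873144, .negSucc 61812175, .negSucc 26800751,
      .ofNat 8101600, .ofNat 4602688, .negSucc 39935], [.ofNat 0, .ofNat 0, .ofNat 0, .ofNat 0,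
      .ofNat 0, .ofNat 91965600, .ofNat 428007456, .ofNat 116133744, .negSucc 241182839, .negSucc
      90958247, .ofNat 29490224, .ofNat 15383232, .negSucc 1378559, .negSucc 569087], [.ofNat 0,
      .ofNat 0, .ofNat 0, .ofNat 0, .ofNat 108659520, .ofNat 512207280, .ofNat 73588800, .negSucc
      587057783, .negSucc 220282823, .ofNat 68222752, .ofNat 31379440, .negSucc 10687103,
      .negSucc 5519615, .ofNat 14976], [.ofNat 0, .ofNat 0, .ofNat 0, .ofNat 86970240, .ofNat
      453318336, .ofNat 19789776, .negSucc 924936215, .negSucc 334087847, .ofNat 174537288,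
      .ofNat 58219176, .negSucc 37169951, .negSucc 17888351, .ofNat 868544, .ofNat 194688],
      [.ofNat 0, .ofNat 0, .ofNat 45748800, .ofNat 308258784, .ofNat 50016, .negSucc 1019553119,
      .negSucc 327379295, .ofNat 392812800, .ofNat 145745248, .negSucc 26806847, .negSucc
      21310847, .ofNat 5707872, .ofNat 2955840, .ofNat 29952], [.ofNat 0, .ofNat 14774400, .ofNat
      154967904, .negSucc 16514351, .negSucc 858988727, .negSucc 289304567, .ofNat 571876752,
      .ofNat 308119536, .ofNat 89280552, .ofNat 3040680, .ofNat 21527472, .ofNat 11205504,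
      .negSucc 404351], [.ofNat 2332800, .ofNat 49268736, .negSucc 30980447, .negSucc 585298655,
      .negSucc 293328287, .ofNat 555091248, .ofNat 439934976, .ofNat 227700000, .negSucc
      14631839, .negSucc 8480847, .ofNat 11818944, .negSucc 1611711, .negSucc 607743, .negSucc
      19967], [.ofNat 6998400, .negSucc 22099391, .negSucc 304451135, .negSucc 225060335, .ofNat
      437073576, .ofNat 490271016, .ofNat 269999616, .negSucc 199526399, .negSucc 209122463,
      .negSucc 10959455, .negSucc 4652671, .negSucc 3090911, .ofNat 149760], [.negSucc 5831999,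
      .negSucc 99163439, .negSucc 87229871, .ofNat 328914720, .ofNat 472203504, .ofNat 197807568,
      .negSucc 503956991, .negSucc 529805639, .negSucc 7428887, .ofNat 8801744, .negSucc 3860271,
      .ofNat 519168], [.negSucc 13705199, .negSucc 6893423, .ofNat 204120864, .ofNat 339954624,
      .ofNat 42714360, .negSucc 696297959, .negSucc 694392479, .ofNat 110872704, .ofNat 92618544,
      .ofNat 1931616, .ofNat 179712], [.ofNat 3499200, .ofNat 75749904, .ofNat 147729744,
      .negSucc 91471247, .negSucc 628870223, .negSucc 542881631, .ofNat 312051360, .ofNat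
      246282168, .ofNat 1354760, .negSucc 716351], [.ofNat 10789200, .ofNat 30260304, .negSucc
      109571615, .negSucc 377492111, .negSucc 227117735, .ofNat 428258664, .ofNat 347915448,
      .negSucc 21429095, .negSucc 389375], [.ofNat 1166400, .negSucc 51084431, .negSucc
      138592079, .negSucc 3900959, .ofNat 362235888, .ofNat 296497488, .negSucc 47177327, .ofNat
      1023984], [.negSucc 8456399, .negSucc 25314767, .ofNat 49745664, .ofNat 196112016, .ofNat
      152831712, .negSucc 44682527, .ofNat 1529424], [.negSucc 1166399, .ofNat 25229232, .ofNat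
      63323856, .ofNat 43497360, .negSucc 20950415, .ofNat 831168], [.ofNat 4374000, .ofNat
      9272880, .ofNat 5188320, .negSucc 3970079, .ofNat 168480]],
    [[.ofNat 0, .ofNat 0, .ofNat 0, .ofNat 0, .ofNat 0, .ofNat 0, .ofNat 0, .ofNat 0, .ofNat 0,
      .ofNat 199680, .ofNat 585216, .negSucc 178175, .negSucc 803583, .negSucc 320255, .ofNat
      255488, .ofNat 179712], [.ofNat 0, .ofNat 0, .ofNat 0, .ofNat 0, .ofNat 0, .ofNat 0, .ofNat
      0, .ofNat 0, .ofNat 1967040, .ofNat 5295456, .negSucc 2306303, .negSucc 6707375, .negSucc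
      2200943, .ofNat 2059776, .ofNat 1431168, .negSucc 14975], [.ofNat 0, .ofNat 0, .ofNat 0,
      .ofNat 0, .ofNat 0, .ofNat 0, .ofNat 0, .ofNat 8381280, .ofNat 19894896, .negSucc 14150399,
      .negSucc 25467255, .negSucc 3637463, .ofNat 10142144, .ofNat 5860608, .negSucc 1275583,
      .negSucc 733823], [.ofNat 0, .ofNat 0, .ofNat 0, .ofNat 0, .ofNat 0, .ofNat 0, .ofNat
      20536800, .ofNat 39947760, .negSucc 54662591, .negSucc 68165559, .ofNat 13201704, .ofNat
      41644096, .ofNat 16821344, .negSucc 10241247, .negSucc 6033855, .ofNat 54912], [.ofNat 0,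
      .ofNat 0, .ofNat 0, .ofNat 0, .ofNat 0, .ofNat 32434560, .ofNat 42775776, .negSucc
      147693887, .negSucc 155499935, .ofNat 92369568, .ofNat 122861904, .ofNat 21017664, .negSucc
      41584207, .negSucc 21182495, .ofNat 2175104, .ofNat 965952], [.ofNat 0, .ofNat 0, .ofNat 0,
      .ofNat 0, .ofNat 28894080, .ofNat 28826208, .negSucc 207367871, .negSucc 251167007, .ofNat
      243038080, .ofNat 230264992, .negSucc 46567743, .negSucc 122318903, .negSucc 46343943,
      .ofNat 17150144, .ofNat 8851040, .negSucc 42431], [.ofNat 0, .ofNat 0, .ofNat 0, .ofNat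
      10589760, .ofNat 33468768, .negSucc 164960783, .negSucc 299123543, .ofNat 557668680, .ofNat
      422495664, .negSucc 358050599, .negSucc 334539003, .negSucc 44062427, .ofNat 72481728,
      .ofNat 31491120, .negSucc 1596671, .negSucc 438047], [.ofNat 0, .ofNat 0, .ofNat 172800,
      .ofNat 44483904, .negSucc 129825935, .negSucc 320684519, .ofNat 859656888, .ofNat
      578528592, .negSucc 914038007, .negSucc 568939955, .ofNat 86864588, .ofNat 180044144,
      .ofNat 69593424, .negSucc 11215839, .negSucc 5663055, .negSucc 34943], [.ofNat 0, .ofNat 0,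
      .ofNat 28092096, .negSucc 114229439, .negSucc 327070703, .ofNat 729703200, .ofNat
      416659368, .negSucc 1684895927, .negSucc 854165039, .ofNat 564901896, .ofNat 487286532,
      .ofNat 104215788, .negSucc 60289391, .negSucc 23653751, .ofNat 905440, .ofNat 33696],
      [.ofNat 0, .ofNat 7387200, .negSucc 69097535, .negSucc 271774799, .ofNat 430129920, .ofNat
      147506376, .negSucc 2424174071, .negSucc 1195988207, .ofNat 1427848144, .ofNat 1001563800,
      .ofNat 71836440, .negSucc 155423515, .negSucc 55728499, .ofNat 4849776, .ofNat 1265424,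
      .ofNat 29952], [.ofNat 1166400, .negSucc 27076031, .negSucc 139609439, .ofNat 273519216,
      .ofNat 30211560, .negSucc 2332514447, .negSucc 1024483595, .ofNat 2515610388, .ofNat
      1681392696, .negSucc 164691887, .negSucc 387381747, .negSucc 99326435, .ofNat 27267304,
      .ofNat 6155640, .negSucc 314495], [.negSucc 4665599, .negSucc 32052671, .ofNat 149740272,
      .ofNat 25806168, .negSucc 1523690063, .negSucc 385010483, .ofNat 3532552740, .ofNat
      2498064468, .negSucc 720369443, .negSucc 845995219, .negSucc 129721963, .ofNat 71446532,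
      .ofNat 12144100, .negSucc 953471], [.negSucc 3499199, .ofNat 55372896, .ofNat 18188064,
      .negSucc 785110751, .ofNat 162217752, .ofNat 3656866944, .ofNat 2651622420, .negSucc
      1579639235, .negSucc 1487837063, .negSucc 102653471, .ofNat 131911500, .ofNat 15154020,
      .negSucc 1499471], [.ofNat 9914400, .negSucc 12223871, .negSucc 314887823, .ofNat
      354708576, .ofNat 2645512032, .ofNat 1752623544, .negSucc 2460269567, .negSucc 2194974455,
      .ofNat 33412480, .ofNat 222344792, .ofNat 13007680, .negSucc 1867943], [.negSucc 5248799,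
      .negSucc 84999455, .ofNat 248153760, .ofNat 1353074688, .ofNat 559485000, .negSucc
      2722167935, .negSucc 2406748739, .ofNat 336533508, .ofNat 357667584, .ofNat 7236336,
      .negSucc 1571543], [.negSucc 11663999, .ofNat 106395120, .ofNat 471999096, .negSucc
      142757099, .negSucc 2065299731, .negSucc 1738579163, .ofNat 703755996, .ofNat 542104668,
      .ofNat 165900, .negSucc 1529423], [.ofNat 20703600, .ofNat 97448832, .negSucc 229793759,
      .negSucc 1047120911, .negSucc 730680455, .ofNat 850660104, .ofNat 647894676, .negSucc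
      22938323, .negSucc 1310399], [.ofNat 8456400, .negSucc 104884631, .negSucc 334860479,
      .negSucc 89827523, .ofNat 656033292, .ofNat 521485272, .negSucc 54986111, .ofNat 457704],
      [.negSucc 19391399, .negSucc 55884167, .ofNat 66836880, .ofNat 324028296, .ofNat 259690680,
      .negSucc 57317687, .ofNat 1698840], [.negSucc 2332799, .ofNat 36607464, .ofNat 97283592,
      .ofNat 70565040, .negSucc 29328911, .ofNat 1128816], [.ofNat 6561000, .ofNat 13909320,
      .ofNat 7782480, .negSucc 5955119, .ofNat 252720]],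
    [[.ofNat 0, .ofNat 0, .ofNat 0, .ofNat 0, .ofNat 0, .ofNat 0, .ofNat 0, .ofNat 0, .ofNat 0,
      .ofNat 0, .ofNat 0, .ofNat 149760, .ofNat 438912, .negSucc 133631, .negSucc 602687,
      .negSucc 240191, .ofNat 191616, .ofNat 134784], [.ofNat 0, .ofNat 0, .ofNat 0, .ofNat 0,
      .ofNat 0, .ofNat 0, .ofNat 0, .ofNat 0, .ofNat 0, .ofNat 0, .ofNat 1475280, .ofNat 3971592,
      .negSucc 1729727, .negSucc 5030531, .negSucc 1650707, .ofNat 1544832, .ofNat 1073376,
      .negSucc 11231], [.ofNat 0, .ofNat 0, .ofNat 0, .ofNat 0, .ofNat 0, .ofNat 0, .ofNat 0,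
      .ofNat 0, .ofNat 0, .ofNat 6572040, .ofNat 16998804, .negSucc 8678111, .negSucc 17299721,
      .negSucc 2661137, .ofNat 6065904, .ofNat 3679200, .negSucc 573455, .negSucc 280799],
      [.ofNat 0, .ofNat 0, .ofNat 0, .ofNat 0, .ofNat 0, .ofNat 0, .ofNat 0, .ofNat 0, .ofNat
      18503640, .ofNat 52412940, .negSucc 20566727, .negSucc 34894433, .ofNat 9017334, .ofNat
      18281400, .ofNat 7293744, .negSucc 4576295, .negSucc 2378639, .ofNat 18720], [.ofNat 0,
      .ofNat 0, .ofNat 0, .ofNat 0, .ofNat 0, .ofNat 0, .ofNat 0, .ofNat 39347160, .ofNat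
      139512564, .negSucc 17043779, .negSucc 62510239, .ofNat 51617400, .ofNat 46158688, .ofNat
      3333780, .negSucc 17835635, .negSucc 7813295, .ofNat 460464, .ofNat 146016], [.ofNat 0,
      .ofNat 0, .ofNat 0, .ofNat 0, .ofNat 0, .ofNat 0, .ofNat 64226040, .ofNat 315393012, .ofNat
      81219828, .negSucc 127087075, .ofNat 77507356, .ofNat 72374140, .negSucc 30614935, .negSucc
      45229919, .negSucc 13945859, .ofNat 3498936, .ofNat 1761072, .ofNat 7488], [.ofNat 0,
      .ofNat 0, .ofNat 0, .ofNat 0, .ofNat 0, .ofNat 81459360, .ofNat 535700520, .ofNat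
      274662348, .negSucc 317019245, .ofNat 32968134, .ofNat 131001526, .negSucc 150734525,
      .negSucc 122571125, .negSucc 7141193, .ofNat 17532900, .ofNat 6950808, .negSucc 190943],
      [.ofNat 0, .ofNat 0, .ofNat 0, .ofNat 0, .ofNat 85176240, .ofNat 613416528, .ofNat
      301627716, .negSucc 723870749, .negSucc 84023997, .ofNat 258885916, .negSucc 347759843,
      .negSucc 232264523, .ofNat 37149552, .ofNat 40871472, .ofNat 14822172, .negSucc 826895,
      .negSucc 455807, .negSucc 14975], [.ofNat 0, .ofNat 0, .ofNat 0, .ofNat 71747280, .ofNat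
      432940248, .ofNat 48657168, .negSucc 1143471455, .negSucc 339051707, .ofNat 303432678,
      .negSucc 473400737, .negSucc 297007601, .ofNat 145513302, .ofNat 91579692, .ofNat 22536504,
      .negSucc 6617759, .negSucc 2621447, .ofNat 112320], [.ofNat 0, .ofNat 0, .ofNat 42336000,
      .ofNat 162358992, .negSucc 168742343, .negSucc 1160687783, .negSucc 587352071, .ofNat
      258006540, .negSucc 371138727, .negSucc 306664283, .ofNat 298672716, .ofNat 190136940,
      .ofNat 21296976, .negSucc 19233395, .negSucc 5623667, .ofNat 404352], [.ofNat 0, .ofNat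
      14774400, .ofNat 16021152, .negSucc 152970047, .negSucc 741763967, .negSucc 535264787,
      .ofNat 327669714, .ofNat 94255566, .negSucc 100898609, .ofNat 400665510, .ofNat 269776370,
      .negSucc 5541365, .negSucc 32456907, .negSucc 6039503, .ofNat 561600], [.ofNat 2332800,
      .negSucc 7982063, .negSucc 54752543, .negSucc 289180439, .negSucc 299627207, .ofNat
      451173552, .ofNat 774226872, .ofNat 398516952, .ofNat 324703752, .ofNat 232355216, .negSucc
      59357163, .negSucc 39540285, .negSucc 832077, .ofNat 446160], [.negSucc 2041199, .negSucc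
      8020943, .negSucc 70206479, .negSucc 139372163, .ofNat 440000598, .ofNat 1147952058, .ofNat
      765633318, .negSucc 65976821, .negSucc 66411617, .negSucc 105903401, .negSucc 19793541,
      .ofNat 8575734, .negSucc 136655], [.negSucc 583199, .negSucc 14163983, .negSucc 64199303,
      .ofNat 307258848, .ofNat 989866200, .ofNat 629967060, .negSucc 706441151, .negSucc
      629291339, .negSucc 64718227, .ofNat 41447456, .ofNat 12141984, .negSucc 685619], [.negSucc
      2041199, .negSucc 20948543, .ofNat 163816776, .ofNat 571124016, .ofNat 187666920, .negSucc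
      1150353107, .negSucc 1022513609, .ofNat 128852790, .ofNat 145463040, .ofNat 5175516,
      .negSucc 578915], [.negSucc 2624399, .ofNat 61382772, .ofNat 216024516, .negSucc 123867251,
      .negSucc 1048746335, .negSucc 869900951, .ofNat 383546136, .ofNat 278310750, .negSucc
      8715865, .negSucc 383447], [.ofNat 10570500, .ofNat 46417860, .negSucc 156602807, .negSucc
      595001231, .negSucc 392838473, .ofNat 493637106, .ofNat 353781510, .negSucc 30248213,
      .ofNat 90792], [.ofNat 3790800, .negSucc 70452503, .negSucc 201895631, .negSucc 45650123,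
      .ofNat 387218592, .ofNat 291477492, .negSucc 48062339, .ofNat 1093716], [.negSucc 12392999,
      .negSucc 33660359, .ofNat 44141976, .ofNat 195469308, .ofNat 148382700, .negSucc 42311507,
      .ofNat 1428804], [.negSucc 1166399, .ofNat 23844132, .ofNat 60387444, .ofNat 41854392,
      .negSucc 19693223, .ofNat 777816], [.ofNat 4155300, .ofNat 8809236, .ofNat 4928904,
      .negSucc 3771575, .ofNat 160056]],
    [[.ofNat 0, .ofNat 0, .ofNat 0, .ofNat 0, .ofNat 0, .ofNat 0, .ofNat 0, .ofNat 0, .ofNat 0,
      .ofNat 0, .ofNat 0, .ofNat 0, .ofNat 0, .ofNat 24960, .ofNat 73152, .negSucc 22271,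
      .negSucc 100447, .negSucc 40031, .ofNat 31936, .ofNat 22464], [.ofNat 0, .ofNat 0, .ofNat
      0, .ofNat 0, .ofNat 0, .ofNat 0, .ofNat 0, .ofNat 0, .ofNat 0, .ofNat 0, .ofNat 0, .ofNat
      0, .ofNat 245880, .ofNat 661932, .negSucc 288287, .negSucc 838421, .negSucc 275117, .ofNat
      257472, .ofNat 178896, .negSucc 1871], [.ofNat 0, .ofNat 0, .ofNat 0, .ofNat 0, .ofNat 0,
      .ofNat 0, .ofNat 0, .ofNat 0, .ofNat 0, .ofNat 0, .ofNat 0, .ofNat 999660, .ofNat 2411406,
      .negSucc 1539503, .negSucc 2617174, .negSucc 395714, .ofNat 846664, .ofNat 528240, .negSucc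
      63639, .negSucc 24335], [.ofNat 0, .ofNat 0, .ofNat 0, .ofNat 0, .ofNat 0, .ofNat 0, .ofNat
      0, .ofNat 0, .ofNat 0, .ofNat 0, .ofNat 2095500, .ofNat 4413510, .negSucc 4373051, .negSucc
      3379396, .ofNat 1784379, .ofNat 1670078, .ofNat 563722, .negSucc 502123, .negSucc 217543,
      .ofNat 1248], [.ofNat 0, .ofNat 0, .ofNat 0, .ofNat 0, .ofNat 0, .ofNat 0, .ofNat 0, .ofNat
      0, .ofNat 0, .ofNat 2151960, .ofNat 4101984, .negSucc 6913541, .negSucc 653264, .ofNat
      8901801, .ofNat 3112817, .negSucc 1086740, .negSucc 1953389, .negSucc 682247, .ofNat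
      13104], [.ofNat 0, .ofNat 0, .ofNat 0, .ofNat 0, .ofNat 0, .ofNat 0, .ofNat 0, .ofNat 0,
      .negSucc 370319, .ofNat 3794364, .ofNat 3042882, .ofNat 4275297, .ofNat 12881123, .ofNat
      3828761, .negSucc 5544784, .negSucc 4457341, .negSucc 930387, .ofNat 76664, .ofNat 75968,
      .ofNat 2496], [.ofNat 0, .ofNat 0, .ofNat 0, .ofNat 0, .ofNat 0, .ofNat 0, .ofNat 0,
      .negSucc 4395899, .ofNat 10818522, .ofNat 36226200, .ofNat 7424197, .ofNat 4799961, .ofNat
      8239468, .negSucc 16288577, .negSucc 12224205, .ofNat 261924, .ofNat 985024, .ofNat 436908,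
      .negSucc 18719], [.ofNat 0, .ofNat 0, .ofNat 0, .ofNat 0, .ofNat 0, .ofNat 0, .negSucc
      5239379, .ofNat 17949222, .ofNat 55418208, .ofNat 341063, .ofNat 5076917, .ofNat 28896929,
      .negSucc 36739202, .negSucc 28313460, .ofNat 4899629, .ofNat 2819262, .ofNat 709374,
      .negSucc 74879], [.ofNat 0, .ofNat 0, .ofNat 0, .ofNat 0, .ofNat 0, .negSucc 1037519,
      .ofNat 5543316, .ofNat 13749666, .negSucc 21145190, .ofNat 8183163, .ofNat 32922847,
      .negSucc 46180202, .negSucc 27645191, .ofNat 13643340, .ofNat 2077930, .negSucc 309755,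
      .negSucc 37439], [.ofNat 0, .ofNat 0, .ofNat 0, .ofNat 0, .ofNat 2728320, .negSucc
      18100835, .negSucc 42854405, .negSucc 43901930, .negSucc 45199716, .negSucc 32921294,
      .negSucc 9203862, .ofNat 15777871, .ofNat 19254221, .negSucc 3085822, .negSucc 2377604,
      .ofNat 139464], [.ofNat 0, .ofNat 0, .ofNat 0, .ofNat 2256840, .negSucc 23079275, .negSucc
      44250515, .negSucc 48485225, .negSucc 121801163, .negSucc 104553866, .ofNat 67456797,
      .ofNat 74453717, .ofNat 7017423, .negSucc 10175754, .negSucc 2584724, .ofNat 231192],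
      [.ofNat 0, .ofNat 0, .ofNat 540000, .negSucc 9641591, .negSucc 12989351, .negSucc 21830597,
      .negSucc 99351467, .negSucc 65321930, .ofNat 132754757, .ofNat 102484069, .negSucc
      27794722, .negSucc 17548826, .ofNat 1954091, .ofNat 60294], [.ofNat 0, .ofNat 0, .negSucc
      14903, .ofNat 2440872, .ofNat 24502548, .ofNat 16130040, .ofNat 49970922, .ofNat 135233892,
      .ofNat 78684939, .negSucc 62491034, .negSucc 21012522, .ofNat 9842811, .negSucc 325961],
      [.ofNat 0, .ofNat 923400, .ofNat 2044008, .ofNat 50559588, .ofNat 93994356, .ofNat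
      99869904, .ofNat 56406882, .ofNat 7409097, .negSucc 62098012, .negSucc 15335558, .ofNat
      14428987, .negSucc 648569], [.ofNat 145800, .ofNat 309096, .ofNat 38741760, .ofNat
      79276410, .ofNat 45235641, .negSucc 53835680, .negSucc 66606428, .negSucc 22275446,
      .negSucc 2826974, .ofNat 10556667, .negSucc 569321], [.ofNat 0, .ofNat 14774400, .ofNat
      31089528, .negSucc 21736367, .negSucc 107611079, .negSucc 86615933, .ofNat 22543332, .ofNat
      10342281, .ofNat 479515, .negSucc 118793], [.ofNat 2332800, .ofNat 4945536, .negSucc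
      33510077, .negSucc 80981927, .negSucc 50894030, .ofNat 42327597, .ofNat 18790557, .negSucc
      9036794, .ofNat 342342], [.ofNat 0, .negSucc 14543549, .negSucc 30805325, .negSucc 9243053,
      .ofNat 37002456, .ofNat 18623334, .negSucc 12127349, .ofNat 506610], [.negSucc 2296349,
      .negSucc 4868261, .ofNat 5701482, .ofNat 21063672, .ofNat 11500098, .negSucc 8408849,
      .ofNat 356850], [.ofNat 0, .ofNat 3462750, .ofNat 7341030, .ofNat 4107420, .negSucc
      3142979, .ofNat 133380], [.ofNat 546750, .ofNat 1159110, .ofNat 648540, .negSucc 496259,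
      .ofNat 21060]]]

def O1bl : List P2 :=
  [[[.ofNat 0, .ofNat 0, .ofNat 0, .ofNat 0, .ofNat 0, .ofNat 0, .ofNat 0, .ofNat 0, .ofNat 0,
      .ofNat 0, .ofNat 0, .ofNat 0, .ofNat 199680, .ofNat 585216, .negSucc 28415, .negSucc
      364671, .negSucc 428927, .negSucc 274047, .negSucc 82751, .ofNat 91168, .ofNat 94752,
      .ofNat 31936, .ofNat 22464], [.ofNat 0, .ofNat 0, .ofNat 0, .ofNat 0, .ofNat 0, .ofNat 0,
      .ofNat 0, .ofNat 0, .ofNat 0, .ofNat 0, .ofNat 0, .ofNat 1767360, .ofNat 4710240, .negSucc
      802607, .negSucc 2371111, .negSucc 3255863, .negSucc 2034775, .negSucc 425075, .ofNat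
      600266, .ofNat 703506, .ofNat 214304, .ofNat 156432, .negSucc 1871], [.ofNat 0, .ofNat 0,
      .ofNat 0, .ofNat 0, .ofNat 0, .ofNat 0, .ofNat 0, .ofNat 0, .ofNat 0, .ofNat 0, .ofNat
      6214560, .ofNat 14014224, .negSucc 6296519, .negSucc 3347387, .negSucc 6342803, .negSucc
      2418787, .ofNat 2070834, .ofNat 1390543, .ofNat 1656651, .negSucc 4967, .ofNat 46080,
      .negSucc 61767, .negSucc 24335], [.ofNat 0, .ofNat 0, .ofNat 0, .ofNat 0, .ofNat 0, .ofNat
      0, .ofNat 0, .ofNat 0, .ofNat 0, .ofNat 10388160, .ofNat 15342624, .negSucc 23829983,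
      .ofNat 13858064, .ofNat 17216352, .ofNat 16169784, .ofNat 18979280, .ofNat 1902320,
      .negSucc 208899, .negSucc 3338817, .negSucc 2218789, .negSucc 417891, .negSucc 193207,
      .ofNat 1248], [.ofNat 0, .ofNat 0, .ofNat 0, .ofNat 0, .ofNat 0, .ofNat 0, .ofNat 0, .ofNat
      0, .ofNat 5483520, .negSucc 11771423, .negSucc 50315879, .ofNat 76943876, .ofNat 119049348,
      .ofNat 46617744, .ofNat 37230118, .negSucc 1216130, .negSucc 13188472, .negSucc 9723376,
      .negSucc 6187710, .negSucc 947753, .negSucc 294351, .ofNat 11856], [.ofNat 0, .ofNat 0,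
      .ofNat 0, .ofNat 0, .ofNat 0, .ofNat 0, .ofNat 0, .negSucc 15695999, .negSucc 34002431,
      .ofNat 22858608, .ofNat 223512600, .ofNat 285018664, .negSucc 22033159, .negSucc 70625119,
      .negSucc 45011763, .negSucc 51576871, .negSucc 8618721, .negSucc 643161, .ofNat 911852,
      .ofNat 1560124, .ofNat 69800, .ofNat 75968, .ofNat 2496], [.ofNat 0, .ofNat 0, .ofNat 0,
      .ofNat 0, .ofNat 0, .ofNat 0, .negSucc 30202079, .ofNat 1814544, .ofNat 155308344, .ofNat
      278082140, .ofNat 417030524, .negSucc 213972911, .negSucc 426214455, .negSucc 129320769,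
      .negSucc 103701621, .negSucc 9241129, .ofNat 24251032, .ofNat 5722382, .ofNat 6262688,
      .ofNat 698072, .ofNat 360940, .negSucc 21215], [.ofNat 0, .ofNat 0, .ofNat 0, .ofNat 0,
      .ofNat 0, .negSucc 6876479, .ofNat 24964704, .ofNat 57319632, .negSucc 94644695, .negSucc
      13413999, .negSucc 581664667, .negSucc 731041191, .negSucc 32357989, .ofNat 1257128, .ofNat
      20961171, .ofNat 59697417, .negSucc 2846962, .ofNat 5917145, .ofNat 1092294, .negSucc
      259309, .negSucc 73631], [.ofNat 0, .ofNat 0, .ofNat 0, .ofNat 0, .ofNat 18131520, .negSucc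
      21034367, .negSucc 118189271, .negSucc 597065363, .negSucc 961829539, .negSucc 761706263,
      .negSucc 794362939, .negSucc 26794849, .ofNat 497481088, .ofNat 238979919, .ofNat
      103044513, .negSucc 1556354, .negSucc 7281964, .negSucc 6301739, .negSucc 3512013, .ofNat
      185952], [.ofNat 0, .ofNat 0, .ofNat 0, .ofNat 10416960, .negSucc 31720031, .negSucc
      81046463, .negSucc 500699759, .negSucc 818511863, .ofNat 184932444, .negSucc 254361919,
      .negSucc 116863365, .ofNat 1049176588, .ofNat 439921613, .ofNat 97342013, .ofNat 54040390,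
      .negSucc 32226303, .negSucc 14968442, .negSucc 3654998, .ofNat 570024], [.ofNat 0, .ofNat
      0, .ofNat 172800, .ofNat 10171008, .ofNat 3007248, .ofNat 78288048, .ofNat 274647144,
      .ofNat 1388969220, .ofNat 1361784722, .ofNat 571498483, .ofNat 1256586983, .ofNat
      710007018, .negSucc 154699723, .negSucc 80979860, .negSucc 73085446, .ofNat 7261592, .ofNat
      7418334, .negSucc 260207], [.ofNat 0, .ofNat 0, .ofNat 19538496, .ofNat 23028048, .ofNat
      338199288, .ofNat 491202336, .ofNat 1139936268, .ofNat 2109173436, .ofNat 964576608, .ofNat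
      851827344, .ofNat 1044599170, .negSucc 738347783, .negSucc 549698108, .negSucc 93467788,
      .ofNat 42320519, .ofNat 18965299, .negSucc 1444169], [.ofNat 0, .ofNat 6220800, .ofNat
      16514496, .ofNat 159687360, .ofNat 118579536, .ofNat 44615112, .ofNat 802107006, .ofNat
      48722313, .negSucc 975072440, .negSucc 251782610, .negSucc 1398842444, .negSucc 1087226067,
      .negSucc 2529045, .ofNat 72037276, .ofNat 13556024, .negSucc 1249871], [.ofNat 1166400,
      .ofNat 2472768, .ofNat 20687616, .ofNat 19991016, .negSucc 503449331, .negSucc 388870019,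
      .negSucc 795198815, .negSucc 2960822759, .negSucc 2550696917, .negSucc 1320338389, .negSucc
      1163963537, .ofNat 299584748, .ofNat 142290252, .negSucc 9890231, .ofNat 74646], [.ofNat 0,
      .ofNat 7776000, .ofNat 35795520, .negSucc 398051567, .negSucc 630791867, .negSucc
      850979327, .negSucc 2522003291, .negSucc 2523432941, .ofNat 423971936, .ofNat 321450504,
      .ofNat 731768662, .ofNat 261956704, .negSucc 28641527, .ofNat 1488240], [.ofNat 1458000,
      .ofNat 21753360, .negSucc 211007159, .negSucc 581086259, .negSucc 374178221, .negSucc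
      366942887, .negSucc 157975688, .ofNat 2676479577, .ofNat 2614259709, .ofNat 686738553,
      .ofNat 313312004, .negSucc 36852551, .ofNat 662688], [.ofNat 3499200, .negSucc 103778495,
      .negSucc 340951463, .ofNat 172702476, .ofNat 1170376002, .ofNat 1695519861, .ofNat
      2758325043, .ofNat 2680045905, .negSucc 261829556, .negSucc 44321435, .negSucc 66118493,
      .ofNat 1338480], [.negSucc 20849399, .negSucc 101743127, .ofNat 352134864, .ofNat
      1310927922, .ofNat 1503447033, .ofNat 622315353, .ofNat 300625458, .negSucc 1240306511,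
      .negSucc 724416278, .negSucc 47084874, .ofNat 4556604], [.negSucc 10789199, .ofNat
      213906096, .ofNat 674356752, .ofNat 348074262, .negSucc 1163505227, .negSucc 1521399320,
      .negSucc 1098803582, .negSucc 847020719, .ofNat 86569294, .ofNat 450528], [.ofNat 44396100,
      .ofNat 165658932, .negSucc 245975993, .negSucc 1279380707, .negSucc 1330191458, .negSucc
      135944126, .negSucc 172082372, .ofNat 158305743, .negSucc 6491393], [.ofNat 13413600,
      .negSucc 198427967, .negSucc 581760359, .negSucc 388554191, .ofNat 510631560, .ofNat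
      414202428, .ofNat 49289940, .negSucc 4200767], [.negSucc 42537149, .negSucc 115061957,
      .ofNat 61645374, .ofNat 475186824, .ofNat 393832734, .negSucc 65412005, .ofNat 1540422],
      [.negSucc 4665599, .ofNat 73506528, .ofNat 195185376, .ofNat 141475968, .negSucc 58922495,
      .ofNat 2268864], [.ofNat 15637050, .ofNat 33150546, .ofNat 18548244, .negSucc 14193035,
      .ofNat 602316]],
    [[.ofNat 0, .ofNat 0, .ofNat 0, .ofNat 0, .ofNat 0, .ofNat 0, .ofNat 0, .ofNat 0, .ofNat 0,
      .ofNat 0, .negSucc 399359, .negSucc 1170431, .negSucc 442367, .negSucc 733695, .ofNat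
      903936, .ofNat 1386624, .ofNat 1247616, .ofNat 566656, .ofNat 68544, .negSucc 273503,
      .negSucc 284255, .negSucc 95807, .negSucc 67391], [.ofNat 0, .ofNat 0, .ofNat 0, .ofNat 0,
      .ofNat 0, .ofNat 0, .ofNat 0, .ofNat 0, .ofNat 0, .negSucc 3534719, .negSucc 9420479,
      .negSucc 2813183, .negSucc 7033375, .ofNat 8297328, .ofNat 9408552, .ofNat 9145368, .ofNat
      4329992, .ofNat 23772, .negSucc 1785821, .negSucc 2110517, .negSucc 642911, .negSucc
      469295, .ofNat 5616], [.ofNat 0, .ofNat 0, .ofNat 0, .ofNat 0, .ofNat 0, .ofNat 0, .ofNat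
      0, .ofNat 0, .negSucc 12828479, .negSucc 29198879, .negSucc 2514047, .negSucc 27432879,
      .ofNat 28158504, .ofNat 15343356, .ofNat 14224164, .ofNat 4125740, .negSucc 7989461,
      .negSucc 3485868, .negSucc 4640480, .ofNat 14904, .negSucc 138239, .ofNat 185304, .ofNat
      73008], [.ofNat 0, .ofNat 0, .ofNat 0, .ofNat 0, .ofNat 0, .ofNat 0, .ofNat 0, .negSucc
      24311039, .negSucc 40105727, .ofNat 26444544, .negSucc 62182079, .ofNat 25518816, .negSucc
      29282943, .negSucc 61213887, .negSucc 44531343, .negSucc 49858583, .negSucc 785007, .ofNat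
      3224908, .ofNat 9998982, .ofNat 6656370, .ofNat 1253676, .ofNat 579624, .negSucc 3743],
      [.ofNat 0, .ofNat 0, .ofNat 0, .ofNat 0, .ofNat 0, .ofNat 0, .negSucc 23795519, .negSucc
      5656031, .ofNat 110033472, .negSucc 132759439, .negSucc 126373751, .negSucc 115084475,
      .negSucc 289148947, .negSucc 123854411, .negSucc 82377581, .ofNat 14886361, .ofNat
      43773899, .ofNat 28940275, .ofNat 18518205, .ofNat 2843262, .ofNat 883056, .negSucc 35567],
      [.ofNat 0, .ofNat 0, .ofNat 0, .ofNat 0, .ofNat 0, .ofNat 7080960, .ofNat 27899136, .ofNat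
      59839488, .negSucc 438079487, .negSucc 719288527, .negSucc 126357031, .negSucc 378708071,
      .ofNat 56666176, .ofNat 225629160, .ofNat 128385484, .ofNat 142037272, .ofNat 24178806,
      .ofNat 515086, .negSucc 2768003, .negSucc 4680371, .negSucc 209399, .negSucc 227903,
      .negSucc 7487], [.ofNat 0, .ofNat 0, .ofNat 0, .ofNat 0, .ofNat 36608640, .negSucc 9285119,
      .negSucc 99749855, .negSucc 781475471, .negSucc 1609784295, .ofNat 201058524, .ofNat
      171733212, .ofNat 412753304, .ofNat 1070738592, .ofNat 355526078, .ofNat 249016178, .ofNat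
      19481702, .negSucc 75618999, .negSucc 18280457, .negSucc 18990239, .negSucc 2094215,
      .negSucc 1082819, .ofNat 63648], [.ofNat 0, .ofNat 0, .ofNat 0, .ofNat 20833920, .negSucc
      22030271, .negSucc 85341695, .negSucc 320605919, .negSucc 779094287, .ofNat 1906966392,
      .ofNat 2130289456, .ofNat 568020796, .ofNat 1299172480, .ofNat 59031250, .negSucc
      111733831, .negSucc 40725512, .negSucc 167456106, .negSucc 1613974, .negSucc 16785322,
      .negSucc 3182033, .ofNat 777930, .ofNat 220896], [.ofNat 0, .ofNat 0, .ofNat 345600, .ofNat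
      32783616, .negSucc 32217311, .ofNat 764996976, .ofNat 1488461016, .ofNat 3621890892, .ofNat
      5503443836, .ofNat 1059785416, .ofNat 30736412, .negSucc 375633533, .negSucc 1468731435,
      .negSucc 556885496, .negSucc 258310966, .negSucc 18977726, .ofNat 31595927, .ofNat
      19116164, .ofNat 10603434, .negSucc 557855], [.ofNat 0, .ofNat 0, .ofNat 41409792, .negSucc
      3869567, .ofNat 1025483520, .ofNat 1587546048, .ofNat 1636515936, .ofNat 4594622472,
      .negSucc 532424507, .negSucc 2606139111, .negSucc 93562013, .negSucc 2463936883, .negSucc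
      911486590, .negSucc 153430414, .negSucc 192322537, .ofNat 112966184, .ofNat 47076337,
      .ofNat 10693605, .negSucc 1740023], [.ofNat 0, .ofNat 12441600, .ofNat 25684992, .ofNat
      278066016, .ofNat 232278528, .negSucc 2352740903, .negSucc 2126678783, .negSucc 4414644707,
      .negSucc 7986895741, .negSucc 2831777096, .negSucc 1475402196, .negSucc 513656901, .ofNat
      739611380, .ofNat 110293503, .ofNat 198117949, .negSucc 13787191, .negSucc 25502105, .ofNat
      855504], [.ofNat 2332800, .ofNat 4945536, .negSucc 180048959, .negSucc 173610287, .negSucc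
      3399299591, .negSucc 4984495967, .negSucc 3997518371, .negSucc 10479424403, .negSucc
      6335679071, .ofNat 1301145216, .negSucc 142174821, .ofNat 2151239816, .ofNat 1130326895,
      .ofNat 129260559, .negSucc 115462740, .negSucc 62948536, .ofNat 4816734], [.ofNat 0,
      .negSucc 99532799, .negSucc 34256735, .negSucc 1440385919, .negSucc 2587677623, .ofNat
      329879076, .negSucc 2966860685, .negSucc 2239977026, .ofNat 7414417443, .ofNat 4017264145,
      .ofNat 2565737095, .ofNat 1441682664, .negSucc 322825529, .negSucc 159724443, .negSucc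
      35180151, .ofNat 3606096], [.negSucc 18662399, .ofNat 53747712, .ofNat 2093472, .negSucc
      1005656471, .ofNat 2728379292, .ofNat 5690138412, .ofNat 4935424464, .ofNat 13222715880,
      .ofNat 10913679282, .ofNat 423687714, .ofNat 238737830, .negSucc 984495427, .negSucc
      201397963, .ofNat 71314592, .negSucc 1713425], [.ofNat 17496000, .ofNat 63529920, .negSucc
      621194831, .ofNat 2206526688, .ofNat 7353106164, .ofNat 6903820968, .ofNat 8789602788,
      .ofNat 8383180146, .negSucc 5038592159, .negSucc 3473812727, .negSucc 1257427041, .negSucc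
      113672711, .ofNat 167796352, .negSucc 9358751], [.ofNat 4957200, .negSucc 309861935, .ofNat
      1081627560, .ofNat 5220748188, .ofNat 3486517002, .negSucc 2943476903, .negSucc 3362409620,
      .negSucc 9915006650, .negSucc 8032820006, .negSucc 222050106, .ofNat 196628988, .ofNat
      121318720, .negSucc 9087311], [.negSucc 60069599, .ofNat 535945248, .ofNat 2501033760,
      .negSucc 686378663, .negSucc 9741144065, .negSucc 10675474682, .negSucc 7299784076,
      .negSucc 6294138290, .ofNat 2192189143, .ofNat 855460956, .ofNat 754130, .negSucc 308255],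
      [.ofNat 124367400, .ofNat 705335688, .negSucc 1914961823, .negSucc 8316425429, .negSucc
      7853153858, .ofNat 1294143741, .ofNat 1782954786, .ofNat 3610531224, .ofNat 1711906413,
      .negSucc 118306262, .ofNat 1087164], [.ofNat 82814400, .negSucc 1150630271, .negSucc
      3747064751, .negSucc 1564004969, .ofNat 6850051236, .ofNat 6965193675, .ofNat 2001985269,
      .ofNat 1412658888, .negSucc 304479137, .ofNat 6190704], [.negSucc 248661899, .negSucc
      833537627, .ofNat 1166344110, .ofNat 5890012956, .ofNat 5306809569, .negSucc 910287338,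
      .negSucc 325112216, .negSucc 319866068, .ofNat 15342678], [.negSucc 57445199, .ofNat
      871405776, .ofNat 2485261440, .ofNat 1515439116, .negSucc 2211197795, .negSucc 1556154323,
      .negSucc 2180483, .ofNat 6834672], [.ofNat 186223050, .ofNat 469442466, .negSucc 176940233,
      .negSucc 1609198055, .negSucc 1252222937, .ofNat 252081810, .negSucc 6991217], [.ofNat
      13996800, .negSucc 234516383, .negSucc 615229343, .negSucc 441030527, .ofNat 189471744,
      .negSucc 7345727], [.negSucc 49535549, .negSucc 105015365, .negSucc 58757723, .ofNat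
      44961156, .negSucc 1908035]],
    [[.ofNat 0, .ofNat 0, .ofNat 0, .ofNat 0, .ofNat 0, .ofNat 0, .ofNat 0, .ofNat 0, .ofNat 0,
      .ofNat 0, .ofNat 599040, .ofNat 1755648, .ofNat 364032, .ofNat 222720, .negSucc 1313279,
      .negSucc 1532927, .negSucc 1228031, .negSucc 438911, .ofNat 21312, .ofNat 273504, .ofNat
      284256, .ofNat 95808, .ofNat 67392], [.ofNat 0, .ofNat 0, .ofNat 0, .ofNat 0, .ofNat 0,
      .ofNat 0, .ofNat 0, .ofNat 0, .ofNat 0, .ofNat 5302080, .ofNat 14130720, .ofNat 1568736,
      .ofNat 3484704, .negSucc 11242079, .negSucc 10556159, .negSucc 8834255, .negSucc 3442823,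
      .ofNat 601956, .ofNat 1778334, .ofNat 2110518, .ofNat 642912, .ofNat 469296, .negSucc
      5615], [.ofNat 0, .ofNat 0, .ofNat 0, .ofNat 0, .ofNat 0, .ofNat 0, .ofNat 0, .ofNat 0,
      .ofNat 20986080, .ofNat 53864496, .ofNat 205776, .ofNat 18981552, .negSucc 34214543,
      .negSucc 17884223, .negSucc 11958647, .negSucc 2282891, .ofNat 8968086, .ofNat 3047181,
      .ofNat 4408353, .negSucc 14903, .ofNat 138240, .negSucc 185303, .negSucc 73007], [.ofNat 0,
      .ofNat 0, .ofNat 0, .ofNat 0, .ofNat 0, .ofNat 0, .ofNat 0, .ofNat 53028480, .ofNat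
      155787264, .negSucc 1015487, .ofNat 56395488, .negSucc 17756639, .ofNat 28961664, .ofNat
      67998048, .ofNat 44851200, .ofNat 46884888, .negSucc 2430431, .negSucc 5050283, .negSucc
      9986501, .negSucc 6656369, .negSucc 1253675, .negSucc 579623, .ofNat 3744], [.ofNat 0,
      .ofNat 0, .ofNat 0, .ofNat 0, .ofNat 0, .ofNat 0, .ofNat 104360160, .ofNat 402262992,
      .ofNat 37188048, .ofNat 96851968, .ofNat 168324480, .ofNat 109272752, .ofNat 285979704,
      .ofNat 126122732, .ofNat 70864710, .negSucc 22830496, .negSucc 47274698, .negSucc 28598162,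
      .negSucc 18360956, .negSucc 2843261, .negSucc 883055, .ofNat 35568], [.ofNat 0, .ofNat 0,
      .ofNat 0, .ofNat 0, .ofNat 0, .ofNat 152544000, .ofNat 859309056, .ofNat 318107904, .ofNat
      72948864, .ofNat 636499456, .ofNat 65217984, .ofNat 298761344, .negSucc 31198847, .negSucc
      224227623, .negSucc 129236795, .negSucc 136537495, .negSucc 21589061, .ofNat 1358610,
      .ofNat 2780484, .ofNat 4680372, .ofNat 209400, .ofNat 227904, .ofNat 7488], [.ofNat 0,
      .ofNat 0, .ofNat 0, .ofNat 0, .ofNat 173293440, .ofNat 1283493024, .ofNat 581462208,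
      .negSucc 742552271, .ofNat 1007565632, .negSucc 136310407, .negSucc 374144407, .negSucc
      351429775, .negSucc 1014739615, .negSucc 364756573, .negSucc 217802913, .negSucc 8287613,
      .ofNat 79808808, .ofNat 19119882, .ofNat 19046400, .ofNat 2094216, .ofNat 1082820, .negSucc
      63647], [.ofNat 0, .ofNat 0, .ofNat 0, .ofNat 167411520, .ofNat 1170173088, .ofNat
      132168576, .negSucc 3268590095, .negSucc 629958479, .negSucc 922922783, .negSucc
      1989947167, .negSucc 384313439, .negSucc 1178491963, .negSucc 166892573, .ofNat 143699740,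
      .ofNat 41806137, .ofNat 161551755, .ofNat 9376215, .ofNat 14735931, .ofNat 3097170,
      .negSucc 777929, .negSucc 220895], [.ofNat 0, .ofNat 0, .ofNat 119577600, .ofNat 561587904,
      .negSucc 640513343, .negSucc 5935421183, .negSucc 3579654143, .negSucc 735340463, .negSucc
      4315023855, .negSucc 1159241807, .ofNat 177201308, .ofNat 300887898, .ofNat 1449649520,
      .ofNat 533313669, .ofNat 228625107, .ofNat 30803439, .negSucc 44726990, .negSucc 19038179,
      .negSucc 10637129, .ofNat 557856], [.ofNat 0, .ofNat 49766400, .ofNat 87848064, .negSucc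
      854487071, .negSucc 5636102351, .negSucc 3247838543, .ofNat 3741256224, .negSucc
      2717391359, .negSucc 1312364783, .ofNat 2440865772, .ofNat 107812878, .ofNat 2388342804,
      .ofNat 995753535, .ofNat 116582343, .ofNat 179979606, .negSucc 133704251, .negSucc
      46934336, .negSucc 10102100, .ofNat 1769976], [.ofNat 9331200, .negSucc 23763455, .negSucc
      532180799, .negSucc 2739103199, .negSucc 238135247, .ofNat 9505375176, .ofNat 4468171488,
      .ofNat 891988956, .ofNat 6666521646, .ofNat 2707063553, .ofNat 1197119877, .ofNat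
      515330122, .negSucc 814174343, .negSucc 153272590, .negSucc 174520892, .ofNat 16151840,
      .ofNat 29409234, .negSucc 1020239], [.negSucc 8164799, .negSucc 179050175, .negSucc
      513553823, .ofNat 1112815584, .ofNat 9883427232, .ofNat 8156518752, .ofNat 886962528,
      .ofNat 8907866976, .ofNat 7094568024, .negSucc 1605108735, .negSucc 249537593, .negSucc
      2246397127, .negSucc 1152712022, .negSucc 3690166, .ofNat 123919833, .ofNat 67210685,
      .negSucc 5445725], [.negSucc 30326399, .ofNat 32130432, .ofNat 638375904, .ofNat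
      5419916640, .ofNat 5395925496, .negSucc 2703127643, .ofNat 1686000342, .ofNat 3801109611,
      .negSucc 6662360194, .negSucc 3702108504, .negSucc 2176559382, .negSucc 1138645395, .ofNat
      506387774, .ofNat 148178084, .ofNat 21699112, .negSucc 3199871], [.ofNat 18079200, .ofNat
      131639904, .ofNat 1696644576, .ofNat 2395541232, .negSucc 5408671031, .negSucc 8931288215,
      .negSucc 5660118839, .negSucc 11312013623, .negSucc 9156657353, .ofNat 671643590, .ofNat
      507450786, .ofNat 971938148, .ofNat 125915688, .negSucc 111259683, .ofNat 4210986], [.ofNat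
      17496000, .ofNat 416560320, .ofNat 1077111216, .negSucc 5218877087, .negSucc 12676316531,
      .negSucc 10083351455, .negSucc 6573450587, .negSucc 6121408721, .ofNat 5321476192, .ofNat
      3223349076, .ofNat 680077534, .negSucc 54577487, .negSucc 204662911, .ofNat 11485968],
      [.ofNat 71150400, .ofNat 371677248, .negSucc 3416440031, .negSucc 9536598683, .negSucc
      5523654125, .ofNat 6302232588, .ofNat 6180956109, .ofNat 7824721923, .ofNat 5436654975,
      .negSucc 701756420, .negSucc 409793855, .negSucc 89916323, .ofNat 9205560], [.ofNat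
      41407200, .negSucc 1524959135, .negSucc 4345928855, .ofNat 1391444316, .ofNat 14545395342,
      .ofNat 13988107767, .ofNat 3774743457, .ofNat 2879909247, .negSucc 2361751538, .negSucc
      715511795, .ofNat 154422126, .negSucc 4397327], [.negSucc 302389199, .negSucc 1034530703,
      .ofNat 3623824872, .ofNat 12323892582, .ofNat 10051316043, .negSucc 4433549468, .negSucc
      3950579405, .negSucc 2356639403, .negSucc 814867112, .ofNat 303657915, .negSucc 12232115],
      [.negSucc 73774799, .ofNat 2044594224, .ofNat 5486104728, .ofNat 1905329214, .negSucc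
      9076724639, .negSucc 7896355622, .negSucc 132030656, .negSucc 233746343, .ofNat 304565274,
      .negSucc 12557375], [.ofNat 412686900, .ofNat 1131504228, .negSucc 1688329925, .negSucc
      7268346323, .negSucc 5743626560, .ofNat 2182514643, .ofNat 961225641, .ofNat 107483013,
      .negSucc 8604413], [.ofNat 48114000, .negSucc 1194451919, .negSucc 3059404991, .negSucc
      1693946411, .ofNat 2652804324, .ofNat 1610630244, .negSucc 223742411, .ofNat 3891888],
      [.negSucc 243085049, .negSucc 571327505, .ofNat 178018722, .ofNat 1686232080, .ofNat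
      1176301818, .negSucc 361524113, .ofNat 12562290], [.negSucc 10497599, .ofNat 255931488,
      .ofNat 631115712, .ofNat 425719152, .negSucc 214756271, .ofNat 8592480], [.ofNat 52159950,
      .ofNat 110579094, .ofNat 61870716, .negSucc 47343203, .ofNat 2009124]],
    [[.ofNat 0, .ofNat 0, .ofNat 0, .ofNat 0, .ofNat 0, .ofNat 0, .ofNat 0, .ofNat 0, .ofNat 0,
      .ofNat 0, .negSucc 199679, .negSucc 585215, .negSucc 121343, .negSucc 74239, .ofNat 437760,
      .ofNat 510976, .ofNat 409344, .ofNat 146304, .negSucc 7103, .negSucc 91167, .negSucc 94751,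
      .negSucc 31935, .negSucc 22463], [.ofNat 0, .ofNat 0, .ofNat 0, .ofNat 0, .ofNat 0, .ofNat
      0, .ofNat 0, .ofNat 0, .ofNat 0, .negSucc 1767359, .negSucc 4710239, .negSucc 522911,
      .negSucc 1161567, .ofNat 3747360, .ofNat 3518720, .ofNat 2944752, .ofNat 1147608, .negSucc
      200651, .negSucc 592777, .negSucc 703505, .negSucc 214303, .negSucc 156431, .ofNat 1872],
      [.ofNat 0, .ofNat 0, .ofNat 0, .ofNat 0, .ofNat 0, .ofNat 0, .ofNat 0, .ofNat 0, .negSucc
      6429599, .negSucc 15166223, .ofNat 1620240, .negSucc 4278671, .ofNat 12428976, .ofNat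
      6173952, .ofNat 4206312, .ofNat 831428, .negSucc 2869745, .negSucc 951854, .negSucc
      1424522, .ofNat 4968, .negSucc 46079, .ofNat 61768, .ofNat 24336], [.ofNat 0, .ofNat 0,
      .ofNat 0, .ofNat 0, .ofNat 0, .ofNat 0, .ofNat 0, .negSucc 12301439, .negSucc 25437311,
      .ofNat 16425600, .ofNat 945472, .ofNat 15858048, .negSucc 7786815, .negSucc 20701423,
      .negSucc 14655399, .negSucc 14754127, .ofNat 1298144, .ofNat 2034276, .ofNat 3326338,
      .ofNat 2218790, .ofNat 417892, .ofNat 193208, .negSucc 1247], [.ofNat 0, .ofNat 0, .ofNat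
      0, .ofNat 0, .ofNat 0, .ofNat 0, .negSucc 13111199, .negSucc 27255023, .ofNat 50144304,
      .ofNat 36427216, .negSucc 21627599, .negSucc 35553663, .negSucc 91088079, .negSucc
      43861295, .negSucc 22636221, .ofNat 8091275, .ofNat 16090233, .ofNat 9381265, .ofNat
      6030463, .ofNat 947754, .ofNat 294352, .negSucc 11855], [.ofNat 0, .ofNat 0, .ofNat 0,
      .ofNat 0, .ofNat 0, .negSucc 2657279, .negSucc 43703423, .ofNat 23440320, .ofNat 39391200,
      .negSucc 182696415, .negSucc 69275295, .negSucc 118913135, .negSucc 4106487, .ofNat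
      66477568, .ofNat 38247620, .ofNat 41753640, .ofNat 6073906, .negSucc 1230533, .negSucc
      924331, .negSucc 1560123, .negSucc 69799, .negSucc 75967, .negSucc 2495], [.ofNat 0, .ofNat
      0, .ofNat 0, .ofNat 0, .ofNat 12411840, .negSucc 95537087, .negSucc 116458655, .negSucc
      43562927, .negSucc 495210415, .negSucc 200044463, .ofNat 14632704, .ofNat 92802440, .ofNat
      305927816, .ofNat 111182834, .ofNat 60175110, .negSucc 327101, .negSucc 27729479, .negSucc
      6561805, .negSucc 6318847, .negSucc 698071, .negSucc 360939, .ofNat 21216], [.ofNat 0,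
      .ofNat 0, .ofNat 0, .ofNat 13734720, .negSucc 119015135, .negSucc 203761343, .ofNat
      37859280, .negSucc 400255919, .negSucc 195569759, .ofNat 437223200, .ofNat 126068912,
      .ofNat 359133492, .ofNat 72911730, .negSucc 54667003, .negSucc 10737218, .negSucc 47946760,
      .negSucc 4945228, .negSucc 3867752, .negSucc 1007429, .ofNat 259310, .ofNat 73632], [.ofNat
      0, .ofNat 0, .ofNat 4320000, .negSucc 64571903, .negSucc 145056479, .ofNat 450077520,
      .ofNat 527797872, .ofNat 318580368, .ofNat 1427877424, .ofNat 560931584, .negSucc 27713675,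
      .negSucc 82504785, .negSucc 461857035, .negSucc 161361722, .negSucc 53969388, .negSucc
      11829292, .ofNat 20053605, .ofNat 6223756, .ofNat 3545710, .negSucc 185951], [.ofNat 0,
      .ofNat 0, .negSucc 5173631, .negSucc 53685791, .ofNat 758816304, .ofNat 1262651568, .ofNat
      638158560, .ofNat 1927335696, .ofNat 1208246376, .negSucc 573649003, .negSucc 45974233,
      .negSucc 744967883, .negSucc 350841140, .negSucc 13055132, .negSucc 51986609, .ofNat
      49549844, .ofNat 14826443, .ofNat 3063495, .negSucc 599975], [.ofNat 0, .ofNat 6220800,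
      .negSucc 5560703, .ofNat 593512992, .ofNat 1051780704, .negSucc 104286335, .ofNat
      123792360, .ofNat 343393716, .negSucc 1853612001, .negSucc 763182842, .negSucc 225372758,
      .negSucc 145594973, .ofNat 293287248, .ofNat 67810245, .ofNat 37680103, .negSucc 8698943,
      .negSucc 11258069, .ofNat 424944], [.ofNat 1166400, .ofNat 2472768, .ofNat 254094624,
      .ofNat 524500128, .negSucc 1297940159, .negSucc 2567515727, .negSucc 1798742183, .negSucc
      3541857671, .negSucc 2507442695, .ofNat 788920672, .ofNat 306621630, .ofNat 752645448,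
      .ofNat 398266197, .negSucc 60028922, .negSucc 45822122, .negSucc 22587222, .ofNat 2073162],
      [.ofNat 0, .ofNat 71539200, .ofNat 175855104, .negSucc 1737557279, .negSucc 3462140207,
      .negSucc 2458598639, .negSucc 2297179109, .negSucc 1928594240, .ofNat 2071601177, .ofNat
      1129030635, .ofNat 486207069, .ofNat 285096768, .negSucc 223771661, .negSucc 35827667,
      .ofNat 1447240, .ofNat 663936], [.ofNat 13413600, .ofNat 28436832, .negSucc 1231437599,
      .negSucc 2513434031, .negSucc 438951911, .ofNat 2335360344, .ofNat 2155637352, .ofNat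
      3428131080, .ofNat 2363745150, .negSucc 815893073, .negSucc 457695317, .negSucc 262041611,
      .negSucc 3329039, .ofNat 51213732, .negSucc 2761901], [.ofNat 0, .negSucc 503884799,
      .negSucc 1069574975, .ofNat 2010961440, .ofNat 5788204236, .ofNat 5156286744, .ofNat
      2489803476, .ofNat 1682104158, .negSucc 2009816927, .negSucc 1035742355, .ofNat 47573262,
      .ofNat 45439944, .ofNat 67099080, .negSucc 4118399], [.negSucc 94478399, .negSucc
      200294207, .ofNat 2330830512, .ofNat 5165889588, .ofNat 3391591746, .negSucc 1715441483,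
      .negSucc 1816899470, .negSucc 1893662864, .negSucc 1013045876, .ofNat 566555031, .ofNat
      131650512, .negSucc 2012531, .negSucc 1560311], [.ofNat 0, .ofNat 1115078400, .ofNat
      2348122608, .negSucc 510308279, .negSucc 5374600325, .negSucc 4540240160, .negSucc
      358452134, .negSucc 247640516, .ofNat 755647353, .ofNat 153872100, .negSucc 111171329,
      .ofNat 4256928], [.ofNat 209077200, .ofNat 443243664, .negSucc 2007845063, .negSucc
      5062158449, .negSucc 3553835768, .ofNat 1684299231, .ofNat 1073922570, .ofNat 261418644,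
      .ofNat 65623851, .negSucc 144121328, .ofNat 7627932], [.ofNat 0, .negSucc 1102247999,
      .negSucc 2329038359, .negSucc 708788393, .ofNat 2820362328, .ofNat 1892668437, .negSucc
      510083972, .negSucc 72569519, .negSucc 61258949, .ofNat 4363632], [.negSucc 206671499,
      .negSucc 438143579, .ofNat 711007794, .ofNat 2328555276, .ofNat 1489588947, .negSucc
      876105800, .negSucc 213881066, .ofNat 76598865, .negSucc 2356613], [.ofNat 0, .ofNat
      488138400, .ofNat 1034124408, .ofNat 511549992, .negSucc 740181887, .negSucc 279651851,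
      .ofNat 171860940, .negSucc 7076159], [.ofNat 91525950, .ofNat 194035014, .negSucc 40186853,
      .negSucc 428605343, .negSucc 215975645, .ofNat 155577510, .negSucc 6602309], [.ofNat 0,
      .negSucc 78731999, .negSucc 166911839, .negSucc 93389759, .ofNat 71461440, .negSucc
      3032639], [.negSucc 14762249, .negSucc 31295969, .negSucc 17510579, .ofNat 13399020,
      .negSucc 568619]]]

def O2l : List P2 :=
  [[[.ofNat 0, .ofNat 0, .ofNat 0, .ofNat 0, .ofNat 0, .ofNat 0, .negSucc 2879, .negSucc 106271,
      .ofNat 517392, .ofNat 3333624, .ofNat 1643256, .negSucc 771311, .negSucc 764207, .negSucc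
      479039, .negSucc 336959], [.ofNat 0, .ofNat 0, .ofNat 0, .ofNat 0, .ofNat 0, .negSucc
      59759, .negSucc 1224791, .ofNat 4635288, .ofNat 32194728, .ofNat 18863364, .negSucc
      5983349, .negSucc 8158421, .negSucc 4079855, .negSucc 2825519, .negSucc 308879], [.ofNat 0,
      .ofNat 0, .ofNat 0, .ofNat 0, .negSucc 302039, .negSucc 5679755, .ofNat 17572680, .ofNat
      134578854, .ofNat 93294444, .negSucc 23092064, .negSucc 40728542, .negSucc 12673757,
      .negSucc 6967775, .negSucc 1300199, .ofNat 477360], [.ofNat 0, .ofNat 0, .ofNat 0, .negSucc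
      501119, .negSucc 14605991, .ofNat 34986132, .ofNat 315583488, .ofNat 254765538, .negSucc
      66454805, .negSucc 126902606, .negSucc 18557888, .ofNat 6631932, .ofNat 3563124, .ofNat
      4459800, .ofNat 421200], [.ofNat 0, .ofNat 0, .negSucc 259199, .negSucc 22361399, .ofNat
      38492478, .ofNat 464406903, .ofNat 457075629, .negSucc 141568700, .negSucc 293431262,
      .negSucc 22701821, .ofNat 78652842, .ofNat 34736430, .ofNat 15507024, .ofNat 2936640,
      .negSucc 126359], [.ofNat 0, .ofNat 0, .negSucc 19897487, .ofNat 26444664, .ofNat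
      455448258, .ofNat 552492981, .negSucc 198691769, .negSucc 402150629, .ofNat 158160, .ofNat
      187808421, .ofNat 100754628, .ofNat 30009144, .ofNat 5307972, .negSucc 2265179, .negSucc
      126359], [.ofNat 0, .negSucc 9331199, .ofNat 15886368, .ofNat 307033578, .ofNat 444307194,
      .negSucc 170886317, .negSucc 309557120, .ofNat 91256937, .ofNat 335269623, .ofNat
      234049533, .ofNat 29362146, .negSucc 15187169, .negSucc 10928909, .negSucc 863459],
      [.negSucc 1749599, .ofNat 8732448, .ofNat 143918856, .ofNat 253268370, .negSucc 86173433,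
      .negSucc 173125913, .ofNat 157483371, .ofNat 430822347, .ofNat 409738296, .ofNat 62034408,
      .negSucc 76913888, .negSucc 35994368, .negSucc 1993049, .ofNat 336960], [.ofNat 2332800,
      .ofNat 45380736, .ofNat 110380482, .negSucc 25874288, .negSucc 85069358, .ofNat 87593115,
      .ofNat 231339936, .ofNat 401867943, .ofNat 91194372, .negSucc 205976849, .negSucc 73833710,
      .ofNat 1812345, .ofNat 355680], [.ofNat 7581600, .ofNat 29680992, .negSucc 7448759,
      .negSucc 24186356, .negSucc 34062227, .negSucc 80015027, .ofNat 113608866, .negSucc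
      76244510, .negSucc 400606427, .negSucc 126060425, .ofNat 5565900, .negSucc 404819], [.ofNat
      2551500, .negSucc 4310819, .negSucc 11748725, .negSucc 76977215, .negSucc 201604220,
      .negSucc 204551987, .negSucc 303857069, .negSucc 492426680, .negSucc 196758467, .negSucc
      2317319, .ofNat 38610], [.negSucc 1822499, .negSucc 6585299, .negSucc 50673437, .negSucc
      181171241, .negSucc 298613483, .negSucc 318737750, .negSucc 360744302, .negSucc 209515571,
      .negSucc 5502149, .ofNat 961740], [.negSucc 510299, .negSucc 19549835, .negSucc 102728573,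
      .negSucc 193411367, .negSucc 182526011, .negSucc 150962165, .negSucc 126350963, .ofNat
      4317120, .ofNat 386100], [.negSucc 3462749, .negSucc 33585029, .negSucc 68312159, .negSucc
      59775299, .negSucc 31210379, .negSucc 38438009, .ofNat 7891290, .negSucc 231659], [.negSucc
      4920749, .negSucc 10431989, .negSucc 9117359, .negSucc 2488319, .negSucc 4080779, .ofNat
      2977560, .negSucc 126359], [], []],
    [[.ofNat 0, .ofNat 0, .ofNat 0, .ofNat 0, .ofNat 0, .ofNat 0, .ofNat 0, .ofNat 0, .negSucc
      1705439, .negSucc 8666927, .negSucc 4285871, .ofNat 56096, .ofNat 406944, .ofNat 383232,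
      .ofNat 269568], [.ofNat 0, .ofNat 0, .ofNat 0, .ofNat 0, .ofNat 0, .ofNat 0, .ofNat 0,
      .negSucc 16136879, .negSucc 83616599, .negSucc 49035383, .negSucc 3768775, .ofNat 3841448,
      .ofNat 3053472, .ofNat 2260416, .ofNat 247104], [.ofNat 0, .ofNat 0, .ofNat 0, .ofNat 0,
      .ofNat 0, .ofNat 0, .negSucc 65416079, .negSucc 347432855, .negSucc 241811015, .negSucc
      26905467, .ofNat 20281924, .ofNat 8262264, .ofNat 5534160, .ofNat 1040160, .negSucc
      381887], [.ofNat 0, .ofNat 0, .ofNat 0, .ofNat 0, .ofNat 0, .negSucc 148411079, .negSucc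
      817836851, .negSucc 678326771, .negSucc 44226971, .ofNat 96850064, .ofNat 9011460, .negSucc
      7159271, .negSucc 2942975, .negSucc 3567839, .negSucc 336959], [.ofNat 0, .ofNat 0, .ofNat
      0, .ofNat 0, .negSucc 212908679, .negSucc 1192231187, .negSucc 1123354607, .ofNat
      140744196, .ofNat 346526916, .ofNat 26392080, .negSucc 64130699, .negSucc 33815375,
      .negSucc 12516815, .negSucc 2349311, .ofNat 101088], [.ofNat 0, .ofNat 0, .ofNat 0,
      .negSucc 200921039, .negSucc 1117284911, .negSucc 1137545279, .ofNat 649131990, .ofNat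
      878169750, .ofNat 162549030, .negSucc 152328005, .negSucc 115148723, .negSucc 16012967,
      .negSucc 3891071, .ofNat 1812144, .ofNat 101088], [.ofNat 0, .ofNat 0, .negSucc 123346799,
      .negSucc 686636567, .negSucc 723882743, .ofNat 1005435264, .ofNat 1289894706, .ofNat
      276504996, .negSucc 235982291, .negSucc 240128933, .ofNat 11567772, .ofNat 23357824, .ofNat
      9286008, .ofNat 690768], [.ofNat 0, .negSucc 46655999, .negSucc 280264535, .negSucc
      305328851, .ofNat 685759086, .ofNat 911903610, .negSucc 102099827, .negSucc 499976297,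
      .negSucc 464731163, .ofNat 31803786, .ofNat 126298568, .ofNat 23667172, .ofNat 1542024,
      .negSucc 269567], [.negSucc 8747999, .negSucc 74532959, .negSucc 104211359, .ofNat
      73624680, .negSucc 20856689, .negSucc 796279007, .negSucc 856054541, .negSucc 699055229,
      .negSucc 75967979, .ofNat 270255154, .ofNat 31011716, .negSucc 4770035, .negSucc 471743],
      [.negSucc 10497599, .negSucc 28475711, .negSucc 180126827, .negSucc 572094251, .negSucc
      896652557, .negSucc 645781259, .negSucc 446240447, .negSucc 113978507, .ofNat 379027242,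
      .ofNat 31230484, .negSucc 26367407, .ofNat 1420848], [.negSucc 1166399, .negSucc 105504767,
      .negSucc 432143099, .negSucc 300014279, .ofNat 202203018, .ofNat 429976050, .ofNat
      239703054, .ofNat 459284502, .ofNat 119421708, .negSucc 35270303, .ofNat 3364920],
      [.negSucc 19318499, .negSucc 131545619, .ofNat 155957724, .ofNat 824168736, .ofNat
      1102271796, .ofNat 673784484, .ofNat 525916956, .ofNat 332668584, .ofNat 5536224, .ofNat
      426816], [.negSucc 16985699, .ofNat 151780716, .ofNat 671931288, .ofNat 914046390, .ofNat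
      668714598, .ofNat 497001342, .ofNat 473397270, .ofNat 69714552, .negSucc 4699655], [.ofNat
      35210700, .ofNat 232110684, .ofNat 345404412, .ofNat 306058446, .ofNat 312806466, .ofNat
      382582866, .ofNat 91706622, .negSucc 5988995], [.ofNat 29524500, .ofNat 43151940, .ofNat
      39241260, .ofNat 106632990, .ofNat 171987210, .ofNat 55258020, .negSucc 3341519], [.negSucc
      3644999, .negSucc 7727399, .ofNat 14361300, .ofNat 33243750, .ofNat 13104450, .negSucc
      737099], []],
    [[.ofNat 0, .ofNat 0, .ofNat 0, .ofNat 0, .ofNat 0, .ofNat 0, .ofNat 2880, .ofNat 106272,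
      .ofNat 976848, .ofNat 4323000, .ofNat 1896120, .negSucc 672495, .negSucc 197423, .ofNat
      287424, .ofNat 202176], [.ofNat 0, .ofNat 0, .ofNat 0, .ofNat 0, .ofNat 0, .ofNat 59760,
      .ofNat 1224792, .ofNat 9527592, .ofNat 41825112, .ofNat 22243668, .negSucc 4185541,
      .negSucc 2380581, .ofNat 1794960, .ofNat 1695312, .ofNat 185328], [.ofNat 0, .ofNat 0,
      .ofNat 0, .ofNat 0, .ofNat 302040, .ofNat 5679756, .ofNat 39853440, .ofNat 172941582,
      .ofNat 111840996, .negSucc 8059336, .negSucc 13069702, .ofNat 2970354, .ofNat 5208768,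
      .ofNat 780120, .negSucc 286415], [.ofNat 0, .ofNat 0, .ofNat 0, .ofNat 501120, .ofNat
      14605992, .ofNat 94830828, .ofNat 405244584, .ofNat 326389170, .negSucc 13188737, .negSucc
      56169578, .negSucc 2532488, .ofNat 7015116, .negSucc 1121003, .negSucc 2675879, .negSucc
      252719], [.ofNat 0, .ofNat 0, .ofNat 259200, .ofNat 22361400, .ofNat 146364222, .ofNat
      571701759, .ofNat 502039113, .negSucc 120655850, .negSucc 155216848, .negSucc 19859073,
      .negSucc 7195637, .negSucc 6228449, .negSucc 9148463, .negSucc 1761983, .ofNat 75816],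
      [.ofNat 0, .ofNat 0, .ofNat 19897488, .ofNat 146726136, .ofNat 478682202, .ofNat 377151669,
      .negSucc 434652053, .negSucc 456752531, .negSucc 146759989, .negSucc 21498458, .ofNat
      12168540, .negSucc 22603271, .negSucc 3391451, .ofNat 1359108, .ofNat 75816], [.ofNat 0,
      .ofNat 9331200, .ofNat 90331632, .ofNat 213994962, .ofNat 59177862, .negSucc 650613803,
      .negSucc 750163262, .negSucc 325439162, .negSucc 99137360, .ofNat 12577041, .negSucc
      37162541, .negSucc 1677361, .ofNat 5917122, .ofNat 518076], [.ofNat 1749600, .ofNat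
      31702752, .ofNat 26864568, .negSucc 127123613, .negSucc 347857481, .negSucc 352167995,
      .negSucc 42927710, .negSucc 55229684, .negSucc 14774231, .negSucc 91739771, .negSucc
      30052824, .ofNat 21387991, .ofNat 1038582, .negSucc 202175], [.ofNat 5248800, .negSucc
      15310943, .negSucc 99846269, .ofNat 185935491, .ofNat 568418973, .ofNat 739902429, .ofNat
      328165818, .ofNat 20564913, .negSucc 107342357, .negSucc 72659421, .ofNat 41857625,
      .negSucc 869966, .negSucc 101087], [.negSucc 4957199, .negSucc 26450063, .ofNat 357780456,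
      .ofNat 1027076751, .ofNat 1077791256, .ofNat 433847718, .negSucc 91668863, .negSucc
      26104304, .negSucc 41446793, .ofNat 54296982, .ofNat 3435396, .negSucc 397331], [.negSucc
      2988899, .ofNat 188452332, .ofNat 709316406, .ofNat 564195510, .negSucc 143525198, .negSucc
      571955393, .negSucc 104015471, .ofNat 26467455, .ofNat 17022992, .ofNat 10635772, .negSucc
      1654301], [.ofNat 36522900, .ofNat 227116548, .negSucc 11802185, .negSucc 697403339,
      .negSucc 967775825, .negSucc 314663648, .ofNat 36748875, .negSucc 110776943, .negSucc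
      16892037, .negSucc 220739], [.ofNat 28066500, .negSucc 119930219, .negSucc 607806773,
      .negSucc 765652967, .negSucc 300622499, .ofNat 24320256, .negSucc 216474137, .negSucc
      78450167, .ofNat 4052412], [.negSucc 33643349, .negSucc 219651101, .negSucc 277114391,
      .negSucc 72809171, .ofNat 56843724, .negSucc 174225659, .negSucc 111203231, .ofNat
      5984784], [.negSucc 27811349, .negSucc 23968061, .ofNat 61314732, .ofNat 80753094, .negSucc
      57922673, .negSucc 80338331, .ofNat 4045392], [.ofNat 6561000, .ofNat 37237320, .ofNat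
      46026900, .ofNat 3754710, .negSucc 28867949, .ofNat 1340820], [.ofNat 4374000, .ofNat
      9272880, .ofNat 5188320, .negSucc 3970079, .ofNat 168480]],
    [[], [], [.ofNat 0, .ofNat 0, .ofNat 0, .ofNat 0, .ofNat 0, .ofNat 0, .ofNat 8160, .ofNat
      301104, .ofNat 357696, .ofNat 191752, .ofNat 95688, .negSucc 71855, .negSucc 50543],
      [.ofNat 0, .ofNat 0, .ofNat 0, .ofNat 0, .ofNat 0, .ofNat 169320, .ofNat 3470244, .ofNat
      4029264, .ofNat 1095294, .ofNat 361262, .negSucc 363359, .negSucc 381095, .negSucc 44927],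
      [.ofNat 0, .ofNat 0, .ofNat 0, .ofNat 0, .ofNat 855780, .ofNat 16092642, .ofNat 20374020,
      .ofNat 3049851, .negSucc 1901346, .negSucc 1974157, .negSucc 1585955, .negSucc 57959,
      .ofNat 115128], [.ofNat 0, .ofNat 0, .ofNat 0, .ofNat 1419840, .ofNat 41383644, .ofNat
      64731006, .ofNat 6361314, .negSucc 20762978, .negSucc 10959504, .negSucc 4514279, .ofNat
      620892, .ofNat 949788, .ofNat 98280], [.ofNat 0, .ofNat 0, .ofNat 734400, .ofNat 63357300,
      .ofNat 122473134, .ofNat 1849959, .negSucc 71287916, .negSucc 35863418, .negSucc 10817630,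
      .ofNat 5146536, .ofNat 4415562, .ofNat 155124, .negSucc 87047], [.ofNat 0, .ofNat 0, .ofNat
      56376216, .ofNat 131433192, .negSucc 36223979, .negSucc 166465064, .negSucc 86731535,
      .negSucc 6279179, .ofNat 30231096, .ofNat 12434727, .negSucc 1822193, .negSucc 579923,
      .negSucc 53351], [.ofNat 0, .ofNat 26438400, .ofNat 78149124, .negSucc 97825823, .negSucc
      292487261, .negSucc 158263283, .ofNat 28379697, .ofNat 95444907, .ofNat 29496495, .negSucc
      10063890, .negSucc 2785517, .negSucc 25307, .ofNat 22464], [.ofNat 4957200, .ofNat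
      23728464, .negSucc 112061447, .negSucc 328810985, .negSucc 176744312, .ofNat 92175207,
      .ofNat 190667232, .ofNat 52132710, .negSucc 36554582, .negSucc 7845376, .ofNat 1564662,
      .ofNat 11232], [.ofNat 2478600, .negSucc 60452567, .negSucc 210696281, .negSucc 85525442,
      .ofNat 190310088, .ofNat 282093576, .ofNat 60613329, .negSucc 91907825, .negSucc 16133458,
      .ofNat 6699761, .negSucc 139775], [.negSucc 12320099, .negSucc 68886611, .ofNat 19722204,
      .ofNat 250223211, .ofNat 303104190, .ofNat 48367422, .negSucc 150242741, .negSucc 27618938,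
      .ofNat 16187698, .negSucc 436331], [.negSucc 8018999, .ofNat 36848520, .ofNat 181884636,
      .ofNat 206187183, .ofNat 9214974, .negSucc 170915210, .negSucc 36826730, .ofNat 28975383,
      .negSucc 1001753], [.ofNat 10096650, .ofNat 65533698, .ofNat 70115328, .negSucc 39452156,
      .negSucc 144647840, .negSucc 38416289, .ofNat 36475488, .negSucc 1500875], [.ofNat 8274150,
      .ofNat 2961198, .negSucc 46829177, .negSucc 88674515, .negSucc 30261413, .ofNat 29142318,
      .negSucc 1260557], [.negSucc 2733749, .negSucc 20375549, .negSucc 34152299, .negSucc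
      14813099, .ofNat 13128300, .negSucc 561599], [.negSucc 2733749, .negSucc 5795549, .negSucc
      3242699, .ofNat 2481300, .negSucc 105299]]]

end Vale.Agent.P219.D4
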