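import Vale.Agent.P219.D4.Facs
import Vale.Agent.P219.D4.Checks
import Vale.Agent.P219.D4.Kdef

/-! # The certificate in dimension 4: positivity (partly generated) -/

open Set

namespace Vale.Agent.P219.D4

open Vale.Agent.P219.C5

variable {r e a : ℝ}

/-! ### Regions -/

theorem reg_sq {L i j k l : ℕ} {Q : List P2} (hok : ok L i j k l Q = true) (h : Dm r e)
    (ha : a ∈ Icc (0 : ℝ) 1) : 0 < e3 a r e Q := by
  have h1 : 0 < 1 - r := sub_pos.2 h.r1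
  have h2 : 0 < 1 - e := sub_pos.2 h.e1
  exact ok_pos hok ha ⟨h.r0.le, h.r1.le⟩ ⟨h.e0.le, h.e1.le⟩
    (mul_pos (mul_pos (pow_pos h.r0 _) (pow_pos h1 _)) (mul_pos (pow_pos h.e0 _) (pow_pos h2 _)))

theorem div_Icc {x y : ℝ} (hx : 0 ≤ x) (hy : 0 < y) (h : x ≤ y) : x / y ∈ Icc (0 : ℝ) 1 :=
  ⟨div_nonneg hx hy.le, (div_le_one hy).2 h⟩

theorem reg_tri {M L k : ℕ} {Q : List P2} (hok : okT M L 0 0 k 0 Q = true) (h : Dm r e)
    (he : e ≤ r) (ha : a ∈ Icc (0 : ℝ) 1) : 0 < e3 a r e Q := by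
  have h1 := okT_pos hok ha ⟨h.r0.le, h.r1.le⟩ (div_Icc h.e0.le h.r0 he)
    (by have := pow_pos h.r0 k; simpa using this)
  rwa [div_mul_cancel₀ _ h.r0.ne'] at h1

theorem reg_triB {α β : ℤ} {D M N L i j : ℕ} {Q : List P2}
    (hok : okTB α β D M N L i j 0 0 Q = true) (h : Dm r e) (he : e ≤ r) (hD : 0 < D)
    {u : ℝ} (hu : u ∈ Icc (0 : ℝ) 1) (hx : (α : ℝ) + β * u = D * r)
    (hm : 0 < u ^ i * (1 - u) ^ j) (ha : a ∈ Icc (0 : ℝ) 1) : 0 < e3 a r e Q := by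
  have h1 := okTB_pos hok hD hx ha hu (div_Icc h.e0.le h.r0 he) (by simpa using hm)
  rwa [div_mul_cancel₀ _ h.r0.ne'] at h1

theorem reg_T5 {M N L i : ℕ} {Q : List P2} (hok : okTB 0 3 10 M N L i 0 0 0 Q = true)
    (h : Dm r e) (he : e ≤ r) (hr : r ≤ 3 / 10) (ha : a ∈ Icc (0 : ℝ) 1) : 0 < e3 a r e Q := by
  have h0 := h.r0
  refine reg_triB hok h he (by norm_num) (u := 10 * r / 3) ⟨by positivity, by linarith⟩
    (by push_cast; ring) ?_ ha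
  rw [pow_zero, mul_one]
  positivity

theorem reg_M {M N L : ℕ} {Q : List P2} (hok : okTB 3 4 10 M N L 0 0 0 0 Q = true)
    (h : Dm r e) (he : e ≤ r) (hr : 3 / 10 ≤ r) (hr' : r ≤ 7 / 10) (ha : a ∈ Icc (0 : ℝ) 1) :
    0 < e3 a r e Q :=
  reg_triB hok h he (by norm_num) (u := (10 * r - 3) / 4) ⟨by linarith, by linarith⟩
    (by push_cast; ring) (by norm_num) ha

theorem reg_N {M N L : ℕ} {Q : List P2} (hok : okTB 7 3 10 M N L 0 1 0 0 Q = true)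
    (h : Dm r e) (he : e ≤ r) (hr : 7 / 10 ≤ r) (ha : a ∈ Icc (0 : ℝ) 1) :
    0 < e3 a r e Q :=
  reg_triB hok h he (by norm_num) (u := (10 * r - 7) / 3) ⟨by linarith, by linarith [h.r1]⟩
    (by push_cast; ring) (by rw [pow_zero, one_mul, pow_one]; linarith [h.r1]) ha

theorem reg_J13 {N L k : ℕ} {Q : List P2}
    (hok : okC [[.ofNat 0, .ofNat 1], [.ofNat 0, .ofNat 2]] 3 N L 0 0 k 0 Q = true)
    (h : Dm r e) (h1 : e ≤ 3 * r) (h2 : r ≤ e) (ha : a ∈ Icc (0 : ℝ) 1) : 0 < e3 a r e Q := by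
  have he := h.e0
  refine okC_pos hok (by norm_num) (u := (3 * r - e) / (2 * e)) ?_ ha
    (div_Icc (by linarith) (by linarith) (by linarith)) ⟨he.le, h.e1.le⟩
    (by have := pow_pos he k; simpa using this)
  simp [e2, evz]
  field_simp
  ring

theorem reg_J01 {N L k : ℕ} {Q : List P2}
    (hok : okC [[.ofNat 0, .ofNat 0], [.ofNat 0, .ofNat 1]] 1 N L 0 0 k 0 Q = true)
    (h : Dm r e) (h2 : r ≤ e) (ha : a ∈ Icc (0 : ℝ) 1) : 0 < e3 a r e Q := by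
  have he := h.e0
  refine okC_pos hok (by norm_num) (u := r / e) ?_ ha
    (div_Icc h.r0.le he h2) ⟨he.le, h.e1.le⟩
    (by have := pow_pos he k; simpa using this)
  simp [e2, evz]
  field_simp

theorem reg_J03 {N L k : ℕ} {Q : List P2}
    (hok : okC [[.ofNat 0, .ofNat 0], [.ofNat 0, .ofNat 1]] 3 N L 0 0 k 0 Q = true)
    (h : Dm r e) (h2 : 3 * r ≤ e) (ha : a ∈ Icc (0 : ℝ) 1) : 0 < e3 a r e Q := by
  have he := h.e0
  have hr := h.r0
  refine okC_pos hok (by norm_num) (u := 3 * r / e) ?_ ha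
    (div_Icc (by linarith) he h2) ⟨he.le, h.e1.le⟩
    (by have := pow_pos he k; simpa using this)
  simp [e2, evz]
  field_simp

theorem reg_P0 {N L i k l : ℕ} {Q : List P2}
    (hok : okC [[.ofNat 0, .ofNat 4], [.ofNat 3, .negSucc 2]] 4 N L i 0 k l Q = true)
    (h : Dm r e) (h1 : e < r) (h2 : 4 * (r - e) ≤ 3 * (1 - e)) (ha : a ∈ Icc (0 : ℝ) 1) :
    0 < e3 a r e Q := by
  have he := h.e0
  have he1 : 0 < 1 - e := sub_pos.2 h.e1
  have hu : 0 < 4 * (r - e) / (3 * (1 - e)) := div_pos (by linarith) (by linarith)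
  refine okC_pos hok (by norm_num) (u := 4 * (r - e) / (3 * (1 - e))) ?_ ha
    (div_Icc (by linarith) (by linarith) h2) ⟨he.le, h.e1.le⟩ ?_
  · simp [e2, evz]
    field_simp
    ring
  · have := pow_pos hu i
    have := pow_pos he k
    have := pow_pos he1 l
    rw [pow_zero, mul_one]
    positivity

theorem reg_P1 {N L k l : ℕ} {Q : List P2}
    (hok : okC [[.ofNat 15, .ofNat 5], [.ofNat 1, .negSucc 0]] 20 N L 0 0 k l Q = true)
    (h : Dm r e) (h1 : 3 * (1 - e) ≤ 4 * (r - e)) (h2 : 5 * (r - e) ≤ 4 * (1 - e))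
    (ha : a ∈ Icc (0 : ℝ) 1) : 0 < e3 a r e Q := by
  have he := h.e0
  have he1 : 0 < 1 - e := sub_pos.2 h.e1
  refine okC_pos hok (by norm_num) (u := (20 * r - 15 - 5 * e) / (1 - e)) ?_ ha
    (div_Icc (by linarith) (by linarith) (by linarith)) ⟨he.le, h.e1.le⟩ ?_
  · simp [e2, evz]
    field_simp
    ring
  · have := pow_pos he k
    have := pow_pos he1 l
    rw [pow_zero, pow_zero, mul_one, one_mul]
    positivity

theorem reg_O2 {N L i l : ℕ} {Q : List P2}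
    (hok : okC [[.ofNat 5], [.negSucc 0, .ofNat 1]] 5 N L i 0 0 l Q = true)
    (h : Dm r e) (h1 : 4 * (1 - e) ≤ 5 * (r - e)) (ha : a ∈ Icc (0 : ℝ) 1) :
    0 < e3 a r e Q := by
  have he := h.e0
  have he1 : 0 < 1 - e := sub_pos.2 h.e1
  have hr1 : 0 < 1 - r := sub_pos.2 h.r1
  have hu : 0 < 5 * (1 - r) / (1 - e) := div_pos (by linarith) he1
  refine okC_pos hok (by norm_num) (u := 5 * (1 - r) / (1 - e)) ?_ ha
    (div_Icc (by linarith) he1 (by linarith)) ⟨he.le, h.e1.le⟩ ?_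
  · simp [e2, evz]
    field_simp
    ring
  · have := pow_pos hu i
    have := pow_pos he1 l
    rw [pow_zero, mul_one, pow_zero, one_mul]
    positivity

theorem ka_Icc {i j D : ℕ} {Q : List P2} (hD : 0 < D) (hj : 0 < j) {x T : ℝ}
    (h : ∀ a ∈ Icc (0 : ℝ) 1, 0 < e3 a x T (ka i j D Q)) {b : ℝ}
    (hb : b ∈ Icc ((i : ℝ) / D) ((i + j : ℝ) / D)) : 0 < e3 b x T Q := by
  have hD' : (0 : ℝ) < D := by exact_mod_cast hD
  have hj' : (0 : ℝ) < j := by exact_mod_cast hj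
  obtain ⟨h1, h2⟩ := hb
  rw [div_le_iff₀ hD'] at h1
  rw [le_div_iff₀ hD'] at h2
  have ha : (b * D - i) / j ∈ Icc (0 : ℝ) 1 := div_Icc (by linarith) hj' (by linarith)
  refine ka_pos hD ?_ (h _ ha)
  push_cast
  field_simp
  ring

/-! ### Factors -/

theorem S1_fac (h : Dm r e) : 0 < e2 r e (mul2 (mpow pv 3) (mpow pL0 1)) := by
  have h0 := h.r0
  have h1 : 0 < 1 - r := sub_pos.2 h.r1
  have h2 := h.e0
  simp only [e2_mul, v_mpow, v_v, v_L0]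
  generalize 1 - r = v at h1 ⊢
  positivity

theorem S2_fac (h : Dm r e) : 0 < e2 r e (mpow pv 1) := by
  have h0 := h.r0
  have h1 : 0 < 1 - r := sub_pos.2 h.r1
  have h2 := h.e0
  simp only [v_mpow, v_v]
  generalize 1 - r = v at h1 ⊢
  positivity

theorem S3_fac (h : Dm r e) : 0 < e2 r e (smul2 2 (mpow pv 1)) := by
  have h0 := h.r0
  have h1 : 0 < 1 - r := sub_pos.2 h.r1
  have h2 := h.e0
  simp only [e2_smul, v_mpow, v_v]
  generalize 1 - r = v at h1 ⊢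
  positivity

theorem S4_fac (h : Dm r e) : 0 < e2 r e (mpow pv 1) := by
  have h0 := h.r0
  have h1 : 0 < 1 - r := sub_pos.2 h.r1
  have h2 := h.e0
  simp only [v_mpow, v_v]
  generalize 1 - r = v at h1 ⊢
  positivity

theorem S5_fac (h : Dm r e) : 0 < e2 r e (smul2 2 (mul2 (mpow pv 1) (mpow pL1 1))) := by
  have h0 := h.r0
  have h1 : 0 < 1 - r := sub_pos.2 h.r1
  have h2 := h.e0
  simp only [e2_smul, e2_mul, v_mpow, v_v, v_L1]
  generalize 1 - r = v at h1 ⊢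
  positivity

theorem S6b_fac (h : Dm r e) : 0 < e2 r e (mpow pv 2) := by
  have h0 := h.r0
  have h1 : 0 < 1 - r := sub_pos.2 h.r1
  have h2 := h.e0
  simp only [v_mpow, v_v]
  generalize 1 - r = v at h1 ⊢
  positivity

theorem S6u_fac (h : Dm r e) : 0 < e2 r e (mpow pv 1) := by
  have h0 := h.r0
  have h1 : 0 < 1 - r := sub_pos.2 h.r1
  have h2 := h.e0
  simp only [v_mpow, v_v]
  generalize 1 - r = v at h1 ⊢
  positivity

theorem S9_fac (h : Dm r e) : 0 < e2 r e (smul2 2 (mul2 (mpow pv 2) (mpow pL1 1))) := by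
  have h0 := h.r0
  have h1 : 0 < 1 - r := sub_pos.2 h.r1
  have h2 := h.e0
  simp only [e2_smul, e2_mul, v_mpow, v_v, v_L1]
  generalize 1 - r = v at h1 ⊢
  positivity

theorem S10_fac (h : Dm r e) : 0 < e2 r e (smul2 4 (mul2 (mpow pv 1) (mpow pL1 1))) := by
  have h0 := h.r0
  have h1 : 0 < 1 - r := sub_pos.2 h.r1
  have h2 := h.e0
  simp only [e2_smul, e2_mul, v_mpow, v_v, v_L1]
  generalize 1 - r = v at h1 ⊢
  positivity

theorem S11_fac (h : Dm r e) : 0 < e2 r e (mul2 (mpow pv 2) (mpow pL1 1)) := by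
  have h0 := h.r0
  have h1 : 0 < 1 - r := sub_pos.2 h.r1
  have h2 := h.e0
  simp only [e2_mul, v_mpow, v_v, v_L1]
  generalize 1 - r = v at h1 ⊢
  positivity

theorem S12a_fac (h : Dm r e) : 0 < e2 r e (smul2 3 (mpow pv 1)) := by
  have h0 := h.r0
  have h1 : 0 < 1 - r := sub_pos.2 h.r1
  have h2 := h.e0
  simp only [e2_smul, v_mpow, v_v]
  generalize 1 - r = v at h1 ⊢
  positivity

theorem S12b_fac (h : Dm r e) : 0 < e2 r e (smul2 6 (mul2 (mul2 (mpow pv 2) (mpow pL0 1)) (mpow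
    pL1 1))) := by
  have h0 := h.r0
  have h1 : 0 < 1 - r := sub_pos.2 h.r1
  have h2 := h.e0
  simp only [e2_smul, e2_mul, v_mpow, v_v, v_L0, v_L1]
  generalize 1 - r = v at h1 ⊢
  positivity

theorem S13_fac (h : Dm r e) : 0 < e2 r e (mpow pv 2) := by
  have h0 := h.r0
  have h1 : 0 < 1 - r := sub_pos.2 h.r1
  have h2 := h.e0
  simp only [v_mpow, v_v]
  generalize 1 - r = v at h1 ⊢
  positivity

theorem S14_fac (h : Dm r e) : 0 < e2 r e (smul2 2 (mul2 (mpow pv 2) (mpow pL1 1))) := by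
  have h0 := h.r0
  have h1 : 0 < 1 - r := sub_pos.2 h.r1
  have h2 := h.e0
  simp only [e2_smul, e2_mul, v_mpow, v_v, v_L1]
  generalize 1 - r = v at h1 ⊢
  positivity

theorem T1_fac (h : Dm r e) : 0 < e2 r e (mul2 (mpow pv 2) (mpow pL0 1)) := by
  have h0 := h.r0
  have h1 : 0 < 1 - r := sub_pos.2 h.r1
  have h2 := h.e0
  simp only [e2_mul, v_mpow, v_v, v_L0]
  generalize 1 - r = v at h1 ⊢
  positivity

theorem T2_fac (h : Dm r e) : 0 < e2 r e (p1) := by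
  have h0 := h.r0
  have h1 : 0 < 1 - r := sub_pos.2 h.r1
  have h2 := h.e0
  rw [v_1]; exact zero_lt_one

theorem T3_fac (h : Dm r e) : 0 < e2 r e (p1) := by
  have h0 := h.r0
  have h1 : 0 < 1 - r := sub_pos.2 h.r1
  have h2 := h.e0
  rw [v_1]; exact zero_lt_one

theorem T4_fac (h : Dm r e) : 0 < e2 r e (mpow pL1 1) := by
  have h0 := h.r0
  have h1 : 0 < 1 - r := sub_pos.2 h.r1
  have h2 := h.e0
  simp only [v_mpow, v_L1]
  positivity

theorem T5_fac (h : Dm r e) : 0 < e2 r e (smul2 2 (mpow pL1 3)) := by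
  have h0 := h.r0
  have h1 : 0 < 1 - r := sub_pos.2 h.r1
  have h2 := h.e0
  simp only [e2_smul, v_mpow, v_L1]
  positivity

theorem J1_fac (h : Dm r e) : 0 < e2 r e (p1) := by
  have h0 := h.r0
  have h1 : 0 < 1 - r := sub_pos.2 h.r1
  have h2 := h.e0
  rw [v_1]; exact zero_lt_one

theorem J2_fac (h : Dm r e) : 0 < e2 r e (mul2 (mpow pv 1) (mpow pL1 1)) := by
  have h0 := h.r0
  have h1 : 0 < 1 - r := sub_pos.2 h.r1
  have h2 := h.e0
  simp only [e2_mul, v_mpow, v_v, v_L1]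
  generalize 1 - r = v at h1 ⊢
  positivity

theorem V0_fac (h : Dm r e) : 0 < e2 r e (smul2 2 (mpow pv 1)) := by
  have h0 := h.r0
  have h1 : 0 < 1 - r := sub_pos.2 h.r1
  have h2 := h.e0
  simp only [e2_smul, v_mpow, v_v]
  generalize 1 - r = v at h1 ⊢
  positivity

theorem V1_fac (h : Dm r e) : 0 < e2 r e (smul2 2 (mul2 (mpow pv 1) (mpow pL1 1))) := by
  have h0 := h.r0
  have h1 : 0 < 1 - r := sub_pos.2 h.r1
  have h2 := h.e0
  simp only [e2_smul, e2_mul, v_mpow, v_v, v_L1]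
  generalize 1 - r = v at h1 ⊢
  positivity

theorem M0_fac (h : Dm r e) : 0 < e2 r e (smul2 2 (mpow pv 2)) := by
  have h0 := h.r0
  have h1 : 0 < 1 - r := sub_pos.2 h.r1
  have h2 := h.e0
  simp only [e2_smul, v_mpow, v_v]
  generalize 1 - r = v at h1 ⊢
  positivity

theorem M1_fac (h : Dm r e) : 0 < e2 r e (smul2 2 (mul2 (mpow pv 2) (mpow pL1 1))) := by
  have h0 := h.r0
  have h1 : 0 < 1 - r := sub_pos.2 h.r1
  have h2 := h.e0
  simp only [e2_smul, e2_mul, v_mpow, v_v, v_L1]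
  generalize 1 - r = v at h1 ⊢
  positivity

theorem N0_fac (h : Dm r e) : 0 < e2 r e (smul2 4 (mpow pv 2)) := by
  have h0 := h.r0
  have h1 : 0 < 1 - r := sub_pos.2 h.r1
  have h2 := h.e0
  simp only [e2_smul, v_mpow, v_v]
  generalize 1 - r = v at h1 ⊢
  positivity

theorem N1_fac (h : Dm r e) : 0 < e2 r e (mul2 (mpow pv 2) (mpow pL1 1)) := by
  have h0 := h.r0
  have h1 : 0 < 1 - r := sub_pos.2 h.r1
  have h2 := h.e0
  simp only [e2_mul, v_mpow, v_v, v_L1]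
  generalize 1 - r = v at h1 ⊢
  positivity

theorem O1a_fac (h : Dm r e) : 0 < e2 r e (smul2 4 (mul2 (mpow pv 3) (mpow pL0 3))) := by
  have h0 := h.r0
  have h1 : 0 < 1 - r := sub_pos.2 h.r1
  have h2 := h.e0
  simp only [e2_smul, e2_mul, v_mpow, v_v, v_L0]
  generalize 1 - r = v at h1 ⊢
  positivity

theorem O1b_fac (h : Dm r e) : 0 < e2 r e (smul2 4 (mul2 (mul2 (mpow pv 3) (mpow pL0 3)) (mpow
    pL1 1))) := by
  have h0 := h.r0
  have h1 : 0 < 1 - r := sub_pos.2 h.r1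
  have h2 := h.e0
  simp only [e2_smul, e2_mul, v_mpow, v_v, v_L0, v_L1]
  generalize 1 - r = v at h1 ⊢
  positivity

theorem O2_fac (h : Dm r e) : 0 < e2 r e (smul2 4 (mul2 (mpow pv 1) (mpow pL1 1))) := by
  have h0 := h.r0
  have h1 : 0 < 1 - r := sub_pos.2 h.r1
  have h2 := h.e0
  simp only [e2_smul, e2_mul, v_mpow, v_v, v_L1]
  generalize 1 - r = v at h1 ⊢
  positivity

/-! ### Positivity -/

theorem pos_of {X Xl : List P2} {f : P2} (hX : eqv3 X (kmap (mul2 f) Xl) = true)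
    (hf : 0 < e2 r e f) (h : 0 < e3 a r e Xl) : 0 < e3 a r e X := by
  rw [e3_eqv hX, e3_kmap_mul]
  exact mul_pos hf h

theorem S1_pos (h : Dm r e) (ha : a ∈ Icc (0 : ℝ) 1) : 0 < e3 a r e S1 :=
  pos_of S1_eq (S1_fac h) (reg_sq S1_ok h ha)

theorem S2_pos (h : Dm r e) (ha : a ∈ Icc (0 : ℝ) 1) : 0 < e3 a r e S2 :=
  pos_of S2_eq (S2_fac h) (reg_sq S2_ok h ha)

theorem S3_pos (h : Dm r e) (ha : a ∈ Icc (0 : ℝ) 1) : 0 < e3 a r e S3 :=
  pos_of S3_eq (S3_fac h) (reg_sq S3_ok h ha)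

theorem S4_pos (h : Dm r e) (ha : a ∈ Icc (0 : ℝ) 1) : 0 < e3 a r e S4 :=
  pos_of S4_eq (S4_fac h) (reg_sq S4_ok h ha)

theorem S5_pos (h : Dm r e) (ha : a ∈ Icc (0 : ℝ) 1) : 0 < e3 a r e S5 :=
  pos_of S5_eq (S5_fac h) (reg_sq S5_ok h ha)

theorem S6b_pos (h : Dm r e) (ha : a ∈ Icc (0 : ℝ) 1) : 0 < e3 a r e S6b :=
  pos_of S6b_eq (S6b_fac h) (reg_sq S6b_ok h ha)

theorem S6u_pos (h : Dm r e) (ha : a ∈ Icc (0 : ℝ) 1) : 0 < e3 a r e S6u :=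
  pos_of S6u_eq (S6u_fac h) (reg_sq S6u_ok h ha)

theorem S9_pos (h : Dm r e) (ha : a ∈ Icc (0 : ℝ) 1) : 0 < e3 a r e S9 :=
  pos_of S9_eq (S9_fac h) (reg_sq S9_ok h ha)

theorem S10_pos (h : Dm r e) (ha : a ∈ Icc (0 : ℝ) 1) : 0 < e3 a r e S10 :=
  pos_of S10_eq (S10_fac h) (reg_sq S10_ok h ha)

theorem S11_pos (h : Dm r e) (ha : a ∈ Icc (0 : ℝ) 1) : 0 < e3 a r e S11 :=
  pos_of S11_eq (S11_fac h) (reg_sq S11_ok h ha)

theorem S12a_pos (h : Dm r e) (ha : a ∈ Icc (0 : ℝ) 1) : 0 < e3 a r e S12a :=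
  pos_of S12a_eq (S12a_fac h) (reg_sq S12a_ok h ha)

theorem S12b_pos (h : Dm r e) (ha : a ∈ Icc (0 : ℝ) 1) : 0 < e3 a r e S12b :=
  pos_of S12b_eq (S12b_fac h) (reg_sq S12b_ok h ha)

theorem S13_pos (h : Dm r e) (ha : a ∈ Icc (0 : ℝ) 1) : 0 < e3 a r e S13 :=
  pos_of S13_eq (S13_fac h) (reg_sq S13_ok h ha)

theorem S14_pos (h : Dm r e) (ha : a ∈ Icc (0 : ℝ) 1) : 0 < e3 a r e S14 :=
  pos_of S14_eq (S14_fac h) (reg_sq S14_ok h ha)

theorem T1_pos (h : Dm r e) (he : e ≤ r) (ha : a ∈ Icc (0 : ℝ) 1) : 0 < e3 a r e T1 :=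
  pos_of T1_eq (T1_fac h) (reg_tri T1_ok h he ha)

theorem T2_pos (h : Dm r e) (he : e ≤ r) (ha : a ∈ Icc (0 : ℝ) 1) : 0 < e3 a r e T2 :=
  pos_of T2_eq (T2_fac h) (reg_tri T2_ok h he ha)

theorem T3_pos (h : Dm r e) (he : e ≤ r) (ha : a ∈ Icc (0 : ℝ) 1) : 0 < e3 a r e T3 :=
  pos_of T3_eq (T3_fac h) (reg_tri T3_ok h he ha)

theorem T4_pos (h : Dm r e) (he : e ≤ r) (ha : a ∈ Icc (0 : ℝ) 1) : 0 < e3 a r e T4 :=
  pos_of T4_eq (T4_fac h) (reg_tri T4_ok h he ha)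

theorem T5_pos (h : Dm r e) (he : e ≤ r) (hr : r ≤ 3 / 10) (ha : a ∈ Icc (0 : ℝ) 1) : 0 < e3 a r
    e T5 :=
  pos_of T5_eq (T5_fac h) (reg_T5 T5_ok h he hr ha)

theorem J1_pos (h : Dm r e) (h1 : e ≤ 3 * r) (h2 : r ≤ e) (ha : a ∈ Icc (0 : ℝ) 1) : 0 < e3 a r e
    J1 :=
  pos_of J1_eq (J1_fac h) (reg_J13 J1_ok h h1 h2 ha)

theorem J0_pos (h : Dm r e) (h1 : e ≤ 3 * r) (h2 : r ≤ e) (ha : a ∈ Icc (0 : ℝ) 1) : 0 < e3 a r e
    T2 :=
  pos_of T2_eq (T2_fac h) (reg_J13 J0_ok h h1 h2 ha)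

theorem J2_pos (h : Dm r e) (h2 : r ≤ e) (ha : a ∈ Icc (0 : ℝ) 1) : 0 < e3 a r e J2 :=
  pos_of J2_eq (J2_fac h) (reg_J01 J2_ok h h2 ha)

theorem V0_pos (h : Dm r e) (h2 : 3 * r ≤ e) (ha : a ∈ Icc (0 : ℝ) 1) : 0 < e3 a r e V0 :=
  pos_of V0_eq (V0_fac h) (reg_J03 V0_ok h h2 ha)

theorem V1_pos (h : Dm r e) (h2 : 3 * r ≤ e) (ha : a ∈ Icc (0 : ℝ) 1) : 0 < e3 a r e V1 :=
  pos_of V1_eq (V1_fac h) (reg_J03 V1_ok h h2 ha)

theorem M0_pos (h : Dm r e) (he : e ≤ r) (hr : 3 / 10 ≤ r) (hr' : r ≤ 7 / 10) (ha : a ∈ Icc (0 :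
    ℝ) 1) : 0 < e3 a r e M0 := by
  refine pos_of M0_eq (M0_fac h) ?_
  rcases le_total a (3 / 4) with h1 | h1
  · exact ka_Icc (i := 0) (j := 3) (D := 4) (by norm_num) (by norm_num)
      (fun b hb => reg_M M0_ok0 h he hr hr' hb)
      ⟨by norm_num; exact ha.1, by norm_num; exact h1⟩
  · exact ka_Icc (i := 3) (j := 1) (D := 4) (by norm_num) (by norm_num)
      (fun b hb => reg_M M0_ok1 h he hr hr' hb)
      ⟨by norm_num; exact h1, by norm_num; exact ha.2⟩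

theorem M1_pos (h : Dm r e) (he : e ≤ r) (hr : 3 / 10 ≤ r) (hr' : r ≤ 7 / 10) (ha : a ∈ Icc (0 :
    ℝ) 1) : 0 < e3 a r e M1 := by
  refine pos_of M1_eq (M1_fac h) ?_
  rcases le_total a (3 / 4) with h1 | h1
  · exact ka_Icc (i := 0) (j := 3) (D := 4) (by norm_num) (by norm_num)
      (fun b hb => reg_M M1_ok0 h he hr hr' hb)
      ⟨by norm_num; exact ha.1, by norm_num; exact h1⟩
  · exact ka_Icc (i := 3) (j := 1) (D := 4) (by norm_num) (by norm_num)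
      (fun b hb => reg_M M1_ok1 h he hr hr' hb)
      ⟨by norm_num; exact h1, by norm_num; exact ha.2⟩

theorem N0_pos (h : Dm r e) (he : e ≤ r) (hr : 7 / 10 ≤ r) (ha : a ∈ Icc (0 : ℝ) 1) : 0 < e3 a r
    e N0 :=
  pos_of N0_eq (N0_fac h) (reg_N N0_ok h he hr ha)

theorem N1_pos (h : Dm r e) (he : e ≤ r) (hr : 7 / 10 ≤ r) (ha : a ∈ Icc (0 : ℝ) 1) : 0 < e3 a r
    e N1 :=
  pos_of N1_eq (N1_fac h) (reg_N N1_ok h he hr ha)

theorem O1a_pos (h : Dm r e) (he : e < r) (h2 : 5 * (r - e) ≤ 4 * (1 - e))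
    (ha : a ∈ Icc (0 : ℝ) 1) : 0 < e3 a r e O1a := by
  refine pos_of O1a_eq (O1a_fac h) ?_
  rcases le_total (4 * (r - e)) (3 * (1 - e)) with h1 | h1
  · exact reg_P0 O1a_ok0 h he h1 ha
  rcases le_total a (1 / 2) with h3 | h3
  · exact ka_Icc (i := 0) (j := 1) (D := 2) (by norm_num) (by norm_num)
      (fun b hb => reg_P1 O1a_ok1 h h1 h2 hb) ⟨by norm_num; exact ha.1, by norm_num; linarith⟩
  · exact ka_Icc (i := 1) (j := 1) (D := 2) (by norm_num) (by norm_num)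
      (fun b hb => reg_P1 O1a_ok2 h h1 h2 hb) ⟨by norm_num; linarith, by norm_num; exact ha.2⟩

theorem O1b_pos (h : Dm r e) (he : e < r) (h2 : 5 * (r - e) ≤ 4 * (1 - e))
    (ha : a ∈ Icc (0 : ℝ) 1) : 0 < e3 a r e O1b := by
  refine pos_of O1b_eq (O1b_fac h) ?_
  rcases le_total (4 * (r - e)) (3 * (1 - e)) with h1 | h1
  · exact reg_P0 O1b_ok0 h he h1 ha
  · exact reg_P1 O1b_ok1 h h1 h2 ha

theorem O2_pos (h : Dm r e) (h1 : 4 * (1 - e) ≤ 5 * (r - e)) (ha : a ∈ Icc (0 : ℝ) 1) :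
    0 < e3 a r e O2 := by
  refine pos_of O2_eq (O2_fac h) ?_
  rcases le_total a (1 / 2) with h3 | h3
  · exact ka_Icc (i := 0) (j := 1) (D := 2) (by norm_num) (by norm_num)
      (fun b hb => reg_O2 O2_ok0 h h1 hb) ⟨by norm_num; exact ha.1, by norm_num; linarith⟩
  · exact ka_Icc (i := 1) (j := 1) (D := 2) (by norm_num) (by norm_num)
      (fun b hb => reg_O2 O2_ok1 h h1 hb) ⟨by norm_num; linarith, by norm_num; exact ha.2⟩

end Vale.Agent.P219.D4
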