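import Vale.Agent.P219.D4.Real1

/-! # The certificate in dimension 4: positivity of the kernel -/

open Set

namespace Vale.Agent.P219.D4

open Vale.Agent.P219.C5

variable {r e A B : ℝ}

theorem fN_pos (h : Dm r e) (he : e ≤ 3 * r) : 0 < e2 r e fN := by
  rcases le_total e r with h1 | h1
  · have := T2_pos h h1 h01
    rwa [T2, e3_one] at this
  · have := J0_pos h he h1 h01
    rwa [T2, e3_one] at this

theorem fY_nonneg (h : Dm r e) (he : e ≤ 3 * r) : 0 ≤ fY r e := by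
  have h1 := fN_pos h he
  have h2 := h.v
  have h3 := h.r0
  have h4 := h.e0
  rw [fY, pf1, e2_smul, e2_mul, v_L1]
  push_cast
  positivity

/-! ### Same side -/

theorem pm_left (h : Dm r e) (hA : A ∈ Icc (0 : ℝ) 1) (hB : B ∈ Icc (0 : ℝ) 1)
    (hne : A + B < 2) : 0 < (KK r e).pm A B := KS.left_pos (base h) hA hB hne

theorem pm_right (h : Dm r e) (he : e ≤ r) (hA : 1 ≤ A) (hB : 1 ≤ B) (hne : 2 < A + B)
    (hXA : (1 - r ^ 2) * A ^ 2 ≤ 1 - e ^ 2) (hXB : (1 - r ^ 2) * B ^ 2 ≤ 1 - e ^ 2) :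
    0 < (KK r e).pm A B := by
  have hT := h.T
  have hY := h.Y
  have h1 := T1_pos h he h01
  rw [T1, e3_one] at h1
  simp only [e2_add, e2_smul, e2_mul, v_Y, v_T, v_G] at h1
  push_cast at h1
  refine KS.right_pos (base h) (X := (1 - r ^ 2) / (1 - e ^ 2)) (by positivity) ?_ hA hB hne ?_ ?_
  · simp only [KK]
    have e1 : (1 - r ^ 2) / (1 - e ^ 2) * (3 * e2 r e k1 + e2 r e kc) +
        (e2 r e kccp + e2 r e kpp) - k2 r e * (1 - (1 - r ^ 2) / (1 - e ^ 2)) =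
        ((1 - r ^ 2) * (3 * e2 r e k1 + e2 r e kc) + (1 - e ^ 2) * (e2 r e kccp + e2 r e kpp) -
          k2 r e * (r ^ 2 - e ^ 2)) / (1 - e ^ 2) := by
      field_simp
      ring
    rw [e1]
    refine div_pos ?_ hT
    unfold k2
    linarith
  · rw [div_mul_eq_mul_div, div_le_one hT]; exact hXA
  · rw [div_mul_eq_mul_div, div_le_one hT]; exact hXB

/-! ### Opposite sides -/

/-- `E`. -/
noncomputable def EE (r e : ℝ) : ℝ := k2 r e / 2
/-- `F`. -/
noncomputable def FF (r e : ℝ) : ℝ := fY r e * (1 - r ^ 2) / (4 * r ^ 2)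

theorem EE_nonneg (h : Dm r e) : 0 ≤ EE r e := by
  have := k2_nonneg h
  unfold EE; positivity

theorem FF_nonneg (h : Dm r e) (he : e ≤ 3 * r) : 0 ≤ FF r e := by
  have := fY_nonneg h he
  have := h.Y
  have := h.r0
  unfold FF; positivity

theorem v_nil (r e : ℝ) : e2 r e [] = 0 := rfl
theorem v_u3 (a r e : ℝ) : e3 a r e pu3 = a := by
  simp only [e3, pu3, ev_cons, ev_nil, v_1, v_nil]; ring
theorem v_w3 (a r e : ℝ) : e3 a r e pw3 = 1 - a := by
  simp only [e3, pw3, ev_cons, ev_nil, e2_smul, v_1]; push_cast; ring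
theorem v_i3 (a r e : ℝ) : e3 a r e pi3 = 1 + a := by
  simp only [e3, pi3, ev_cons, ev_nil, v_1]; ring

/-- The values of `kcp`, `kp`. -/
theorem r_tan1 (r e : ℝ) : e2 r e kcp = e2 r e kc + 2 * e2 r e k1 -
    2 * (e2 r e kccp + e2 r e kpp) := by
  have := e2_eqv tan1 r e
  simp only [e2_add, e2_smul] at this
  push_cast at this
  linarith
theorem r_tan2 (r e : ℝ) : e2 r e kp = e2 r e kccp + e2 r e kpp - 3 * e2 r e k1 -
    2 * e2 r e kc - e2 r e kcc := by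
  have := e2_eqv tan2 r e
  simp only [e2_add, e2_smul] at this
  push_cast at this
  linarith

/-- `E` times `4 ρ²`. -/
theorem v_EE (_ : Dm r e) : e2 r e pEE = 4 * r ^ 2 * EE r e := by
  rw [pEE, EE, k2_eq]
  simp only [e2_mul, e2_smul, v_r2, v_L, v_Y]
  push_cast
  ring

theorem v_FF (h : Dm r e) : e2 r e pBB = 4 * r ^ 2 * FF r e := by
  have := h.r0
  rw [pBB, FF, fY, pf1]
  simp only [e2_mul, e2_smul, v_v, v_Y, v_L1]
  push_cast
  field_simp

theorem O1a_eq' (h : Dm r e) (u g : ℝ) (hg : 2 * (1 - r ^ 2) * g = r ^ 2 - e ^ 2) :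
    4 * r ^ 2 * (2 * (1 - r ^ 2)) ^ 4 * (KK r e).hh (EE r e) (FF r e) (g * u) g =
      g ^ 2 * e3 u r e O1a := by
  simp only [O1a, e3_mul3, e3_add3, e3_one, v_u3, v_w3, pc20, pc30, pc01, pc11, pc02, py, e2_add,
    e2_smul, e2_mul, v_Y, v_G, v_r2, v_1, v_EE h, v_FF h, KS.hh, KS.pm, KS.g, KK, r_tan1, r_tan2]
  rw [← hg]
  push_cast
  ring

theorem O1b_eq' (h : Dm r e) (v g : ℝ) (hg : 2 * (1 - r ^ 2) * g = r ^ 2 - e ^ 2) :
    4 * r ^ 2 * (2 * (1 - r ^ 2)) ^ 6 * (KK r e).hh (EE r e) (FF r e) (g + (1 - g) * v) g =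
      e3 v r e O1b := by
  simp only [O1b, e3_mul3, e3_add3, e3_one, v_u3, v_w3, pc20, pc30, pc01, pc11, pc02, py, ph,
    e2_add, e2_smul, e2_mul, v_Y, v_G, v_r2, v_1, v_EE h, v_FF h, KS.hh, KS.pm, KS.g, KK, r_tan1,
    r_tan2]
  rw [← hg]
  push_cast
  ring

theorem hh_zero (h : Dm r e) : 0 ≤ 1 - r ^ 2 := h.Y.le

/-- The far edge in region I. -/
theorem far_I (h : Dm r e) (he : e < r) (h2 : 5 * (r - e) ≤ 4 * (1 - e)) {g : ℝ}
    (hg : 2 * (1 - r ^ 2) * g = r ^ 2 - e ^ 2) {α : ℝ} (hα : α ∈ Icc (0 : ℝ) 1) :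
    0 < (KK r e).hh (EE r e) (FF r e) α g := by
  have hY := h.Y
  have hr := h.r0
  have hg0 : 0 < g := by
    have : 0 < 2 * (1 - r ^ 2) * g := by rw [hg]; nlinarith [h.e0]
    exact pos_of_mul_pos_right this (by linarith)
  rcases le_total α g with h1 | h1
  · have hu : α / g ∈ Icc (0 : ℝ) 1 := div_Icc hα.1 hg0 h1
    have h3 := O1a_eq' h (α / g) g hg
    rw [mul_div_cancel₀ α hg0.ne'] at h3
    have h4 := mul_pos (pow_pos hg0 2) (O1a_pos h he h2 hu)
    rw [← h3] at h4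
    exact pos_of_mul_pos_right h4 (by positivity)
  · rcases h1.eq_or_lt with h5 | h5
    · have h3 := O1a_eq' h 1 g hg
      rw [mul_one] at h3
      have h4 := mul_pos (pow_pos hg0 2) (O1a_pos h he h2 ⟨zero_le_one, le_rfl⟩)
      rw [← h3] at h4
      rw [← h5]
      exact pos_of_mul_pos_right h4 (by positivity)
    · have hg1 : 0 < 1 - g := by linarith [hα.2]
      have hv : (α - g) / (1 - g) ∈ Icc (0 : ℝ) 1 :=
        div_Icc (by linarith) hg1 (by linarith [hα.2])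
      have h3 := O1b_eq' h ((α - g) / (1 - g)) g hg
      rw [mul_div_cancel₀ _ hg1.ne', add_sub_cancel] at h3
      have h4 := O1b_pos h he h2 hv
      rw [← h3] at h4
      exact pos_of_mul_pos_right h4 (by positivity)

/-- The edge `A = 0` in region I. -/
theorem edge_I (h : Dm r e) (he : e < r) (h2 : 5 * (r - e) ≤ 4 * (1 - e)) {g : ℝ}
    (hg : 2 * (1 - r ^ 2) * g = r ^ 2 - e ^ 2) {β : ℝ} (hβ : β ∈ Icc (0 : ℝ) g) :
    0 < (KK r e).pm 0 (1 + β) := by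
  have hY := h.Y
  have hg0 : 0 < g := by
    have : 0 < 2 * (1 - r ^ 2) * g := by rw [hg]; nlinarith [h.e0]
    exact pos_of_mul_pos_right this (by linarith)
  have h3 := O1b_eq' h 1 g hg
  rw [mul_one, add_sub_cancel, KS.hh_one] at h3
  have h4 := O1b_pos h he h2 ⟨zero_le_one, le_rfl⟩
  rw [← h3] at h4
  have hr := h.r0
  have h5 : 0 < (KK r e).pm 0 (1 + g) := pos_of_mul_pos_right h4 (by positivity)
  have h6 := (base h).hr
  have h7 := S14_pos h h01
  rw [S14, e3_one] at h7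
  simp only [e2_add, e2_smul, e2_mul, v_Y, v_G] at h7
  push_cast at h7
  rw [← hg] at h7
  have h8 : 0 < 4 * (4 * e2 r e k1 + 2 * e2 r e kc + e2 r e kcc) +
      4 * (e2 r e kc + e2 r e kcc) * g := by
    have : 0 < (1 - r ^ 2) / 2 * (4 * (4 * e2 r e k1 + 2 * e2 r e kc + e2 r e kcc) +
      4 * (e2 r e kc + e2 r e kcc) * g) := by linarith
    exact pos_of_mul_pos_right this (by linarith)
  have e1 : g ^ 2 * (KK r e).pm 0 (1 + β) =
      (g - β) ^ 2 * ((4 * e2 r e k1 + 2 * e2 r e kc + e2 r e kcc) / 4) +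
      2 * (β * (g - β)) * ((4 * (4 * e2 r e k1 + 2 * e2 r e kc + e2 r e kcc) +
      4 * (e2 r e kc + e2 r e kcc) * g) / 16) + β ^ 2 * (KK r e).pm 0 (1 + g) := by
    simp only [KS.pm, KS.g, KK]
    ring
  have h9 : 0 < g ^ 2 * (KK r e).pm 0 (1 + β) := by
    rw [e1]
    simp only [KK] at h6
    have t1 : 0 ≤ 2 * (β * (g - β)) * ((4 * (4 * e2 r e k1 + 2 * e2 r e kc + e2 r e kcc) +
      4 * (e2 r e kc + e2 r e kcc) * g) / 16) :=
      mul_nonneg (mul_nonneg zero_le_two (mul_nonneg hβ.1 (by linarith [hβ.2]))) (by linarith)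
    rcases hβ.1.eq_or_lt with h0 | h0
    · rw [← h0]
      rw [← h0] at t1
      have : 0 < (g - 0) ^ 2 * ((4 * e2 r e k1 + 2 * e2 r e kc + e2 r e kcc) / 4) := by
        rw [sub_zero]
        exact mul_pos (by positivity) (by linarith)
      linarith
    · have t2 : 0 ≤ (g - β) ^ 2 * ((4 * e2 r e k1 + 2 * e2 r e kc + e2 r e kcc) / 4) :=
        mul_nonneg (sq_nonneg _) (by linarith)
      have t3 := mul_pos (pow_pos h0 2) h5
      linarith
  exact pos_of_mul_pos_right h9 (by positivity)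

/-- `kc ≤ 0`. -/
theorem kc_nonpos (h : Dm r e) : e2 r e kc ≤ 0 := by
  have h1 := e2_eqv kc_eq r e
  simp only [e2_smul, e2_mul, v_Y] at h1
  push_cast at h1
  rw [h1, r_MW]
  have := h.Y
  have := h.L
  have := uN_pos h
  have := bN_pos h
  have : 0 ≤ (1 - r ^ 2) * (3 * ((r + e) * (3 * r + 2 * e) *
    (2 * ((r + e) * (3 * r + 2 * e) * e2 r e uN) + e2 r e bN))) := by positivity
  linarith

/-- `pm 0 B`, `B ≤ 1/x`. -/
theorem edge_II (h : Dm r e) (hB : 1 ≤ B) (hXB : (1 - r ^ 2) * B ^ 2 ≤ 1 - e ^ 2) :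
    0 < (KK r e).pm 0 B := by
  have h1 := S9_pos h h01
  rw [S9, e3_one] at h1
  simp only [e2_add, e2_smul, e2_mul, v_Y, v_T] at h1
  push_cast at h1
  have h2 := kc_nonpos h
  have hT := h.T
  have hY := h.Y
  have h3 : 0 < 4 * e2 r e k1 + e2 r e kc := by
    have := KS.k1_pos (base h)
    have := (base h).h1
    simp only [KK] at *
    linarith
  have e1 : 4 * (1 - e ^ 2) * (KK r e).pm 0 B =
      (4 * e2 r e k1 + e2 r e kc) * (1 - e ^ 2 - (1 - r ^ 2) * B ^ 2) +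
      (1 - e ^ 2) * (-e2 r e kc) * (1 - B) ^ 2 +
      B ^ 2 * ((1 - r ^ 2) * (4 * e2 r e k1 + e2 r e kc) +
        (1 - e ^ 2) * (e2 r e kc + e2 r e kcc)) := by
    simp only [KS.pm, KS.g, KK]
    ring
  have h4 : 0 < 4 * (1 - e ^ 2) * (KK r e).pm 0 B := by
    rw [e1]
    have t1 := mul_nonneg h3.le (sub_nonneg.2 hXB)
    have t2 : 0 ≤ (1 - e ^ 2) * (-e2 r e kc) * (1 - B) ^ 2 :=
      mul_nonneg (mul_nonneg hT.le (by linarith)) (sq_nonneg _)
    have t3 : 0 < B ^ 2 * ((1 - r ^ 2) * (4 * e2 r e k1 + e2 r e kc) +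
        (1 - e ^ 2) * (e2 r e kc + e2 r e kcc)) :=
      mul_pos (by positivity) (by linarith)
    linarith
  exact pos_of_mul_pos_right h4 (by linarith)

/-- The far edge in region II. -/
theorem far_II (h : Dm r e) (h2 : 4 * (1 - e) ≤ 5 * (r - e)) {x : ℝ} (hx : 0 < x)
    (hx1 : x ≤ 1) (hxr : (1 - e ^ 2) * x ^ 2 = 1 - r ^ 2) (hA : A ∈ Icc (0 : ℝ) 1) :
    0 < (KK r e).pm A (1 / x) := by
  have h1 := O2_pos h h2 hA
  have h3 := S10_pos h hA
  have hT := h.T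
  have hY := h.Y
  simp only [O2, e3_mul3, e3_add3, e3_one] at h1
  simp only [S10, e3, ev_cons, ev_nil, e2_add, e2_smul, v_Y, v_T] at h1 h3
  push_cast at h1 h3
  obtain ⟨e1, he1⟩ : ∃ e1, e1 = e2 r e kc / 2 + (e2 r e kcc / 2 + e2 r e kp) * A +
    e2 r e kcp / 2 * A ^ 2 + e2 r e kccp / 4 * A ^ 3 := ⟨_, rfl⟩
  have he1' : e1 ≤ 0 := by rw [he1]; linarith
  have key : x ^ 2 * (1 - e ^ 2) * (KK r e).pm A (1 / x) =
      (e2 r e k1 + e2 r e kc / 2 * A + e2 r e kcc / 4 * A ^ 2) * (1 - r ^ 2) +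
      e1 * (x * (1 - e ^ 2)) +
      (e2 r e kcc / 4 + (e2 r e kcp / 2) * A + (e2 r e kccp / 2 + e2 r e kpp) * A ^ 2) *
        (1 - e ^ 2) + e2 r e kccp / 4 * A * ((1 - e ^ 2) / x) := by
    rw [he1, ← hxr]
    simp only [KS.pm, KS.g, KK]
    field_simp
    ring
  have hxb : x * (1 - e ^ 2) ≤ (25 * (1 - r ^ 2) + 9 * (1 - e ^ 2)) / 30 := by
    rw [← hxr]
    nlinarith [mul_nonneg hT.le (sq_nonneg (5 * x - 3))]
  have t1 : e1 * ((25 * (1 - r ^ 2) + 9 * (1 - e ^ 2)) / 30) ≤ e1 * (x * (1 - e ^ 2)) :=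
    mul_le_mul_of_nonpos_left hxb he1'
  have hkccp : 0 ≤ e2 r e kccp := (base h).hccp
  have t2 : e2 r e kccp / 4 * A * (1 - e ^ 2) ≤ e2 r e kccp / 4 * A * ((1 - e ^ 2) / x) := by
    refine mul_le_mul_of_nonneg_left ?_ (mul_nonneg (by linarith) hA.1)
    rw [le_div_iff₀ hx]
    nlinarith
  have h4 : 0 < x ^ 2 * (1 - e ^ 2) * (KK r e).pm A (1 / x) := by
    rw [key]
    refine lt_of_lt_of_le ?_ (add_le_add (add_le_add (add_le_add le_rfl t1) le_rfl) t2)
    rw [he1]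
    linarith
  exact pos_of_mul_pos_right h4 (by positivity)

/-- Opposite sides. -/
theorem hh_pos (h : Dm r e) (he : e < r) {x : ℝ} (hx : 0 < x)
    (hxr : (1 - e ^ 2) * x ^ 2 = 1 - r ^ 2) (hA : A ∈ Icc (0 : ℝ) 1) (hB : 1 ≤ B)
    (hXB : (1 - r ^ 2) * B ^ 2 ≤ 1 - e ^ 2) (hne : A < 1 ∨ 1 < B) :
    0 < (KK r e).hh (EE r e) (FF r e) (1 - A) (B - 1) := by
  have hT := h.T
  have hY := h.Y
  have hr := h.r0
  have hE := EE_nonneg h
  have hF := FF_nonneg h (by linarith : e ≤ 3 * r)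
  have hE2 : (KK r e).kpp ≤ 2 * EE r e := by
    have := (base h).hpp
    unfold EE
    linarith
  have hx1 : x ≤ 1 := by
    have : (1 - e ^ 2) * x ^ 2 ≤ (1 - e ^ 2) * 1 := by rw [hxr]; nlinarith [h.e0]
    have := le_of_mul_le_mul_left this hT
    nlinarith
  have hα : 1 - A ∈ Icc (0 : ℝ) 1 := ⟨by linarith [hA.2], by linarith [hA.1]⟩
  have hne' : 0 < 1 - A ∨ 0 < B - 1 := by
    rcases hne with h1 | h1
    · left; linarith
    · right; linarith
  rcases le_total (5 * (r - e)) (4 * (1 - e)) with h2 | h2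
  · obtain ⟨g, hg⟩ : ∃ g, g = (r ^ 2 - e ^ 2) / (2 * (1 - r ^ 2)) := ⟨_, rfl⟩
    have hg' : 2 * (1 - r ^ 2) * g = r ^ 2 - e ^ 2 := by rw [hg]; field_simp
    refine KS.opp_pos (base h) hE hF hE2 (m := g) (fun α hα => far_I h he h2 hg' hα)
      (fun β hβ => edge_I h he h2 hg' hβ) hα ⟨by linarith, ?_⟩ hne'
    have h3 : 2 * (1 - r ^ 2) * (B - 1) ≤ 2 * (1 - r ^ 2) * g := by
      rw [hg']
      nlinarith [mul_nonneg hY.le (sq_nonneg (B - 1))]
    exact le_of_mul_le_mul_left h3 (by linarith)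
  · have hBx : B ≤ 1 / x := by
      rw [le_div_iff₀ hx]
      have : (1 - e ^ 2) * (B * x) ^ 2 ≤ (1 - e ^ 2) * 1 := by
        have : (1 - e ^ 2) * (B * x) ^ 2 = (1 - r ^ 2) * B ^ 2 := by rw [← hxr]; ring
        linarith
      have := le_of_mul_le_mul_left this hT
      nlinarith [mul_pos (by linarith : 0 < B) hx]
    refine KS.opp_pos (base h) hE hF hE2 (m := 1 / x - 1) (fun α hα' => ?_) (fun β hβ => ?_) hα
      ⟨by linarith, by linarith⟩ hne'
    · have h3 := far_II h h2 hx hx1 hxr (A := 1 - α) ⟨by linarith [hα'.2], by linarith [hα'.1]⟩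
      have h4 : 1 ≤ 1 / x := by rw [le_div_iff₀ hx]; linarith
      rw [KS.hh, add_sub_cancel]
      have h5 : 0 ≤ α * (1 / x - 1) * ((1 - α) * (1 / x)) *
          ((2 - α) * (2 + (1 / x - 1)) * EE r e + (2 - α) * FF r e) := by
        have a0 := hα'.1
        have a1 := hα'.2
        refine mul_nonneg (mul_nonneg (mul_nonneg a0 (by linarith))
          (mul_nonneg (by linarith) (by linarith))) (add_nonneg (mul_nonneg (mul_nonneg
            (by linarith) (by linarith)) hE) (mul_nonneg (by linarith) hF))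
      linarith
    · refine edge_II h (by linarith [hβ.1]) ?_
      have h3 : 1 + β ≤ 1 / x := by linarith [hβ.2]
      have h4 : (1 + β) * x ≤ 1 := by rwa [le_div_iff₀ hx] at h3
      rw [← hxr]
      have h5 : 0 ≤ (1 + β) * x := mul_nonneg (by linarith [hβ.1]) hx.le
      have : (1 - e ^ 2) * ((1 + β) * x) ^ 2 ≤ (1 - e ^ 2) * 1 :=
        mul_le_mul_of_nonneg_left (by nlinarith) hT.le
      linarith

end Vale.Agent.P219.D4
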