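import Vale.Agent.P219.D4.Real2

/-! # The certificate in dimension 4: (C7), (C1), the far region -/

open Set

namespace Vale.Agent.P219.D4

open Vale.Agent.P219.C5

variable {r e A B a b x S : ℝ}

/-! ### The derivative of the profile -/

theorem reg_tri' {M L k : ℕ} {Q : List P2} (hok : okT M L 0 0 k 0 Q = true) (he0 : 0 < e)
    (he : e ≤ r) (hr : r ≤ 1) : 0 < e3 0 r e Q := by
  have hr0 : 0 < r := he0.trans_le he
  have h1 := okT_pos hok h01 ⟨hr0.le, hr⟩ (div_Icc he0.le hr0 he)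
    (by have := pow_pos hr0 k; simpa using this)
  rwa [div_mul_cancel₀ _ hr0.ne'] at h1

theorem fN_pos' (he0 : 0 < e) (he : e ≤ r) (hr : r ≤ 1) : 0 < e2 r e fN := by
  have h := pos_of T2_eq (by rw [v_1]; exact zero_lt_one) (reg_tri' T2_ok he0 he hr)
  rwa [T2, e3_one] at h

theorem opD4_neg (he0 : 0 < e) (he : e ≤ r) (hr : r ≤ 1) : e2 r e (opD fN 4 2 5 1) < 0 := by
  have h := pos_of T3_eq (by rw [v_1]; exact zero_lt_one) (reg_tri' T3_ok he0 he hr)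
  rw [T3, e3_one, e2_smul] at h
  push_cast at h
  linarith

theorem opD6_neg (he0 : 0 < e) (he1 : e < 1) (he : e ≤ 3 * r) (hr : r ≤ 1) :
    e2 r e (opD fN 6 2 5 1) < 0 := by
  rcases le_total r e with h1 | h1
  · have hD : Dm r e := ⟨by linarith, h1.trans_lt he1, he0, he1⟩
    have h := J1_pos hD he h1 h01
    rw [J1, e3_one, e2_smul] at h
    push_cast at h
    linarith
  · have h2 := opD4_neg he0 h1 hr
    have h3 := fN_pos' he0 h1 hr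
    rw [v_opD] at h2 ⊢
    push_cast at h2 ⊢
    have hr0 : 0 < r := he0.trans_le h1
    have h4 : 0 < e2 r e fN * ((r + e) * (3 * r + 2 * e) * (1 + r)) := by positivity
    linarith

/-! ### The kernel in the variables `a`, `b` -/

/-- `Y` times the kernel, with bonus `p D`. -/
noncomputable def QQ (r e p s w S D : ℝ) : ℝ :=
  e2 r e pR * (1 - r ^ 2) ^ 2 + (1 - e ^ 2) * (1 - r ^ 2) * e2 r e pV * (1 - s / 2) +
    (1 - e ^ 2) ^ 2 * e2 r e cN * (s / 2 - p ^ 2) +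
    (1 - e ^ 2) * (1 - r ^ 2) * (2 - r ^ 2) * e2 r e pMW * s / 2 -
    (1 - e ^ 2) ^ 2 * (2 - r ^ 2) * e2 r e pMB * p ^ 2 / 2 -
    w * ((1 - r ^ 2) * e2 r e pMW - (1 - e ^ 2) * e2 r e pMB * p / 2) -
    (1 - e ^ 2) ^ 2 * e2 r e pB * p * S + p * D

theorem YKD_eq (hx : 0 < x) (hxr : (1 - e ^ 2) * x ^ 2 = 1 - r ^ 2) (a b S D : ℝ) :
    (1 - r ^ 2) * KD r e (a / x) (b / x) S + a * b * D =
      QQ r e (a * b) (a ^ 2 + b ^ 2) ((1 - e ^ 2) * (x * (a + b))) S D := by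
  unfold KD QQ
  have h1 : 2 - r ^ 2 = 1 + (1 - e ^ 2) * x ^ 2 := by rw [hxr]; ring
  rw [h1, ← hxr]
  field_simp
  ring

theorem MW_pos (h : Dm r e) : 0 < e2 r e pMW := by
  rw [r_MW]
  have := h.L
  have := uN_pos h
  have := bN_pos h
  positivity

/-- The coefficient of `w`. -/
theorem sig_coef (h : Dm r e) {p : ℝ} (hp : p ≤ 1) :
    0 ≤ (1 - r ^ 2) * e2 r e pMW - (1 - e ^ 2) * e2 r e pMB * p / 2 := by
  have h1 := u1_pos h
  have h2 := h.L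
  have h3 := bN_pos h
  have h4 := h.T
  rw [r_MW, r_MB]
  have h5 := mul_pos h2 h1
  have h6 : (1 - e ^ 2) * ((r + e) * (3 * r + 2 * e) * e2 r e bN) * p ≤
      (1 - e ^ 2) * ((r + e) * (3 * r + 2 * e) * e2 r e bN) * 1 :=
    mul_le_mul_of_nonneg_left hp (by positivity)
  linarith

/-- Interpolation between `s = 2p` and `s = 1 + p²`. -/
theorem QQ_pos (h : Dm r e) {p s σ S D τ σ0 σ1 S0 S1 D0 D1 : ℝ} (hp0 : 0 ≤ p) (hp : p ≤ 1)
    (hτ : τ ∈ Icc (0 : ℝ) 1) (hs : s = 2 * p + (1 - p) ^ 2 * τ)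
    (hσ : σ ≤ (1 - τ) * σ0 + τ * σ1) (hS : S ≤ (1 - τ) * S0 + τ * S1)
    (hD : (1 - τ) * D0 + τ * D1 ≤ D) (h0 : 0 < QQ r e p (2 * p) σ0 S0 D0)
    (h1 : 0 < QQ r e p (1 + p ^ 2) σ1 S1 D1) : 0 < QQ r e p s σ S D := by
  have e1 := mul_nonneg (sub_nonneg.2 hσ) (sig_coef h hp)
  have e2' : 0 ≤ ((1 - τ) * S0 + τ * S1 - S) * ((1 - e ^ 2) ^ 2 * e2 r e pB * p) := by
    have := B_pos h
    have := h.T
    exact mul_nonneg (sub_nonneg.2 hS) (by positivity)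
  have e3' := mul_nonneg (sub_nonneg.2 hD) hp0
  have e4 : 0 < (1 - τ) * QQ r e p (2 * p) σ0 S0 D0 + τ * QQ r e p (1 + p ^ 2) σ1 S1 D1 := by
    rcases hτ.1.eq_or_lt with h2 | h2
    · rw [← h2]; linarith
    · have := mul_pos h2 h1
      have := mul_nonneg (sub_nonneg.2 hτ.2) h0.le
      linarith
  have e5 : QQ r e p s σ S D = (1 - τ) * QQ r e p (2 * p) σ0 S0 D0 +
      τ * QQ r e p (1 + p ^ 2) σ1 S1 D1 + ((1 - τ) * σ0 + τ * σ1 - σ) *
      ((1 - r ^ 2) * e2 r e pMW - (1 - e ^ 2) * e2 r e pMB * p / 2) +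
      ((1 - τ) * S0 + τ * S1 - S) * ((1 - e ^ 2) ^ 2 * e2 r e pB * p) +
      (D - ((1 - τ) * D0 + τ * D1)) * p := by
    rw [hs]; unfold QQ; ring
  rw [e5]
  linarith

/-- The parameter. -/
theorem exists_tau (ha : a ∈ Icc (0 : ℝ) 1) (hb : b ∈ Icc (0 : ℝ) 1) :
    ∃ τ ∈ Icc (0 : ℝ) 1, a ^ 2 + b ^ 2 = 2 * (a * b) + (1 - a * b) ^ 2 * τ := by
  obtain ⟨ha0, ha1⟩ := ha
  obtain ⟨hb0, hb1⟩ := hb
  have hab : a * b ≤ 1 := by nlinarith
  rcases hab.eq_or_lt with h | h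
  · refine ⟨0, ⟨le_rfl, zero_le_one⟩, ?_⟩
    have : a = 1 := by nlinarith
    subst this
    have : b = 1 := by linarith
    subst this
    norm_num
  · have h1 : 0 < (1 - a * b) ^ 2 := by
      have : 0 < 1 - a * b := by linarith
      positivity
    refine ⟨(a - b) ^ 2 / (1 - a * b) ^ 2, div_Icc (sq_nonneg _) h1 ?_, ?_⟩
    · have h2 : 0 ≤ (1 - a ^ 2) * (1 - b ^ 2) :=
        mul_nonneg (by nlinarith) (by nlinarith)
      nlinarith
    · field_simp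
      ring

/-! ### The far region -/

theorem V_pos (h : Dm r e) (he : 3 * r ≤ e) (hx : 0 < x)
    (hxr : (1 - e ^ 2) * x ^ 2 = 1 - r ^ 2) (ha : a ∈ Icc (0 : ℝ) 1) (hb : b ∈ Icc (0 : ℝ) 1)
    (hS : S ≤ 1 - (a ^ 2 + b ^ 2) / 2) :
    (1 - e ^ 2) * (a * b) * (DK r e * (2 * sE e / r ^ 2)) < KD r e (a / x) (b / x) S := by
  obtain ⟨τ, hτ, hs⟩ := exists_tau ha hb
  have hp0 : 0 ≤ a * b := mul_nonneg ha.1 hb.1
  have hp1 : a * b ≤ 1 := by nlinarith [ha.1, ha.2, hb.1, hb.2]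
  have hT := h.T
  have hY := h.Y
  have hr0 := h.r0
  have hZ : DK r e * (2 * sE e / r ^ 2) = e2 r e pZ := by
    rw [pZ]
    simp only [e2_smul, e2_mul, v_s, v_r2, v_L, v_L2]
    unfold DK sE
    push_cast
    field_simp
    ring
  have hσ : (1 - e ^ 2) * (x * (a + b)) ≤ (1 - τ) * (((1 - e ^ 2) + (1 - r ^ 2)) *
      (1 + a * b) / 2) + τ * (((1 - e ^ 2) + (1 - r ^ 2)) * (1 + a * b) / 2) := by
    have h1 : a + b ≤ 1 + a * b := by nlinarith [ha.2, hb.2]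
    have h2 : x ≤ (1 + x ^ 2) / 2 := by nlinarith [sq_nonneg (x - 1)]
    have h3 : x * (a + b) ≤ (1 + x ^ 2) / 2 * (1 + a * b) :=
      mul_le_mul h2 h1 (by linarith [ha.1, hb.1]) (by positivity)
    have h4 := mul_le_mul_of_nonneg_left h3 hT.le
    rw [← hxr]
    linarith
  have hS' : S ≤ (1 - τ) * (1 - a * b) + τ * ((1 - (a * b) ^ 2) / 2) := by
    rw [hs] at hS
    linarith
  have k0 := V0_pos h he (a := a * b) ⟨hp0, hp1⟩
  have k1' := V1_pos h he (a := a * b) ⟨hp0, hp1⟩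
  simp only [V0, V1, e3, ev_cons, ev_nil, e2_add, e2_smul, e2_mul, v_Y, v_T, v_C] at k0 k1'
  push_cast at k0 k1'
  have h0 : 0 < QQ r e (a * b) (2 * (a * b)) (((1 - e ^ 2) + (1 - r ^ 2)) * (1 + a * b) / 2)
      (1 - a * b) (-((1 - e ^ 2) * (1 - r ^ 2) * e2 r e pZ)) := by
    unfold QQ; linarith
  have h1 : 0 < QQ r e (a * b) (1 + (a * b) ^ 2)
      (((1 - e ^ 2) + (1 - r ^ 2)) * (1 + a * b) / 2)
      ((1 - (a * b) ^ 2) / 2) (-((1 - e ^ 2) * (1 - r ^ 2) * e2 r e pZ)) := by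
    unfold QQ; linarith
  have h2 := QQ_pos h hp0 hp1 hτ hs hσ hS'
    (D := -((1 - e ^ 2) * (1 - r ^ 2) * e2 r e pZ)) (by linarith) h0 h1
  rw [← YKD_eq hx hxr] at h2
  rw [hZ]
  have h3 : (1 - r ^ 2) * ((1 - e ^ 2) * (a * b) * e2 r e pZ) <
      (1 - r ^ 2) * KD r e (a / x) (b / x) S := by linarith
  exact lt_of_mul_lt_mul_left h3 hY.le

end Vale.Agent.P219.D4
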