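import Vale.Agent.P219.D4.Real3

/-! # The certificate in dimension 4: (C7) and (C1) -/

open Set

namespace Vale.Agent.P219.D4

open Vale.Agent.P219.C5

variable {r e A B a b x S : ℝ}

/-! ### The middle range -/

theorem Y_Uh (hx : 0 < x) (hxr : (1 - e ^ 2) * x ^ 2 = 1 - r ^ 2) (a : ℝ) :
    (1 - r ^ 2) * Uh r e (a / x) = (1 - r ^ 2) * e2 r e pW -
      a ^ 2 * ((1 - e ^ 2) * e2 r e pB / 2) := by
  rw [r_B, pW]
  simp only [e2_mul, e2_add, e2_smul, v_r2, v_L]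
  unfold Uh
  rw [← hxr]
  push_cast
  field_simp

theorem sqrt_conc {w β p τ u v : ℝ} (hβ : 0 ≤ β) (hw : β ≤ w) (hp0 : 0 ≤ p) (hp1 : p ≤ 1)
    (hτ : τ ∈ Icc (0 : ℝ) 1) (huv : u * v = p)
    (hs : u ^ 2 + v ^ 2 = 2 * p + (1 - p) ^ 2 * τ) :
    (1 - τ) * (w - p * β) + τ * (w - β) ≤ √((w - u ^ 2 * β) * (w - v ^ 2 * β)) := by
  refine Real.le_sqrt_of_sq_le ?_
  have e1 : (w - u ^ 2 * β) * (w - v ^ 2 * β) - ((1 - τ) * (w - p * β) + τ * (w - β)) ^ 2 =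
      τ * (1 - p) * β * ((w - β) * (1 + p) + β * ((1 - p) * (1 - τ))) := by
    have : (w - u ^ 2 * β) * (w - v ^ 2 * β) = w ^ 2 - (u ^ 2 + v ^ 2) * (β * w) +
        (u * v) ^ 2 * β ^ 2 := by ring
    rw [this, hs, huv]
    ring
  have e2 : 0 ≤ τ * (1 - p) * β * ((w - β) * (1 + p) + β * ((1 - p) * (1 - τ))) :=
    mul_nonneg (mul_nonneg (mul_nonneg hτ.1 (by linarith)) hβ)
      (add_nonneg (mul_nonneg (by linarith) (by linarith))
        (mul_nonneg hβ (mul_nonneg (by linarith) (by linarith [hτ.2]))))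
  linarith

theorem S_tau {p τ : ℝ} (hp1 : p ≤ 1) (hτ : τ ∈ Icc (0 : ℝ) 1) (huv : a * b = p)
    (hs : a ^ 2 + b ^ 2 = 2 * p + (1 - p) ^ 2 * τ) (hS : S ^ 2 = (1 - a ^ 2) * (1 - b ^ 2)) :
    S ≤ (1 - τ) * (1 - p) + τ * ((1 - p) / 2) := by
  have h1 : S ^ 2 = (1 - p) ^ 2 * (1 - τ) := by
    have : S ^ 2 = 1 - (a ^ 2 + b ^ 2) + (a * b) ^ 2 := by rw [hS]; ring
    rw [this, hs, huv]; ring
  have h2 : 0 ≤ (1 - τ) * (1 - p) + τ * ((1 - p) / 2) :=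
    add_nonneg (mul_nonneg (by linarith [hτ.2]) (by linarith))
      (mul_nonneg hτ.1 (by linarith))
  refine le_of_sq_le_sq' ?_ h2
  have h3 : ((1 - τ) * (1 - p) + τ * ((1 - p) / 2)) ^ 2 - S ^ 2 =
      (1 - p) ^ 2 * (τ ^ 2 / 4) := by rw [h1]; ring
  have h4 : 0 ≤ (1 - p) ^ 2 * (τ ^ 2 / 4) := by positivity
  linarith
where
  le_of_sq_le_sq' {x y : ℝ} (h : x ^ 2 ≤ y ^ 2) (hy : 0 ≤ y) : x ≤ y :=
    abs_le_of_sq_le_sq' h hy |>.2

theorem mid_pos (h : Dm r e) (he : e ≤ r) (hr : 3 / 10 ≤ r) (hx : 0 < x)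
    (hxr : (1 - e ^ 2) * x ^ 2 = 1 - r ^ 2) (ha : a ∈ Icc (0 : ℝ) 1) (hb : b ∈ Icc (0 : ℝ) 1)
    (hS : S ^ 2 = (1 - a ^ 2) * (1 - b ^ 2)) :
    0 < KD r e (a / x) (b / x) S +
      (1 - r ^ 2) * (a * b) * √(Uh r e (a / x) * Uh r e (b / x)) := by
  obtain ⟨τ, hτ, hs⟩ := exists_tau ha hb
  have hp0 : 0 ≤ a * b := mul_nonneg ha.1 hb.1
  have hp1 : a * b ≤ 1 := by nlinarith [ha.1, ha.2, hb.1, hb.2]
  have hT := h.T
  have hY := h.Y
  have hr0 := h.r0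
  have hB := B_pos h
  obtain ⟨β, hβ⟩ : ∃ β, β = (1 - e ^ 2) * e2 r e pB / 2 := ⟨_, rfl⟩
  obtain ⟨w, hw⟩ : ∃ w, w = (1 - r ^ 2) * e2 r e pW := ⟨_, rfl⟩
  have hβ0 : 0 ≤ β := by rw [hβ]; positivity
  have hwβ : β ≤ w := by
    have h1 := Uh_pos h (A := 1 / x) (by rw [← hxr]; field_simp; exact le_rfl)
    have h2 := Y_Uh hx hxr 1
    have h3 := mul_pos hY h1
    rw [h2, one_pow, one_mul] at h3
    rw [hβ, hw]
    linarith
  have hq := sqrt_conc hβ0 hwβ hp0 hp1 hτ rfl hs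
  have hSq : √((w - a ^ 2 * β) * (w - b ^ 2 * β)) =
      (1 - r ^ 2) * √(Uh r e (a / x) * Uh r e (b / x)) := by
    rw [hβ, hw, ← Y_Uh hx hxr a, ← Y_Uh hx hxr b]
    rw [show (1 - r ^ 2) * Uh r e (a / x) * ((1 - r ^ 2) * Uh r e (b / x)) =
      (1 - r ^ 2) ^ 2 * (Uh r e (a / x) * Uh r e (b / x)) by ring,
      Real.sqrt_mul (by positivity), Real.sqrt_sq hY.le]
  rw [hSq] at hq
  have hS' := S_tau hp1 hτ rfl hs hS
  obtain ⟨D, hD⟩ : ∃ D, D = (1 - r ^ 2) *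
    ((1 - r ^ 2) * √(Uh r e (a / x) * Uh r e (b / x))) := ⟨_, rfl⟩
  have hDD : (1 - τ) * ((1 - r ^ 2) * (w - a * b * β)) + τ * ((1 - r ^ 2) * (w - β)) ≤ D := by
    rw [hD]
    have := mul_le_mul_of_nonneg_left hq hY.le
    linarith
  have key : 0 < QQ r e (a * b) (a ^ 2 + b ^ 2) ((1 - e ^ 2) * (x * (a + b))) S D := by
    rcases le_total r (7 / 10) with hr' | hr'
    · have hσ : (1 - e ^ 2) * (x * (a + b)) ≤ (1 - τ) * (((1 - e ^ 2) + (1 - r ^ 2)) *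
        (1 + a * b) / 2) + τ * (((1 - e ^ 2) + (1 - r ^ 2)) * (1 + a * b) / 2) := by
        have h1 : a + b ≤ 1 + a * b := by nlinarith [ha.2, hb.2]
        have h2 : x ≤ (1 + x ^ 2) / 2 := by nlinarith [sq_nonneg (x - 1)]
        have h3 : x * (a + b) ≤ (1 + x ^ 2) / 2 * (1 + a * b) :=
          mul_le_mul h2 h1 (by linarith [ha.1, hb.1]) (by positivity)
        have h4 := mul_le_mul_of_nonneg_left h3 hT.le
        rw [← hxr]
        linarith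
      have k0 := M0_pos h he hr hr' (a := a * b) ⟨hp0, hp1⟩
      have k1' := M1_pos h he hr hr' (a := a * b) ⟨hp0, hp1⟩
      simp only [M0, M1, e3_mul3, e3_add3, e3_one, v_u3, v_w3, v_i3] at k0 k1'
      simp only [pMH, e3, ev_cons, ev_nil, v_nil, e2_add, e2_smul, e2_mul, v_Y, v_T, v_C, v_1,
        v_L] at k0 k1'
      push_cast at k0 k1'
      refine QQ_pos h hp0 hp1 hτ hs hσ hS' hDD ?_ ?_
      · rw [hw, hβ]; unfold QQ; rw [r_MB]; linarith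
      · rw [hw, hβ]; unfold QQ; rw [r_MB]; linarith
    · have hσ : (1 - e ^ 2) * (x * (a + b)) ≤ (1 - τ) * ((1 - r ^ 2) + (1 - e ^ 2) * (a * b)) +
          τ * ((1 - r ^ 2) + (1 - e ^ 2) * (1 + a * b) ^ 2 / 4) := by
        have h2 : x * (a + b) ≤ x ^ 2 + (a + b) ^ 2 / 4 := by
          nlinarith [sq_nonneg (x - (a + b) / 2)]
        have h4 := mul_le_mul_of_nonneg_left h2 hT.le
        have h5 : (a + b) ^ 2 = 4 * (a * b) + (1 - a * b) ^ 2 * τ := by linarith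
        rw [h5] at h4
        rw [← hxr]
        linarith
      have k0 := N0_pos h he hr' (a := a * b) ⟨hp0, hp1⟩
      have k1' := N1_pos h he hr' (a := a * b) ⟨hp0, hp1⟩
      simp only [N0, N1, e3_mul3, e3_add3, e3_one, v_u3, v_w3, v_i3] at k0 k1'
      simp only [pMH, e3, ev_cons, ev_nil, v_nil, e2_smul, e2_mul, v_Y, v_T, v_C, v_1,
        v_L] at k0 k1'
      push_cast at k0 k1'
      refine QQ_pos h hp0 hp1 hτ hs hσ hS' hDD ?_ ?_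
      · rw [hw, hβ]; unfold QQ; rw [r_MB]; linarith
      · rw [hw, hβ]; unfold QQ; rw [r_MB]; linarith
  rw [← YKD_eq hx hxr, hD] at key
  refine pos_of_mul_pos_right (a := 1 - r ^ 2) ?_ hY.le
  linarith

/-! ### Lower bounds of the kernel -/

theorem KD_ge (h : Dm r e) (hA : 0 ≤ A) (hB : 0 ≤ B)
    (hS : (1 - r ^ 2) * (A ^ 2 + B ^ 2) / 2 ≤ (1 - e ^ 2) * (1 - S)) :
    (KK r e).pm A B + A * B * (gY r e + fY r e * (1 - (A + B) / 2)) ≤ KD r e A B S := by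
  rw [KD_eq]
  have := mul_nonneg (mul_nonneg (B_pos h).le (mul_nonneg hA hB)) (sub_nonneg.2 hS)
  linarith

theorem pm_one (h : Dm r e) : (KK r e).pm 1 1 = 0 := by
  have h1 := (base h).tan1
  have h2 := (base h).tan2
  rw [KS.pm, KS.g, h1, h2]; ring

theorem pm_left' (h : Dm r e) (hA : A ∈ Icc (0 : ℝ) 1) (hB : B ∈ Icc (0 : ℝ) 1) :
    0 ≤ (KK r e).pm A B := by
  rcases (by linarith [hA.2, hB.2] : A + B ≤ 2).eq_or_lt with h1 | h1
  · have hA1 : A = 1 := by linarith [hA.2, hB.2]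
    have hB1 : B = 1 := by linarith [hA.2, hB.2]
    rw [hA1, hB1, pm_one h]
  · exact (pm_left h hA hB h1).le

theorem sqrt_ge {u v m : ℝ} (hm : 0 ≤ m) (hu : m ≤ u) (hv : m ≤ v) : m ≤ √(u * v) := by
  refine Real.le_sqrt_of_sq_le ?_
  rw [sq]
  exact mul_le_mul hu hv hm (hm.trans hu)

/-- The lower bound of `Uh`. -/
noncomputable def mU (r e : ℝ) : ℝ := r ^ 2 * ((r + e) * (3 * r + 2 * e)) * ((1 - r ^ 2) *
    (2 * ((r + e) * (3 * r + 2 * e) * e2 r e uN) + e2 r e bN) - (1 - e ^ 2) * e2 r e bN)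

theorem mU_pos (h : Dm r e) : 0 < mU r e := by
  have := h.L
  have := h.r0
  have := u1_pos h
  unfold mU
  positivity

theorem Y_sqrt_ge (h : Dm r e) (hA : (1 - r ^ 2) * A ^ 2 ≤ 1 - e ^ 2)
    (hB : (1 - r ^ 2) * B ^ 2 ≤ 1 - e ^ 2) :
    mU r e ≤ (1 - r ^ 2) * √(Uh r e A * Uh r e B) := by
  have hY := h.Y
  have h1 : mU r e / (1 - r ^ 2) ≤ √(Uh r e A * Uh r e B) := by
    refine sqrt_ge (div_nonneg (mU_pos h).le hY.le) ?_ ?_
    · rw [div_le_iff₀ hY, mul_comm]; exact Uh_ge h hA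
    · rw [div_le_iff₀ hY, mul_comm]; exact Uh_ge h hB
  rwa [div_le_iff₀ hY, mul_comm] at h1

theorem Uh_one (r e : ℝ) : Uh r e 1 = r ^ 2 * ((r + e) * (3 * r + 2 * e)) *
    (2 * ((r + e) * (3 * r + 2 * e) * e2 r e uN)) := by
  unfold Uh; ring

theorem AB_combine {P Q m : ℝ} (hP : 0 ≤ P) (hm : 0 < m) (hA : 0 ≤ A) (hB : 0 ≤ B)
    (h1 : A * B = 0 → 0 < P) (hQ : m ≤ Q) : 0 < P + A * B * Q := by
  rcases (mul_nonneg hA hB).eq_or_lt with h0 | h0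
  · have := h1 h0.symm
    rw [← h0]; linarith
  · have := mul_pos h0 (hm.trans_le hQ)
    linarith

/-- (C7) for `x ≥ 1`, `ρ ≥ e/3`. -/
theorem c7_a (h : Dm r e) (h1 : e ≤ 3 * r) (h2 : r ≤ e) (hA : A ∈ Icc (0 : ℝ) 1)
    (hB : B ∈ Icc (0 : ℝ) 1) (hXA : (1 - r ^ 2) * A ^ 2 ≤ 1 - e ^ 2)
    (hXB : (1 - r ^ 2) * B ^ 2 ≤ 1 - e ^ 2)
    (hS : (1 - r ^ 2) * (A ^ 2 + B ^ 2) / 2 ≤ (1 - e ^ 2) * (1 - S)) :
    0 < KD r e A B S + (1 - r ^ 2) * (A * B) * √(Uh r e A * Uh r e B) := by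
  have hK := KD_ge h hA.1 hB.1 hS
  have hs := Y_sqrt_ge h hXA hXB
  have hf := fY_nonneg h h1
  have hJ := J2_pos h h2 h01
  rw [J2, e3_one, pu1] at hJ
  simp only [e2_add, e2_smul, e2_mul, v_Y, v_T, v_L, v_L1, v_v] at hJ
  push_cast at hJ
  have hL := h.L
  have hr0 := h.r0
  have hm : 0 < gY r e + mU r e := by
    have h3 : gY r e + mU r e = r ^ 2 * ((r + e) * (3 * r + 2 * e)) *
        (2 * ((1 - r) * (r + e) * e2 r e gN) + ((1 - r ^ 2) *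
    (2 * ((r + e) * (3 * r + 2 * e) * e2 r e uN) + e2 r e bN) - (1 - e ^ 2) * e2 r e bN)) := by
      unfold gY mU
      simp only [pg1, e2_smul, e2_mul, v_r2, v_L, v_L1]
      push_cast
      ring
    rw [h3]
    exact mul_pos (by positivity) (by linarith)
  have hf2 := mul_nonneg hf (by linarith [hA.2, hB.2] : 0 ≤ 1 - (A + B) / 2)
  have h4 := AB_combine (P := (KK r e).pm A B) (pm_left' h hA hB) hm hA.1 hB.1 (fun h0 => ?_)
    (Q := gY r e + fY r e * (1 - (A + B) / 2) + (1 - r ^ 2) * √(Uh r e A * Uh r e B))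
    (by linarith)
  · linarith
  · refine pm_left h hA hB ?_
    rcases mul_eq_zero.1 h0 with h5 | h5
    · rw [h5]; linarith [hB.2]
    · rw [h5]; linarith [hA.2]

/-- (C7) for `x ≤ 1`, `A, B ≤ 1`. -/
theorem c7_b (h : Dm r e) (h1 : e ≤ r) (hA : A ∈ Icc (0 : ℝ) 1) (hB : B ∈ Icc (0 : ℝ) 1)
    (hS : (1 - r ^ 2) * (A ^ 2 + B ^ 2) / 2 ≤ (1 - e ^ 2) * (1 - S)) :
    0 < KD r e A B S + (1 - r ^ 2) * (A * B) * √(Uh r e A * Uh r e B) := by
  have hK := KD_ge h hA.1 hB.1 hS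
  have hL := h.L
  have hr0 := h.r0
  have hY := h.Y
  have hu := uN_pos h
  have hU1 : 0 < Uh r e 1 := by rw [Uh_one]; positivity
  have hs : Uh r e 1 ≤ √(Uh r e A * Uh r e B) :=
    sqrt_ge hU1.le (Uh_anti h hA.1 hA.2) (Uh_anti h hB.1 hB.2)
  have hs' := mul_le_mul_of_nonneg_left hs hY.le
  have hf := fY_nonneg h (by linarith : e ≤ 3 * r)
  have hJ := T4_pos h h1 h01
  rw [T4, e3_one] at hJ
  simp only [e2_add, e2_mul, v_L2, v_L0] at hJ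
  have hm : 0 < gY r e + (1 - r ^ 2) * Uh r e 1 := by
    have h3 : gY r e + (1 - r ^ 2) * Uh r e 1 = 2 * ((1 - r) * (r ^ 2 * (r + e) *
        ((r + e) * (3 * r + 2 * e)))) *
        (e2 r e gN + (3 * r + 2 * e) * (1 + r) * e2 r e uN) := by
      rw [Uh_one]
      unfold gY
      simp only [pg1, e2_smul, e2_mul, v_r2, v_L, v_L1]
      push_cast
      ring
    rw [h3]
    have := h.v
    have := h.e0
    exact mul_pos (by positivity) hJ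
  have hf2 := mul_nonneg hf (by linarith [hA.2, hB.2] : 0 ≤ 1 - (A + B) / 2)
  have h4 := AB_combine (P := (KK r e).pm A B) (pm_left' h hA hB) hm hA.1 hB.1 (fun h0 => ?_)
    (Q := gY r e + fY r e * (1 - (A + B) / 2) + (1 - r ^ 2) * √(Uh r e A * Uh r e B))
    (by linarith)
  · linarith
  · refine pm_left h hA hB ?_
    rcases mul_eq_zero.1 h0 with h5 | h5
    · rw [h5]; linarith [hB.2]
    · rw [h5]; linarith [hA.2]

/-- The main bound for `ρ ≤ 3/10`. -/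
theorem T5_bound (h : Dm r e) (h1 : e ≤ r) (hr : r ≤ 3 / 10) :
    0 < gY r e - fY r e * ((r ^ 2 - e ^ 2) / (2 * (1 - r ^ 2))) + mU r e := by
  have hJ := T5_pos h h1 hr h01
  rw [T5, e3_one, pu1] at hJ
  simp only [e2_add, e2_smul, e2_mul, v_Y, v_T, v_L, v_L0, v_G, v_r2] at hJ
  push_cast at hJ
  have hY := h.Y
  have hv := h.v
  have h2 : gY r e - fY r e * ((r ^ 2 - e ^ 2) / (2 * (1 - r ^ 2))) + mU r e =
      (1 - r) / (2 * (1 - r ^ 2)) * (2 * ((1 - r ^ 2) * e2 r e pg1) -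
        (r ^ 2 - e ^ 2) * e2 r e pf1 + 2 * (r ^ 2 * ((r + e) * (3 * r + 2 * e)) * (1 + r) *
        ((1 - r ^ 2) * (2 * ((r + e) * (3 * r + 2 * e) * e2 r e uN) + e2 r e bN) -
          (1 - e ^ 2) * e2 r e bN))) := by
    unfold gY fY mU
    field_simp
    ring
  rw [h2]
  exact mul_pos (by positivity) (by linarith)

theorem c_le (h : Dm r e) (hXA : (1 - r ^ 2) * A ^ 2 ≤ 1 - e ^ 2) :
    A - 1 ≤ (r ^ 2 - e ^ 2) / (2 * (1 - r ^ 2)) := by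
  have hY := h.Y
  rw [le_div_iff₀ (by linarith)]
  nlinarith [mul_nonneg hY.le (sq_nonneg (A - 1))]

/-- (C7) for `x ≤ 1`, `A, B ≥ 1`, `ρ ≤ 3/10`. -/
theorem c7_c (h : Dm r e) (h1 : e ≤ r) (hr : r ≤ 3 / 10) (hA : 1 ≤ A) (hB : 1 ≤ B)
    (hXA : (1 - r ^ 2) * A ^ 2 ≤ 1 - e ^ 2) (hXB : (1 - r ^ 2) * B ^ 2 ≤ 1 - e ^ 2)
    (hS : (1 - r ^ 2) * (A ^ 2 + B ^ 2) / 2 ≤ (1 - e ^ 2) * (1 - S)) :
    0 < KD r e A B S + (1 - r ^ 2) * (A * B) * √(Uh r e A * Uh r e B) := by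
  have hK := KD_ge h (by linarith) (by linarith) hS
  have hs := Y_sqrt_ge h hXA hXB
  have hf := fY_nonneg h (by linarith [h.r0] : e ≤ 3 * r)
  have hb := T5_bound h h1 hr
  have hA' := c_le h hXA
  have hB' := c_le h hXB
  have hpm : 0 ≤ (KK r e).pm A B := by
    rcases (by linarith : 2 ≤ A + B).eq_or_lt with h2 | h2
    · have hA1 : A = 1 := by linarith
      have hB1 : B = 1 := by linarith
      rw [hA1, hB1, pm_one h]
    · exact (pm_right h h1 hA hB h2 hXA hXB).le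
  have hf2 := mul_le_mul_of_nonneg_left
    (by linarith : (A + B) / 2 - 1 ≤ (r ^ 2 - e ^ 2) / (2 * (1 - r ^ 2))) hf
  have h4 := AB_combine (A := A) (B := B) hpm hb (by linarith) (by linarith) (fun h0 => ?_)
    (Q := gY r e + fY r e * (1 - (A + B) / 2) + (1 - r ^ 2) * √(Uh r e A * Uh r e B))
    (by linarith)
  · linarith
  · exfalso
    have : 0 < A * B := mul_pos (by linarith) (by linarith)
    linarith

/-- The lower bound on opposite sides. -/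
theorem KD_opp (h : Dm r e) (hA : 0 ≤ A) (hA1 : A ≤ 1) (hB : 1 ≤ B)
    (hS : (1 - r ^ 2) * (A ^ 2 + B ^ 2) / 2 +
      (1 - r ^ 2) ^ 2 * ((1 - A ^ 2) * (B ^ 2 - 1)) / (2 * r ^ 2) ≤ (1 - e ^ 2) * (1 - S)) :
    (KK r e).hh (EE r e) (FF r e) (1 - A) (B - 1) -
      (1 - A) * (B - 1) * (A * B) * ((1 + A) * FF r e) +
      A * B * (gY r e + fY r e * (1 - (A + B) / 2)) ≤ KD r e A B S := by
  rw [KD_eq, KS.hh]
  have hr0 := h.r0
  have h1 := mul_nonneg (mul_nonneg (B_pos h).le (mul_nonneg hA (by linarith : 0 ≤ B)))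
    (sub_nonneg.2 hS)
  have h2 : e2 r e pB * (A * B) * ((1 - r ^ 2) ^ 2 * ((1 - A ^ 2) * (B ^ 2 - 1)) /
      (2 * r ^ 2)) = (1 - A) * (B - 1) * (A * B) * ((1 + A) * (1 + B) * EE r e) := by
    rw [EE, k2_eq, r_B]
    field_simp
    ring
  have e1 : (1 : ℝ) - (1 - A) = A := by ring
  have e2' : (1 : ℝ) + (B - 1) = B := by ring
  have e3' : (2 : ℝ) - (1 - A) = 1 + A := by ring
  have e4' : (2 : ℝ) + (B - 1) = 1 + B := by ring
  rw [e1, e2', e3', e4']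
  linarith

/-- (C7) for `x ≤ 1`, `A ≤ 1 ≤ B`, `ρ ≤ 3/10`. -/
theorem c7_d (h : Dm r e) (h1 : e < r) (hr : r ≤ 3 / 10) (hx : 0 < x)
    (hxr : (1 - e ^ 2) * x ^ 2 = 1 - r ^ 2) (hA : 0 ≤ A) (hA1 : A ≤ 1) (hB : 1 ≤ B)
    (hXB : (1 - r ^ 2) * B ^ 2 ≤ 1 - e ^ 2)
    (hS : (1 - r ^ 2) * (A ^ 2 + B ^ 2) / 2 +
      (1 - r ^ 2) ^ 2 * ((1 - A ^ 2) * (B ^ 2 - 1)) / (2 * r ^ 2) ≤ (1 - e ^ 2) * (1 - S))
    (hne : A < 1 ∨ 1 < B) :
    0 < KD r e A B S + (1 - r ^ 2) * (A * B) * √(Uh r e A * Uh r e B) := by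
  have hK := KD_opp h hA hA1 hB hS
  have hY := h.Y
  have hXA : (1 - r ^ 2) * A ^ 2 ≤ 1 - e ^ 2 := by
    refine le_trans (mul_le_mul_of_nonneg_left ?_ hY.le) hXB
    nlinarith
  have hs := Y_sqrt_ge h hXA hXB
  have hf := fY_nonneg h (by linarith [h.r0] : e ≤ 3 * r)
  have hb := T5_bound h h1.le hr
  have hB' := c_le h hXB
  have hh := hh_pos h h1 hx hxr ⟨hA, hA1⟩ hB hXB hne
  have hr0 := h.r0
  have hg : 0 ≤ (r ^ 2 - e ^ 2) / (2 * (1 - r ^ 2)) :=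
    div_nonneg (by nlinarith [h.e0]) (by linarith)
  have hF : (1 - A) * (B - 1) * ((1 + A) * FF r e) ≤ fY r e * (1 - A) / 4 := by
    have e1 : (1 - A) * (B - 1) * ((1 + A) * FF r e) =
        fY r e * (1 - A) * ((1 + A) * ((1 - r ^ 2) * (B - 1) / (4 * r ^ 2))) := by
      unfold FF; ring
    have e2' : (1 - r ^ 2) * (B - 1) / (4 * r ^ 2) ≤ 1 / 8 := by
      rw [div_le_iff₀ (by positivity)]
      rw [le_div_iff₀ (by linarith)] at hB'
      nlinarith [h.e0]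
    have e3' : (1 + A) * ((1 - r ^ 2) * (B - 1) / (4 * r ^ 2)) ≤ 2 * (1 / 8) :=
      mul_le_mul (by linarith) e2' (div_nonneg (mul_nonneg hY.le (by linarith))
        (by positivity)) (by norm_num)
    rw [e1]
    have := mul_le_mul_of_nonneg_left e3' (mul_nonneg hf (by linarith : 0 ≤ 1 - A))
    linarith
  have hf1 := mul_nonneg hf (by linarith : 0 ≤ 1 - A)
  have hf2 := mul_le_mul_of_nonneg_left hB' hf
  have hf3 := mul_nonneg hf hg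
  have h4 := AB_combine (A := A) (B := B) hh.le hb hA (by linarith) (fun _ => hh)
    (Q := gY r e + fY r e * (1 - (A + B) / 2) - (1 - A) * (B - 1) * ((1 + A) * FF r e) +
      (1 - r ^ 2) * √(Uh r e A * Uh r e B)) (by linarith)
  linarith

theorem KD_comm (r e A B S : ℝ) : KD r e B A S = KD r e A B S := by unfold KD; ring

end Vale.Agent.P219.D4
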